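import Vale.Agent.P355.H147.Acc2

/-! Fast accumulation, blocks of any dimension. -/

namespace Vale.Agent.P355.H147

open Finset Vale.Agent.P355
open Vale.Agent.P355.H998.E (RcE)
open Vale.Agent.P355.H129 (force force_eq)

/-- `inD` with a mask. -/
def inDf (w mw R : ℕ) (Ds : List ℕ) : ℕ → ℕ :=
  List.rec (motive := fun _ => ℕ → ℕ) (fun _ => 0)
    (fun D _ ih p => Nat.add (Nat.mul (Nat.land (Nat.shiftRight R p) mw) D)
      (ih (Nat.add p w))) Ds

theorem inDf_eq {w mw R : ℕ} (hm : mw = 2 ^ w - 1) : ∀ (Ds : List ℕ) (p : ℕ),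
    inDf w mw R Ds p = inD w R Ds p
  | [], p => rfl
  | D :: Ds, p => by
    have e1 : inDf w mw R (D :: Ds) p = ((R >>> p) &&& mw) * D + inDf w mw R Ds (p + w) := rfl
    have e2 : inD w R (D :: Ds) p = ((R >>> p) % 2 ^ w) * D + inD w R Ds (p + w) := rfl
    rw [e1, e2, inDf_eq hm Ds]
    have e3 : (R >>> p) &&& mw = (R >>> p) % 2 ^ w := by
      rw [hm]; exact Nat.and_two_pow_sub_one_eq_mod _ w
    rw [e3]

/-- `zX` with a mask; `TS`: shift per representative and tables. -/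
def zXf (w mw l C : ℕ) (TS : List (ℕ × List ℕ)) : List ℕ → ℕ :=
  List.rec (motive := fun _ => List ℕ → ℕ) (fun _ => C)
    (fun t _ ih Rs => List.rec (motive := fun _ => ℕ) C
      (fun R Rs' _ => Nat.add (inDf w mw R t.2 (Nat.mul w (Nat.mul t.1 l))) (ih Rs')) Rs) TS

theorem zXf_eq {w mw l C : ℕ} (hm : mw = 2 ^ w - 1) : ∀ (TS : List (ℕ × List ℕ)) (Rs : List ℕ),
    zXf w mw l C TS Rs = zX w l C TS Rs
  | [], Rs => rfl
  | t :: TS, [] => rfl
  | t :: TS, R :: Rs => by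
    have e1 : zXf w mw l C (t :: TS) (R :: Rs)
        = inDf w mw R t.2 (w * (t.1 * l)) + zXf w mw l C TS Rs := rfl
    have e2 : zX w l C (t :: TS) (R :: Rs)
        = inD w R t.2 (w * (t.1 * l)) + zX w l C TS Rs := rfl
    rw [e1, e2, zXf_eq hm TS Rs, inDf_eq hm]

/-- row `k`, fast. -/
def accKg (β rw mβ Ws TT n nrw BP w mw C C' : ℕ) (TS TS' : List (ℕ × List ℕ)) (k E : ℕ)
    (Rs : List ℕ) (acc : ℕ) : ℕ :=
  force (Nat.mod (Nat.shiftRight BP k) 2) fun bk =>
    force (Nat.rec (motive := fun _ => ℕ → ℕ) (fun a => a)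
      (fun l ih a => force (Nat.succ (accGf β rw mβ Ws TT
        (mmu bk (Nat.mod (Nat.shiftRight BP l) 2)) n (zXf w mw l C TS Rs)
        (Nat.shiftRight E (Nat.mul nrw l)) a)) ih) k acc)
      fun acc' => Nat.succ (accGf β rw mβ Ws TT (mmu bk bk) n
        (zXf w mw k C' TS' Rs) (Nat.shiftRight E (Nat.mul nrw k)) acc')

theorem accKg_eq {β rw mβ Ws TT n BP w mw C C' k E acc : ℕ} {TS TS' : List (ℕ × List ℕ)}
    {Rs : List ℕ} (hβ : mβ = 2 ^ β - 1) (hw : mw = 2 ^ w - 1) (hrw : 19 ≤ rw) :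
    accKg β rw mβ Ws TT n (rw * n) BP w mw C C' TS TS' k E Rs acc
      = accK (RcE TT rw) w β Ws n BP C C' TS TS' k E Rs acc := by
  have step : ∀ (μ l a : ℕ), Nat.succ (accGf β rw mβ Ws TT μ n (zXf w mw l C TS Rs)
        (Nat.shiftRight E (Nat.mul (rw * n) l)) a)
      = accG (RcE TT rw) β Ws n (slt (zX w l C TS Rs) a)
        (Nat.mod (Nat.shiftRight E (Nat.mul (Nat.mul (RcE TT rw).rw n) l))
          (Nat.pow 2 (Nat.mul (RcE TT rw).rw n))) μ a := by
    intro μ l a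
    rw [accG_eq hβ hrw, zXf_eq hw]
    show _ = Nat.succ (accGf β rw mβ Ws TT μ n _ ((E >>> (rw * n * l)) % 2 ^ (rw * n)) a)
    rw [accGf_mask hβ hrw]
    rfl
  unfold accKg accK
  simp only [force_eq, step]
  rw [accG_eq hβ hrw, zXf_eq hw]
  rfl

/-- the list is forced. -/
def forceT {α : Type} (l : List (ℕ × List ℕ)) : (List (ℕ × List ℕ) → α) → α :=
  List.rec (motive := fun _ => (List (ℕ × List ℕ) → α) → α) (fun k => k [])
    (fun t _ ih k => force t.1 fun d => forceL t.2 fun D => ih fun l' => k ((d, D) :: l')) l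

theorem forceT_eq {α : Type} : ∀ (l : List (ℕ × List ℕ)) (k : List (ℕ × List ℕ) → α),
    forceT l k = k l
  | [], k => rfl
  | t :: l, k => by
    have e : forceT (t :: l) k = force t.1 fun d => forceL t.2 fun D =>
      forceT l fun l' => k ((d, D) :: l') := rfl
    rw [e, force_eq, forceL_eq, forceT_eq l]

/-- the row `k`, fast: literal parameters. -/
def rowG (β rw mβ Ws TT n nrw BP w mw C C' : ℕ) (TS TS' : List (ℕ × List ℕ)) (bs : List BD)
    (EL : List ℕ) (k acc : ℕ) : ℕ :=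
  forceL (rowsKX k bs) fun Rs => force (nthL EL k) fun E =>
    accKg β rw mβ Ws TT n nrw BP w mw C C' TS TS' k E Rs acc

/-- `num` rows starting with `k`. -/
def runG (β rw mβ Ws TT n nrw BP w mw C C' : ℕ) (TS TS' : List (ℕ × List ℕ)) (bs : List BD)
    (EL : List ℕ) (num : ℕ) : ℕ → ℕ → ℕ :=
  Nat.rec (motive := fun _ => ℕ → ℕ → ℕ) (fun _ acc => acc)
    (fun _ ih k acc => force (rowG β rw mβ Ws TT n nrw BP w mw C C' TS TS' bs EL k acc) fun a =>
      force (Nat.succ k) fun k' => ih k' a) num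

/-- the parameters are forced once. -/
def TyE.runG (t : TyE) (TT rw : ℕ) (s : Bool) (num a X : ℕ) : ℕ :=
  force (Nat.sub (Nat.pow 2 t.β) 1) fun mβ => force (Nat.sub (Nat.pow 2 t.w) 1) fun mw =>
  force (Nat.mul rw t.n) fun nrw => force t.β fun β => force t.Ws fun Ws => force t.n fun n =>
  force t.BP fun BP => force t.w fun w =>
  force (cstX t.oU (mkTS (fun b => cond s b.Tn b.Tp) t.bs)) fun C =>
  force (cstX t.oU (mkTS (fun b => cond s b.Sn b.Sp) t.bs)) fun C' =>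
  forceT (mkTS (fun b => cond s b.Tp b.Tn) t.bs) fun TS =>
  forceT (mkTS (fun b => cond s b.Sp b.Sn) t.bs) fun TS' =>
  H147.runG β rw mβ Ws TT n nrw BP w mw C C' TS TS' t.bs t.EL num a X

theorem rowG_eq {t : TyE} {TT rw : ℕ} (hR : t.R = RcE TT rw)
    (hrw : 19 ≤ rw) (s : Bool) (k acc : ℕ) :
    rowG t.β rw (2 ^ t.β - 1) t.Ws TT t.n (rw * t.n) t.BP t.w (2 ^ t.w - 1)
      (cstX t.oU (mkTS (fun b => cond s b.Tn b.Tp) t.bs))
      (cstX t.oU (mkTS (fun b => cond s b.Sn b.Sp) t.bs))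
      (mkTS (fun b => cond s b.Tp b.Tn) t.bs) (mkTS (fun b => cond s b.Sp b.Sn) t.bs)
      t.bs t.EL k acc = t.rowX s k acc := by
  unfold rowG TyE.rowX
  simp only [forceL_eq, force_eq]
  rw [accKg_eq rfl rfl hrw]
  cases s <;> simp only [cond_false, cond_true] <;> unfold rowX <;> rw [hR] <;>
    simp only [forceL_eq, force_eq]

theorem runG_eq {t : TyE} {TT rw : ℕ} (hR : t.R = RcE TT rw)
    (hrw : 19 ≤ rw) (s : Bool) (num a X : ℕ) : t.runG TT rw s num a X = t.run s num a X := by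
  unfold TyE.runG
  simp only [forceT_eq, force_eq]
  show H147.runG t.β rw (2 ^ t.β - 1) t.Ws TT t.n (rw * t.n) t.BP t.w (2 ^ t.w - 1)
      _ _ _ _ t.bs t.EL num a X = _
  induction num generalizing a X with
  | zero => rfl
  | succ n ih =>
    have e1 : t.run s (n + 1) a X = force (t.rowX s a X) fun x => force (Nat.succ a) fun k' =>
      t.run s n k' x := rfl
    rw [e1, force_eq, force_eq, ← ih, ← rowG_eq hR hrw s a X]
    show force _ _ = _
    rw [force_eq]
    rfl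

/-- a checked chunk, fast. -/
theorem Ch.ckG {t : TyE} {ν : ℕ → ℕ → ℕ} {nk : ℕ} (ht : t.Ok ν nk) {TT rw : ℕ}
    (hR : t.R = RcE TT rw) (hrw : Nat.ble 19 rw = true) (s : Bool)
    (num a b X X' : ℕ)
    (h : and (Nat.beq (Nat.add a num) b) (and (Nat.ble b nk)
      (Nat.beq (t.runG TT rw s num a X) X')) = true) : Ch t s a b X X' := by
  rw [runG_eq hR (Nat.le_of_ble_eq_true hrw)] at h
  exact Ch.ck ht s num a b X X' h

end Vale.Agent.P355.H147
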