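import Vale.Agent.P355.H147.Tab
import Vale.Agent.P355.H129.Lin

/-! Packed accumulation of a sum over pairs of orbit representatives. -/

namespace Vale.Agent.P355.H147

open Finset
open Vale.Agent.P355.H129 (force force_eq dg dg_sum sub sub_spec rep sum_dg NRep)

/-! ### Loops -/

/-- field `i` of width `w`. -/
def fld (w x i : ℕ) : ℕ := Nat.mod (Nat.shiftRight x (Nat.mul w i)) (Nat.pow 2 w)

theorem fld_eq (w x i : ℕ) : fld w x i = dg (2 ^ w) x i := by
  show (x >>> (w * i)) % 2 ^ w = x / (2 ^ w) ^ i % 2 ^ w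
  rw [Nat.shiftRight_eq_div_pow, pow_mul]

/-- `acc + ∑ f i`, evaluated step by step. -/
def sumA (f : ℕ → ℕ) (n : ℕ) : ℕ → ℕ :=
  Nat.rec (motive := fun _ => ℕ → ℕ) (fun acc => acc)
    (fun i ih acc => force (Nat.add acc (f i)) fun a => ih a) n

theorem sumA_eq (f : ℕ → ℕ) (n acc : ℕ) : sumA f n acc = acc + ∑ i ∈ range n, f i := by
  induction n generalizing acc with
  | zero => rfl
  | succ n ih =>
    have h : sumA f (n + 1) acc = force (acc + f n) fun a => sumA f n a := rfl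
    rw [h, force_eq, ih, sum_range_succ]; ring

/-- list entry. -/
def nthL (l : List ℕ) : ℕ → ℕ :=
  List.rec (motive := fun _ => ℕ → ℕ) (fun _ => 0)
    (fun a _ ih i => Nat.rec (motive := fun _ => ℕ) a (fun j _ => ih j) i) l

theorem nthL_eq : ∀ (l : List ℕ) (i : ℕ), nthL l i = l.getD i 0
  | [], i => by simp [nthL]
  | a :: l, 0 => rfl
  | a :: l, i + 1 => by
    have h : nthL (a :: l) (i + 1) = nthL l i := rfl
    rw [h, nthL_eq l i]; simp

/-- evaluate a list of numbers. -/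
def forceL {α : Type} (l : List ℕ) : (List ℕ → α) → α :=
  List.rec (motive := fun _ => (List ℕ → α) → α) (fun k => k [])
    (fun a _ ih k => force a fun a' => ih fun t => k (List.cons a' t)) l

theorem forceL_eq {α : Type} : ∀ (l : List ℕ) (k : List ℕ → α), forceL l k = k l
  | [], _ => rfl
  | a :: l, k => by
    have h : forceL (a :: l) k = force a fun a' => forceL l fun t => k (a' :: t) := rfl
    rw [h, force_eq, forceL_eq l]

/-- `f 0 :: … :: f (d - 1) :: t`. -/
def consR (f : ℕ → ℕ) (d : ℕ) : List ℕ → List ℕ :=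
  Nat.rec (motive := fun _ => List ℕ → List ℕ) (fun t => t)
    (fun s ih t => ih (List.cons (f s) t)) d

theorem consR_eq (f : ℕ → ℕ) (d : ℕ) (t : List ℕ) :
    consR f d t = (List.range d).map f ++ t := by
  induction d generalizing t with
  | zero => rfl
  | succ d ih =>
    have h : consR f (d + 1) t = consR f d (f d :: t) := rfl
    rw [h, ih, List.range_succ, List.map_append, List.append_assoc]; rfl

/-! ### Packed vectors over the group -/

/-- `P` is the packed vector of the numbers `f g`, `g < n`, all at most `M`. -/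
def VR (β n P M : ℕ) (f : ℕ → ℕ) : Prop :=
  P = ∑ g ∈ range n, f g * (2 ^ β) ^ g ∧ ∀ g, f g ≤ M

theorem VR.add {β n P M P' M' : ℕ} {f f' : ℕ → ℕ} (h : VR β n P M f) (h' : VR β n P' M' f') :
    VR β n (P + P') (M + M') fun g => f g + f' g := by
  refine ⟨?_, fun g => Nat.add_le_add (h.2 g) (h'.2 g)⟩
  rw [h.1, h'.1, ← sum_add_distrib]
  exact sum_congr rfl fun g _ => by ring

theorem VR.smul {β n P M : ℕ} {f : ℕ → ℕ} (k K : ℕ) (hk : k ≤ K) (h : VR β n P M f) :
    VR β n (k * P) (K * M) fun g => k * f g := by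
  refine ⟨?_, fun g => Nat.mul_le_mul hk (h.2 g)⟩
  rw [h.1, mul_sum]
  exact sum_congr rfl fun g _ => by ring

theorem VR.zero (β n : ℕ) : VR β n 0 0 fun _ => 0 := ⟨by simp, fun _ => le_rfl⟩

theorem VR.mono {β n P M M' : ℕ} {f : ℕ → ℕ} (h : VR β n P M f) (hM : M ≤ M') :
    VR β n P M' f := ⟨h.1, fun g => (h.2 g).trans hM⟩

theorem VR.dg {β n P M : ℕ} {f : ℕ → ℕ} (h : VR β n P M f) (hM : M < 2 ^ β) {g : ℕ}
    (hg : g < n) : fld β P g = f g := by
  rw [fld_eq, h.1]
  exact dg_sum hg fun j _ => (h.2 j).trans_lt hM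

/-- the mask test. -/
def vCk (β n b T : ℕ) : Bool :=
  and (Nat.ble b β) (sub (Nat.mul (Nat.sub (Nat.pow 2 b) 1)
    (Nat.div (Nat.sub (Nat.pow (Nat.pow 2 β) n) 1) (Nat.sub (Nat.pow 2 β) 1))) T)

theorem vCk_spec {β n b T : ℕ} (hβ : 0 < β) (h : vCk β n b T = true) :
    VR β n T (2 ^ b) fun g => H129.dg (2 ^ β) T g := by
  unfold vCk at h
  rw [Bool.and_eq_true] at h
  obtain ⟨h1, h2⟩ := h
  have h1' : b ≤ β := Nat.le_of_ble_eq_true h1
  have hB2 : 2 ≤ 2 ^ β := by
    calc 2 = 2 ^ 1 := rfl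
      _ ≤ 2 ^ β := Nat.pow_le_pow_right (by norm_num) hβ
  have hE : ((2 ^ β) ^ n - 1) / (2 ^ β - 1) = rep (2 ^ β) n := (Nat.geomSum_eq hB2 n).symm
  change sub ((2 ^ b - 1) * (((2 ^ β) ^ n - 1) / (2 ^ β - 1))) T = true at h2
  rw [hE] at h2
  have h3 := sub_spec h1' n T h2
  exact ⟨(sum_dg (by positivity) n T h3.1).symm, fun g => (h3.2 g).le⟩

/-- `∑ s', digit (p + w s') of R * D s'`. -/
def inD (w R : ℕ) (Ds : List ℕ) : ℕ → ℕ :=
  List.rec (motive := fun _ => ℕ → ℕ) (fun _ => 0)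
    (fun D _ ih p => Nat.add (Nat.mul (Nat.mod (Nat.shiftRight R p) (Nat.pow 2 w)) D)
      (ih (Nat.add p w))) Ds

theorem inD_spec {w bu β n bt R : ℕ} (hR : ∀ j, dg (2 ^ w) R j < 2 ^ bu) :
    ∀ (Ds : List ℕ) (j : ℕ),
    (∀ D ∈ Ds, VR β n D (2 ^ bt) fun g => H129.dg (2 ^ β) D g) →
    VR β n (inD w R Ds (w * j)) (Ds.length * (2 ^ bu * 2 ^ bt)) fun g =>
      ∑ s ∈ range Ds.length, dg (2 ^ w) R (j + s) * dg (2 ^ β) (Ds.getD s 0) g
  | [], j, _ => by simpa [inD] using VR.zero β n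
  | D :: Ds, j, h => by
    have e : inD w R (D :: Ds) (w * j)
        = ((R >>> (w * j)) % 2 ^ w) * D + inD w R Ds (w * j + w) := rfl
    have e2 : w * j + w = w * (j + 1) := by ring
    have e3 : (R >>> (w * j)) % 2 ^ w = dg (2 ^ w) R j := by
      rw [← fld_eq]; rfl
    rw [e, e2, e3]
    have h1 := (h D (by simp)).smul _ _ (hR j).le
    have h2 := inD_spec hR Ds (j + 1) fun D' hD' => h D' (by simp [hD'])
    have h3 := h1.add h2
    have hf : (fun g => ∑ s ∈ range (D :: Ds).length,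
        dg (2 ^ w) R (j + s) * dg (2 ^ β) ((D :: Ds).getD s 0) g)
        = fun g => dg (2 ^ w) R j * dg (2 ^ β) D g
          + ∑ s ∈ range Ds.length, dg (2 ^ w) R (j + 1 + s) * dg (2 ^ β) (Ds.getD s 0) g := by
      funext g
      rw [List.length_cons, sum_range_succ']
      simp only [List.getD_cons_succ, List.getD_cons_zero, add_zero]
      rw [add_comm]
      congr 1
      exact sum_congr rfl fun s _ => by rw [show j + 1 + s = j + (s + 1) by ring]
    rw [hf]
    refine h3.mono (le_of_eq ?_)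
    rw [List.length_cons]; ring

/-- the packed vector of a pair of representatives; `TS`: for every row the number of columns per
representative and the packed tables. -/
def zX (w l C : ℕ) (TS : List (ℕ × List ℕ)) : List ℕ → ℕ :=
  List.rec (motive := fun _ => List ℕ → ℕ) (fun _ => C)
    (fun t _ ih Rs => List.rec (motive := fun _ => ℕ) C
      (fun R Rs' _ => Nat.add (inD w R t.2 (Nat.mul w (Nat.mul t.1 l))) (ih Rs')) Rs) TS

/-- its entries. -/
def zN (w β l : ℕ) (c : ℕ → ℕ) : List (ℕ × List ℕ) → List ℕ → ℕ → ℕ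
  | [], _, g => c g
  | _ :: _, [], g => c g
  | t :: TS, R :: Rs, g => (∑ s ∈ range t.2.length, dg (2 ^ w) R (t.1 * l + s)
      * dg (2 ^ β) (t.2.getD s 0) g) + zN w β l c TS Rs g

/-- number of terms. -/
def nT (TS : List (ℕ × List ℕ)) : ℕ := (TS.map fun t => t.2.length).sum

theorem zX_spec {w bu β n bt bc l C : ℕ} {c : ℕ → ℕ} (hC : VR β n C bc c) :
    ∀ (TS : List (ℕ × List ℕ)) (Rs : List ℕ),
    (∀ t ∈ TS, ∀ D ∈ t.2, VR β n D (2 ^ bt) fun g => H129.dg (2 ^ β) D g) →
    (∀ R ∈ Rs, ∀ j, dg (2 ^ w) R j < 2 ^ bu) →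
    VR β n (zX w l C TS Rs) (nT TS * (2 ^ bu * 2 ^ bt) + bc) (zN w β l c TS Rs)
  | [], Rs, _, _ => by
    have : zX w l C [] Rs = C := rfl
    rw [this]
    simpa [nT, zN] using hC
  | t :: TS, [], _, _ => by
    have : zX w l C (t :: TS) [] = C := rfl
    rw [this]
    refine (VR.mono hC ?_)
    omega
  | t :: TS, R :: Rs, h, hR => by
    have e : zX w l C (t :: TS) (R :: Rs) = inD w R t.2 (w * (t.1 * l)) + zX w l C TS Rs := rfl
    rw [e]
    have h1 := inD_spec (hR R (by simp)) t.2 (t.1 * l) (h t (by simp))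
    have h2 := zX_spec (l := l) hC TS Rs (fun t' ht' => h t' (by simp [ht']))
      (fun R' hR' => hR R' (by simp [hR']))
    refine (h1.add h2).mono (le_of_eq ?_)
    unfold nT
    rw [List.map_cons, List.sum_cons]; ring

/-! ### Accumulation -/

variable {Ws : ℕ} {val : ℕ → ℝ}

/-- `Z` shifted by 64 bits, with the low 64 bits of `a` below (this keeps the hash values of the
kernel distinct). -/
def slt (Z a : ℕ) : ℕ := Nat.add (Nat.shiftLeft Z 64) (Nat.mod a 18446744073709551616)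

/-- field of a salted number. -/
def fldS (β Z i : ℕ) : ℕ :=
  Nat.mod (Nat.shiftRight Z (Nat.add 64 (Nat.mul β i))) (Nat.pow 2 β)

theorem fldS_slt (β Z a i : ℕ) : fldS β (slt Z a) i = fld β Z i := by
  have h : (slt Z a) >>> (64 + β * i) = Z >>> (β * i) := by
    unfold slt
    show (Z <<< 64 + a % 18446744073709551616) >>> (64 + β * i) = _
    rw [Nat.shiftRight_eq_div_pow, Nat.shiftRight_eq_div_pow, pow_add, ← Nat.div_div_eq_div_mul,
      Nat.shiftLeft_eq, mul_comm Z]
    congr 1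
    have h1 : a % 18446744073709551616 < 2 ^ 64 := Nat.mod_lt _ (by norm_num)
    rw [Nat.mul_add_div (by norm_num), Nat.div_eq_of_lt h1, add_zero]
  show (slt Z a) >>> (64 + β * i) % 2 ^ β = Z >>> (β * i) % 2 ^ β
  rw [h]

/-- reading of a record: class and multiplier. -/
structure Rec where
  /-- bits of a record -/
  rw : ℕ
  /-- class -/
  fi : ℕ → ℕ
  /-- multiplier -/
  fm : ℕ → ℕ

/-- sum over the group; `E`: packed records. The accumulator has 64 low bits which count the calls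
(this keeps the hash values of the kernel distinct). -/
def accG (R : Rec) (β Ws n Z E μ acc : ℕ) : ℕ :=
  Nat.succ (Nat.rec (motive := fun _ => ℕ) acc
    (fun j ih => force (fld R.rw E j) fun e => Nat.add ih (Nat.shiftLeft
      (Nat.mul (Nat.mul μ (R.fm e)) (fldS β Z j)) (Nat.add 64 (Nat.mul Ws (R.fi e))))) n)

/-- the accumulator `X'` is `X` plus `cnt` calls plus the packed combination of value `v`. -/
def AR (Ws : ℕ) (val : ℕ → ℝ) (X X' cnt M : ℕ) (v : ℝ) : Prop :=
  ∃ P, X' = X + cnt + 2 ^ 64 * P ∧ NRep Ws val P M v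

theorem AR.trans {X X' X'' c c' M M' : ℕ} {v v' : ℝ} (h : AR Ws val X X' c M v)
    (h' : AR Ws val X' X'' c' M' v') : AR Ws val X X'' (c + c') (M + M') (v + v') := by
  obtain ⟨P, h1, h2⟩ := h
  obtain ⟨P', h3, h4⟩ := h'
  exact ⟨P + P', by rw [h3, h1]; ring, h2.add h4⟩

theorem AR.refl (X : ℕ) : AR Ws val X X 0 0 0 := ⟨0, by ring, NRep.zero⟩

theorem AR.mono {X X' c M M' : ℕ} {v : ℝ} (h : AR Ws val X X' c M v) (hM : M ≤ M') :
    AR Ws val X X' c M' v := by
  obtain ⟨P, h1, h2⟩ := h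
  exact ⟨P, h1, h2.mono hM⟩

/-- the packed number behind a complete accumulator. -/
theorem AR.final {X c M : ℕ} {v : ℝ} (h : AR Ws val 0 X c M v) (hc : c < 2 ^ 64) :
    NRep Ws val (X / 2 ^ 64) M v := by
  obtain ⟨P, h1, h2⟩ := h
  have : X / 2 ^ 64 = P := by
    rw [h1, zero_add, Nat.add_mul_div_left _ _ (by norm_num), Nat.div_eq_of_lt hc, zero_add]
  rw [this]; exact h2

theorem accG_spec {R : Rec} {β n Z E μ M F : ℕ} {z : ℕ → ℕ} (hZ : VR β n Z M z) (hM : M < 2 ^ β)
    (hF : ∀ e, R.fm e ≤ F) (acc y : ℕ) :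
    AR Ws val acc (accG R β Ws n (slt Z y) E μ acc) 1 (n * (μ * F * M))
      (∑ j ∈ range n, (μ * R.fm (fld R.rw E j) * z j : ℝ) * val (R.fi (fld R.rw E j))) := by
  set step : ℕ → ℕ → ℕ := fun j ih => force (fld R.rw E j) fun e => Nat.add ih (Nat.shiftLeft
      (Nat.mul (Nat.mul μ (R.fm e)) (fldS β (slt Z y) j)) (Nat.add 64 (Nat.mul Ws (R.fi e))))
    with hstep
  have h : ∀ n' ≤ n, AR Ws val acc (Nat.rec (motive := fun _ => ℕ) acc step n') 0
      (n' * (μ * F * M))
      (∑ j ∈ range n', (μ * R.fm (fld R.rw E j) * z j : ℝ) * val (R.fi (fld R.rw E j))) := by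
    intro n'
    induction n' with
    | zero => intro _; simpa using AR.refl (Ws := Ws) (val := val) acc
    | succ n' ih =>
      intro hn
      have h1 := ih (by omega)
      rw [sum_range_succ]
      have h2 : AR Ws val (Nat.rec (motive := fun _ => ℕ) acc step n')
          (Nat.rec (motive := fun _ => ℕ) acc step (n' + 1)) 0 (μ * F * M)
          ((μ * R.fm (fld R.rw E n') * z n' : ℝ) * val (R.fi (fld R.rw E n'))) := by
        refine ⟨(μ * R.fm (fld R.rw E n') * z n') <<< (Ws * R.fi (fld R.rw E n')), ?_, ?_⟩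
        · show step n' (Nat.rec (motive := fun _ => ℕ) acc step n') = _
          rw [hstep]
          simp only
          rw [force_eq, fldS_slt, hZ.dg hM (show n' < n by omega)]
          show _ + (μ * R.fm (fld R.rw E n') * z n') <<< (64 + Ws * R.fi (fld R.rw E n'))
            = _ + 0 + 2 ^ 64 * _
          rw [Nat.shiftLeft_eq, Nat.shiftLeft_eq, pow_add]
          ring
        · have h3 := NRep.single (W := Ws) (val := val) (μ * R.fm (fld R.rw E n') * z n')
            (R.fi (fld R.rw E n'))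
          push_cast at h3
          exact h3.mono (Nat.mul_le_mul (Nat.mul_le_mul_left μ (hF _)) (hZ.2 n'))
      have h3 := h1.trans h2
      have e : n' * (μ * F * M) + μ * F * M = (n' + 1) * (μ * F * M) := by ring
      rw [e] at h3
      exact h3
  obtain ⟨P, h1, h2⟩ := h n le_rfl
  refine ⟨P, ?_, h2⟩
  show Nat.succ _ = _
  rw [h1]; omega

/-- multiplicity of two parities. -/
def mmu (b b' : ℕ) : ℕ := Nat.add 1 (Nat.mul 5 (Nat.mul b b'))

/-- row `k`: sum over `l < k` and the diagonal; `BP`: packed parities. -/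
def accK (R : Rec) (w β Ws n BP : ℕ) (C C' : ℕ) (TS TS' : List (ℕ × List ℕ)) (k E : ℕ)
    (Rs : List ℕ) (acc : ℕ) : ℕ :=
  force (Nat.mod (Nat.shiftRight BP k) 2) fun bk =>
    force (Nat.rec (motive := fun _ => ℕ → ℕ) (fun a => a)
      (fun l ih a => force (slt (zX w l C TS Rs) a) fun Z =>
        force (Nat.mod (Nat.shiftRight E (Nat.mul (Nat.mul R.rw n) l))
          (Nat.pow 2 (Nat.mul R.rw n)))
          fun e => force (accG R β Ws n Z e (mmu bk (Nat.mod (Nat.shiftRight BP l) 2)) a)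
            fun a' => ih a') k acc)
      fun acc' => force (slt (zX w k C' TS' Rs) acc') fun Z =>
        accG R β Ws n Z (Nat.shiftRight E (Nat.mul (Nat.mul R.rw n) k)) (mmu bk bk) acc'

/-- parity of a representative. -/
def bP (BP k : ℕ) : ℕ := BP / 2 ^ k % 2

/-- records of the pair `k`, `l < k`. -/
def eKL (R : Rec) (n E l : ℕ) : ℕ := E >>> (R.rw * n * l) % 2 ^ (R.rw * n)
/-- records of the pair `k`, `k`. -/
def eKK (R : Rec) (n E k : ℕ) : ℕ := E >>> (R.rw * n * k)

theorem accK_spec {R : Rec} {w bu β n bt bc BP C C' k E F : ℕ} {c c' : ℕ → ℕ}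
    {TS TS' : List (ℕ × List ℕ)}
    {Rs : List ℕ} (hC : VR β n C bc c) (hC' : VR β n C' bc c')
    (hT : ∀ t ∈ TS, ∀ D ∈ t.2, VR β n D (2 ^ bt) fun g => H129.dg (2 ^ β) D g)
    (hT' : ∀ t ∈ TS', ∀ D ∈ t.2, VR β n D (2 ^ bt) fun g => H129.dg (2 ^ β) D g)
    (hR : ∀ R ∈ Rs, ∀ j, dg (2 ^ w) R j < 2 ^ bu) {M : ℕ}
    (hM1 : nT TS * (2 ^ bu * 2 ^ bt) + bc ≤ M) (hM2 : nT TS' * (2 ^ bu * 2 ^ bt) + bc ≤ M)
    (hM : M < 2 ^ β) (hF : ∀ e, R.fm e ≤ F) (acc : ℕ) :
    AR Ws val acc (accK R w β Ws n BP C C' TS TS' k E Rs acc) (k + 1)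
      ((k + 1) * (n * (6 * F * M)))
      (∑ l ∈ range k, ∑ j ∈ range n, (mmu (bP BP k) (bP BP l) * R.fm (fld R.rw (eKL R n E l) j)
          * zN w β l c TS Rs j : ℝ) * val (R.fi (fld R.rw (eKL R n E l) j))
        + ∑ j ∈ range n, (mmu (bP BP k) (bP BP k) * R.fm (fld R.rw (eKK R n E k) j)
          * zN w β k c' TS' Rs j : ℝ) * val (R.fi (fld R.rw (eKK R n E k) j))) := by
  have hmm : ∀ a b, mmu (bP BP a) (bP BP b) ≤ 6 := by
    intro a b
    have h1 : bP BP a < 2 := Nat.mod_lt _ (by norm_num)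
    have h2 : bP BP b < 2 := Nat.mod_lt _ (by norm_num)
    have h3 : bP BP a * bP BP b ≤ 1 * 1 := Nat.mul_le_mul (by omega) (by omega)
    show 1 + 5 * (bP BP a * bP BP b) ≤ 6
    omega
  have hb : ∀ a, Nat.mod (Nat.shiftRight BP a) 2 = bP BP a := by
    intro a
    show (BP >>> a) % 2 = _
    rw [Nat.shiftRight_eq_div_pow]; rfl
  unfold accK
  simp only [force_eq, hb]
  have hfold : ∀ k' ≤ k, ∀ a, AR Ws val a (Nat.rec (motive := fun _ => ℕ → ℕ) (fun a => a)
      (fun l ih a => ih (accG R β Ws n (slt (zX w l C TS Rs) a)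
        (Nat.mod (Nat.shiftRight E (Nat.mul (Nat.mul R.rw n) l)) (Nat.pow 2 (Nat.mul R.rw n)))
        (mmu (bP BP k) (bP BP l)) a)) k' a) k' (k' * (n * (6 * F * M)))
      (∑ l ∈ range k', ∑ j ∈ range n, (mmu (bP BP k) (bP BP l)
          * R.fm (fld R.rw (eKL R n E l) j) * zN w β l c TS Rs j : ℝ)
          * val (R.fi (fld R.rw (eKL R n E l) j))) := by
    intro k'
    induction k' with
    | zero => intro _ a; simpa using AR.refl (Ws := Ws) (val := val) a
    | succ k' ih =>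
      intro hk a
      rw [sum_range_succ]
      have h1 := (zX_spec (w := w) (l := k') hC TS Rs hT hR).mono hM1
      have h2 := accG_spec (R := R) (Ws := Ws) (val := val) (μ := mmu (bP BP k) (bP BP k'))
        (E := eKL R n E k') h1 hM hF a a
      have h3 := h2.mono (Nat.mul_le_mul_left n (Nat.mul_le_mul_right M
        (Nat.mul_le_mul_right F (hmm k k'))))
      have h4 := h3.trans (ih (by omega) _)
      have e1 : 1 + k' = k' + 1 := by ring
      have e2 : n * (6 * F * M) + k' * (n * (6 * F * M)) = (k' + 1) * (n * (6 * F * M)) := by ring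
      rw [e1, e2, add_comm (∑ j ∈ range n, _)] at h4
      exact h4
  have h1 := (zX_spec (w := w) (l := k) hC' TS' Rs hT' hR).mono hM2
  have h2 := fun a => accG_spec (R := R) (Ws := Ws) (val := val) (μ := mmu (bP BP k) (bP BP k))
    (E := eKK R n E k) h1 hM hF a a
  have h3 := fun a => (h2 a).mono (Nat.mul_le_mul_left n (Nat.mul_le_mul_right M
    (Nat.mul_le_mul_right F (hmm k k))))
  have h4 := (hfold k le_rfl acc).trans (h3 _)
  have e2 : k * (n * (6 * F * M)) + n * (6 * F * M) = (k + 1) * (n * (6 * F * M)) := by ring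
  rw [e2] at h4
  exact h4

end Vale.Agent.P355.H147
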