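import Vale.Agent.P355.H147.Legs

/-! Symmetries of types with legs. -/

namespace Vale.Agent.P355.H147

open Finset Matrix Vale.Agent.P355

variable {m N c k l : ℕ} {B : Fin m → M6}

/-- ends of all legs. -/
def LFlg.port (x : LFlg N c k l) : Fin k ⊕ Fin l → Fin N := Sum.elim x.kt x.br

/-- a symmetry: permutations of slots, of colours and of legs, conjugation. -/
structure LSym (N c k l : ℕ) where
  σ : Equiv.Perm (Fin N)
  τ : Equiv.Perm (Fin c)
  neg : Bool
  π : Equiv.Perm (Fin k ⊕ Fin l)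

/-- the sign. -/
def sgn (b : Bool) : ℤ := cond b (-1) 1

/-- the action on flags. -/
def LSym.act (s : LSym N c k l) (x : LFlg N c k l) : LFlg N c k l where
  col p := (x.col (s.σ p)).map s.τ.symm
  fl a b := sgn s.neg * x.fl (s.σ a) (s.σ b)
  kt i := s.σ.symm (x.port (s.π (Sum.inl i)))
  br j := s.σ.symm (x.port (s.π (Sum.inr j)))

/-- compatibility with a type. -/
structure LSym.Ok (s : LSym N c k l) (t : Lty N c) : Prop where
  T : ∀ p, t.rt p = true → t.T (s.σ p) = (t.T p).map s.τ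
  lab : ∀ p, t.lab (s.σ p) = t.lab p
  rt : ∀ p, t.rt (s.σ p) = t.rt p
  L : ∀ p, t.L (s.σ p) = t.L p
  π : ∀ i, (s.π i).isLeft = xor i.isLeft s.neg

theorem LFlg.ext' {x y : LFlg N c k l} (h1 : x.col = y.col) (h2 : x.fl = y.fl)
    (h3 : x.port = y.port) : x = y := by
  cases x; cases y
  simp only at h1 h2
  subst h1; subst h2
  have h4 := fun i => congrFun h3 (Sum.inl i)
  have h5 := fun i => congrFun h3 (Sum.inr i)
  simp only [LFlg.port, Sum.elim_inl, Sum.elim_inr] at h4 h5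
  rw [LFlg.mk.injEq]
  exact ⟨rfl, rfl, funext h4, funext h5⟩

theorem LSym.port_act (s : LSym N c k l) (x : LFlg N c k l) (i : Fin k ⊕ Fin l) :
    (s.act x).port i = s.σ.symm (x.port (s.π i)) := by
  cases i <;> rfl

theorem sgn_mul (a b : Bool) : sgn a * sgn b = sgn (xor a b) := by
  cases a <;> cases b <;> rfl

/-- composition. -/
theorem LSym.act_act (s s' s'' : LSym N c k l) (hσ : ∀ p, s''.σ p = s'.σ (s.σ p))
    (hτ : ∀ a, s''.τ.symm a = s.τ.symm (s'.τ.symm a)) (hn : s''.neg = xor s.neg s'.neg)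
    (hπ : ∀ i, s''.π i = s'.π (s.π i)) (x : LFlg N c k l) :
    s.act (s'.act x) = s''.act x := by
  refine LFlg.ext' ?_ ?_ ?_
  · funext p
    show Option.map _ (Option.map _ (x.col (s'.σ (s.σ p)))) = Option.map _ (x.col (s''.σ p))
    rw [Option.map_map, hσ]
    exact congrArg (fun f => Option.map f _) (funext fun a => (hτ a).symm)
  · funext a b
    show sgn _ * (sgn _ * x.fl _ _) = sgn _ * x.fl _ _
    rw [← mul_assoc, sgn_mul, hn, hσ, hσ]
  · funext i
    rw [LSym.port_act, LSym.port_act, LSym.port_act, hπ]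
    apply s''.σ.injective
    rw [Equiv.apply_symm_apply, hσ, Equiv.apply_symm_apply, Equiv.apply_symm_apply]

/-- factor of a leg. -/
noncomputable def lfac (B : Fin m → M6) (i : Fin k ⊕ Fin l) (o : Option (Fin m × Fin 6))
    (z : Fin 6) : ℂ := if i.isLeft = true then vc B o z else star (vc B o z)

theorem lfac_neg (B : Fin m → M6) {i j : Fin k ⊕ Fin l} {n : Bool}
    (h : j.isLeft = xor i.isLeft n) (o : Option (Fin m × Fin 6)) (z : Fin 6) :
    lfac B i o z = if n = true then star (lfac B j o z) else lfac B j o z := by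
  unfold lfac
  rw [h]
  cases i.isLeft <;> cases n <;> simp

/-- the integrand with all legs. -/
noncomputable def Lty.GS (t : Lty N c) (B : Fin m → M6) (e : Fin c → Fin m)
    (x : LFlg N c k l) (v : Fin N → Fin 6) (z : Fin k ⊕ Fin l → Fin 6) : ℂ :=
  mon B e (t.xc x) x.fl v * ∏ i, lfac B i (pt e (t.xc x) v (x.port i)) (z i)

theorem Lty.G_eq (t : Lty N c) (B : Fin m → M6) (e : Fin c → Fin m)
    (x : LFlg N c k l) (v : Fin N → Fin 6) (z : Fin k ⊕ Fin l → Fin 6) :
    t.G B e x v (z ∘ Sum.inl) (z ∘ Sum.inr) = t.GS B e x v z := by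
  unfold Lty.G Lty.GS
  rw [Fintype.prod_sum_type, mul_assoc, star_prod]
  rfl

/-- the flag function with all legs. -/
noncomputable def Lty.phiS (t : Lty N c) (B : Fin m → M6) (e : Fin c → Fin m)
    (v : Fin N → Fin 6) (x : LFlg N c k l) (z : Fin k ⊕ Fin l → Fin 6) : ℂ :=
  if inj t.T t.lab v then
    (6⁻¹ : ℂ) ^ N * ∑ u : Fin N → Fin 6, t.GS B e x (mix (fun p => !t.rt p) v u) z
  else 0

theorem Lty.M_eqS (t : Lty N c) (B : Fin m → M6) (x y : LFlg N c k l) :
    t.M B x y = (av m N c fun e v => ∑ z : Fin k ⊕ Fin l → Fin 6,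
      t.phiS B e v x z * star (t.phiS B e v y z)).re := by
  unfold Lty.M
  refine congrArg Complex.re (av_congr fun e v => ?_)
  rw [← Fintype.sum_prod_type' (f := fun z w => t.phi B e v x z w * star (t.phi B e v y z w))]
  refine (Fintype.sum_equiv (Equiv.sumArrowEquivProdArrow (Fin k) (Fin l) (Fin 6)) _ _
    fun z => ?_).symm
  have h : ∀ x : LFlg N c k l, t.phiS B e v x z = t.phi B e v x (z ∘ Sum.inl) (z ∘ Sum.inr) := by
    intro x
    unfold Lty.phiS Lty.phi
    simp only [Lty.G_eq]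
  rw [h, h]; rfl

theorem LSym.xc_act {s : LSym N c k l} {t : Lty N c} (hs : s.Ok t) (x : LFlg N c k l)
    (p : Fin N) : t.xc (s.act x) p = (t.xc x (s.σ p)).map s.τ.symm := by
  unfold Lty.xc
  rw [hs.rt, hs.L]
  split_ifs with hp
  · rw [hs.T p hp, Option.map_map]
    have : (s.τ.symm ∘ s.τ : Fin c → Fin c) = id := by funext a; simp
    rw [this, Option.map_id]; rfl
  · rfl
  · rfl

theorem LSym.pt_act {s : LSym N c k l} {t : Lty N c} (hs : s.Ok t) (e : Fin c → Fin m)
    (x : LFlg N c k l) (v : Fin N → Fin 6) (p : Fin N) :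
    pt e (t.xc (s.act x)) v p = pt (e ∘ s.τ.symm) (t.xc x) (v ∘ s.σ.symm) (s.σ p) := by
  unfold pt
  rw [LSym.xc_act hs, Option.map_map]
  congr 1
  funext a
  simp

theorem LSym.GS_act {s : LSym N c k l} {t : Lty N c} (hs : s.Ok t) (hB : IsMUBs B)
    (e : Fin c → Fin m) (x : LFlg N c k l) (v : Fin N → Fin 6) (z : Fin k ⊕ Fin l → Fin 6) :
    t.GS B e (s.act x) v z
      = if s.neg = true then star (t.GS B (e ∘ s.τ.symm) x (v ∘ s.σ.symm) (z ∘ s.π.symm))
        else t.GS B (e ∘ s.τ.symm) x (v ∘ s.σ.symm) (z ∘ s.π.symm) := by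
  have h1 : mon B e (t.xc (s.act x)) (s.act x).fl v
      = if s.neg = true then star (mon B (e ∘ s.τ.symm) (t.xc x) x.fl (v ∘ s.σ.symm))
        else mon B (e ∘ s.τ.symm) (t.xc x) x.fl (v ∘ s.σ.symm) := by
    rw [star_mon hB]
    unfold mon
    simp only [LSym.pt_act hs]
    have h2 : ∀ n : Bool, (∏ p, ∏ q, ho B (pt (e ∘ s.τ.symm) (t.xc x) (v ∘ s.σ.symm) (s.σ p))
        (pt (e ∘ s.τ.symm) (t.xc x) (v ∘ s.σ.symm) (s.σ q)) ^ (sgn n * x.fl (s.σ p) (s.σ q)))
        = ∏ p, ∏ q, ho B (pt (e ∘ s.τ.symm) (t.xc x) (v ∘ s.σ.symm) p)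
        (pt (e ∘ s.τ.symm) (t.xc x) (v ∘ s.σ.symm) q) ^ (sgn n * x.fl p q) := by
      intro n
      refine Fintype.prod_equiv s.σ _ _ fun p => ?_
      exact Fintype.prod_equiv s.σ _ _ fun q => rfl
    rw [show (s.act x).fl = fun a b => sgn s.neg * x.fl (s.σ a) (s.σ b) from rfl]
    simp only
    rw [h2]
    cases s.neg
    · simp [sgn]
    · simp [sgn]
  have h3 : ∏ i, lfac B i (pt e (t.xc (s.act x)) v ((s.act x).port i)) (z i)
      = if s.neg = true then star (∏ i, lfac B i (pt (e ∘ s.τ.symm) (t.xc x) (v ∘ s.σ.symm)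
        (x.port i)) ((z ∘ s.π.symm) i))
        else ∏ i, lfac B i (pt (e ∘ s.τ.symm) (t.xc x) (v ∘ s.σ.symm)
        (x.port i)) ((z ∘ s.π.symm) i) := by
    have h4 : ∀ i, lfac B i (pt e (t.xc (s.act x)) v ((s.act x).port i)) (z i)
        = if s.neg = true then star (lfac B (s.π i) (pt (e ∘ s.τ.symm) (t.xc x)
          (v ∘ s.σ.symm) (x.port (s.π i))) ((z ∘ s.π.symm) (s.π i)))
          else lfac B (s.π i) (pt (e ∘ s.τ.symm) (t.xc x)
          (v ∘ s.σ.symm) (x.port (s.π i))) ((z ∘ s.π.symm) (s.π i)) := by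
      intro i
      rw [lfac_neg B (hs.π i), LSym.port_act, LSym.pt_act hs, Equiv.apply_symm_apply]
      simp
    simp only [h4]
    cases s.neg
    · simp only [Bool.false_eq_true, if_false]
      exact Fintype.prod_equiv s.π _ _ fun i => rfl
    · simp only [if_true]
      rw [star_prod]
      exact Fintype.prod_equiv s.π _ _ fun i => rfl
  unfold Lty.GS
  rw [h1, h3]
  cases s.neg
  · simp
  · simp [star_mul']

theorem Lty.Ok.rl {t : Lty N c} (ht : t.Ok) {p : Fin N} (h : t.lab p = true) :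
    t.rt p = true := by
  by_contra h1
  have := ht.ln p (by simpa using h1)
  rw [h] at this; cases this

theorem LSym.inj_act {s : LSym N c k l} {t : Lty N c} (ht : t.Ok) (hs : s.Ok t)
    (v : Fin N → Fin 6) :
    inj t.T t.lab v ↔ inj t.T t.lab (v ∘ s.σ.symm) := by
  unfold inj
  constructor
  · intro h p q hpq lp lq hp hc
    have e1 : ∀ p, t.lab (s.σ.symm p) = t.lab p := fun p => by
      have := hs.lab (s.σ.symm p); rw [Equiv.apply_symm_apply] at this; exact this.symm
    have e2 : ∀ p, t.lab p = true → t.T p = (t.T (s.σ.symm p)).map s.τ := fun p hp => by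
      have := hs.T (s.σ.symm p) (ht.rl (by rw [e1]; exact hp))
      rw [Equiv.apply_symm_apply] at this; exact this
    refine h (s.σ.symm p) (s.σ.symm q) (fun h' => hpq (s.σ.symm.injective h'))
      (by rw [e1]; exact lp) (by rw [e1]; exact lq) ?_ ?_
    · intro h'; rw [e2 p lp, h'] at hp; exact hp rfl
    · rw [e2 p lp, e2 q lq] at hc
      exact Option.map_injective s.τ.injective hc
  · intro h p q hpq lp lq hp hc
    have := h (s.σ p) (s.σ q) (fun h' => hpq (s.σ.injective h'))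
      (by rw [hs.lab]; exact lp) (by rw [hs.lab]; exact lq)
      (by rw [hs.T p (ht.rl lp)]; intro h'; exact hp (Option.map_eq_none_iff.1 h'))
      (by rw [hs.T p (ht.rl lp), hs.T q (ht.rl lq), hc])
    simpa using this

theorem LSym.phiS_act {s : LSym N c k l} {t : Lty N c} (ht : t.Ok) (hs : s.Ok t)
    (hB : IsMUBs B)
    (e : Fin c → Fin m) (x : LFlg N c k l) (v : Fin N → Fin 6) (z : Fin k ⊕ Fin l → Fin 6) :
    t.phiS B e v (s.act x) z
      = if s.neg = true then star (t.phiS B (e ∘ s.τ.symm) (v ∘ s.σ.symm) x (z ∘ s.π.symm))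
        else t.phiS B (e ∘ s.τ.symm) (v ∘ s.σ.symm) x (z ∘ s.π.symm) := by
  unfold Lty.phiS
  rw [← if_congr (LSym.inj_act ht hs v) rfl rfl]
  by_cases hi : inj t.T t.lab v
  · simp only [if_pos hi]
    have h1 : ∀ (F : (Fin N → Fin 6) → ℂ), ∑ u : Fin N → Fin 6,
        F (mix (fun p => !t.rt p) v u ∘ s.σ.symm)
        = ∑ u : Fin N → Fin 6, F (mix (fun p => !t.rt p) (v ∘ s.σ.symm) u) := by
      intro F
      refine Fintype.sum_equiv (Equiv.arrowCongr s.σ (Equiv.refl (Fin 6))) _ _ fun u => ?_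
      congr 1
      funext p
      have e1 : t.rt (s.σ.symm p) = t.rt p := by
        have := hs.rt (s.σ.symm p); rw [Equiv.apply_symm_apply] at this; exact this.symm
      simp only [mix, Function.comp, e1, Equiv.arrowCongr_apply, Equiv.refl_apply]
    simp only [LSym.GS_act hs hB]
    cases s.neg
    · simp only [Bool.false_eq_true, if_false]
      rw [h1 fun a => t.GS B (e ∘ s.τ.symm) x a (z ∘ s.π.symm)]
    · simp only [if_true]
      rw [h1 fun a => star (t.GS B (e ∘ s.τ.symm) x a (z ∘ s.π.symm))]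
      rw [star_mul', star_sum, star_pow]
      congr 2
      simp
  · simp only [if_neg hi]
    simp

/-- **Invariance of the Gram kernel.** -/
theorem Lty.M_act (t : Lty N c) (ht : t.Ok) (hB : IsMUBs B) {s : LSym N c k l} (hs : s.Ok t)
    (x y : LFlg N c k l) : t.M B (s.act x) (s.act y) = t.M B x y := by
  rw [Lty.M_eqS, Lty.M_eqS]
  have h1 : ∀ n : Bool, ∀ a b : ℂ, ((if n = true then star a else a)
      * star (if n = true then star b else b)).re = (a * star b).re := by
    intro n a b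
    cases n
    · simp
    · simp only [if_true, star_star]
      have : star a * b = star (a * star b) := by simp
      rw [this]
      exact Complex.conj_re _
  unfold av
  have hw : ∃ w : ℝ, ((Fintype.card (Fin c ↪ Fin m) : ℂ)⁻¹ * (6⁻¹ : ℂ) ^ N) = (w : ℂ) := by
    refine ⟨(Fintype.card (Fin c ↪ Fin m) : ℝ)⁻¹ * (6⁻¹ : ℝ) ^ N, ?_⟩
    push_cast; rfl
  obtain ⟨w, hw⟩ := hw
  rw [hw, Complex.re_ofReal_mul, Complex.re_ofReal_mul]
  refine congrArg (fun r : ℝ => w * r) ?_
  -- the summands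
  set F : (Fin c ↪ Fin m) → (Fin N → Fin 6) → (Fin k ⊕ Fin l → Fin 6) → ℂ := fun e v z =>
    t.phiS B e v x z * star (t.phiS B e v y z) with hF
  have h2 : ∀ (e : Fin c ↪ Fin m) (v : Fin N → Fin 6) (z : Fin k ⊕ Fin l → Fin 6),
      (t.phiS B e v (s.act x) z * star (t.phiS B e v (s.act y) z)).re
      = (F (Equiv.embeddingCongr s.τ (Equiv.refl _) e) (v ∘ s.σ.symm) (z ∘ s.π.symm)).re := by
    intro e v z
    rw [LSym.phiS_act ht hs hB, LSym.phiS_act ht hs hB, h1, hF]
    have h3 : ((Equiv.embeddingCongr s.τ (Equiv.refl _) e : Fin c ↪ Fin m) : Fin c → Fin m)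
        = e ∘ s.τ.symm := by
      funext a
      rfl
    simp only [h3]
  simp only [Complex.re_sum, h2]
  refine Fintype.sum_equiv (Equiv.embeddingCongr s.τ (Equiv.refl _)) _
    (fun e => ∑ v, ∑ z, (F e v z).re) fun e => ?_
  refine Fintype.sum_equiv (Equiv.arrowCongr s.σ (Equiv.refl (Fin 6))) _
    (fun v => ∑ z, (F (Equiv.embeddingCongr s.τ (Equiv.refl _) e) v z).re) fun v => ?_
  exact Fintype.sum_equiv (Equiv.arrowCongr s.π (Equiv.refl (Fin 6))) _
    (fun z => (F (Equiv.embeddingCongr s.τ (Equiv.refl _) e) (v ∘ s.σ.symm) z).re) fun z => rfl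

end Vale.Agent.P355.H147
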