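import Vale.Agent.P355.H147.Sos

/-! The sum of squares of a type as a difference of packed combinations of class values. -/

namespace Vale.Agent.P355.H147

open Finset Matrix Vale.Agent.P355
open Vale.Agent.P355.H129 (force force_eq dg Gm Gm_comm NRep psdCk psdCk_nonneg psdCk_bdd)

variable {m r c : ℕ} {B : Fin m → M6}

/-- sums of all tables. -/
def cG (β : ℕ) : List (ℕ × List ℕ) → ℕ → ℕ
  | [], _ => 0
  | t :: TS, g => (∑ s ∈ range t.2.length, dg (2 ^ β) (t.2.getD s 0) g) + cG β TS g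

theorem sumL_VR {β n bt : ℕ} : ∀ (l : List ℕ),
    (∀ D ∈ l, VR β n D (2 ^ bt) fun g => H129.dg (2 ^ β) D g) →
    VR β n (H129.sumL l) (l.length * 2 ^ bt) fun g =>
      ∑ s ∈ range l.length, dg (2 ^ β) (l.getD s 0) g
  | [], _ => by
    have : H129.sumL [] = 0 := rfl
    rw [this]; simpa using VR.zero β n
  | D :: l, h => by
    have e : H129.sumL (D :: l) = D + H129.sumL l := rfl
    rw [e]
    have h1 := h D (by simp)
    have h2 := sumL_VR l fun D' hD' => h D' (by simp [hD'])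
    have h3 := h1.add h2
    have hf : (fun g => ∑ s ∈ range (D :: l).length, dg (2 ^ β) ((D :: l).getD s 0) g)
        = fun g => dg (2 ^ β) D g + ∑ s ∈ range l.length, dg (2 ^ β) (l.getD s 0) g := by
      funext g
      rw [List.length_cons, sum_range_succ', add_comm]
      rfl
    rw [hf]
    refine h3.mono (le_of_eq ?_)
    rw [List.length_cons]; ring

theorem cG_VR {β n bt : ℕ} : ∀ (TS : List (ℕ × List ℕ)),
    (∀ t ∈ TS, ∀ D ∈ t.2, VR β n D (2 ^ bt) fun g => H129.dg (2 ^ β) D g) →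
    VR β n (List.rec (motive := fun _ => ℕ) 0 (fun t _ ih => Nat.add (H129.sumL t.2) ih) TS)
      (nT TS * 2 ^ bt) (cG β TS)
  | [], _ => by simpa [nT, cG] using VR.zero β n
  | t :: TS, h => by
    have h1 := sumL_VR t.2 (h t (by simp))
    have h2 := cG_VR TS fun t' ht' => h t' (by simp [ht'])
    refine (h1.add h2).mono (le_of_eq ?_)
    unfold nT
    rw [List.map_cons, List.sum_cons]; ring

theorem cstX_VR {β n bt oU : ℕ} {TS : List (ℕ × List ℕ)}
    (h : ∀ t ∈ TS, ∀ D ∈ t.2, VR β n D (2 ^ bt) fun g => H129.dg (2 ^ β) D g) :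
    VR β n (cstX oU TS) (oU * (nT TS * 2 ^ bt)) fun g => oU * cG β TS g :=
  (cG_VR TS h).smul oU oU le_rfl

/-- sum of the tables of a block. -/
def bS (β : ℕ) (f : BD → List (List ℕ)) (g : ℕ) (b : BD) : ℕ :=
  ∑ s ∈ range b.d, ∑ s' ∈ range b.d, dg (2 ^ β) (tb (f b) s s') g

theorem cG_append (β : ℕ) (g : ℕ) : ∀ (T1 T2 : List (ℕ × List ℕ)),
    cG β (T1 ++ T2) g = cG β T1 g + cG β T2 g
  | [], T2 => by simp [cG]
  | t :: T1, T2 => by
    have ih := cG_append β g T1 T2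
    show _ + cG β (T1 ++ T2) g = (_ + cG β T1 g) + _
    rw [ih, add_assoc]

theorem cG_map (β : ℕ) (g d : ℕ) : ∀ (T : List (List ℕ)),
    cG β (T.map fun Ds => (d, Ds)) g
      = ∑ s ∈ range T.length, ∑ s' ∈ range (T.getD s []).length, dg (2 ^ β) (tb T s s') g
  | [] => by simp [cG]
  | t :: T => by
    have ih := cG_map β g d T
    show (∑ s' ∈ range t.length, dg (2 ^ β) (t.getD s' 0) g) + cG β (T.map fun Ds => (d, Ds)) g = _
    rw [ih, List.length_cons, Finset.sum_range_succ', add_comm]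
    rfl

theorem cG_blocks (β g : ℕ) (f : BD → List (List ℕ)) :
    ∀ (bs : List BD), (∀ b ∈ bs, (f b).length = b.d ∧ ∀ s < b.d, ((f b).getD s []).length = b.d) →
    cG β (mkTS f bs) g = (bs.map (bS β f g)).sum
  | [], _ => by simp [mkTS, cG]
  | b :: bs, h => by
    have ih := cG_blocks β g f bs fun b' hb' => h b' (by simp [hb'])
    obtain ⟨h1, h2⟩ := h b (by simp)
    have e1 : mkTS f (b :: bs) = ((f b).map fun Ds => (b.d, Ds)) ++ mkTS f bs := rfl
    rw [e1, cG_append, ih, cG_map, List.map_cons, List.sum_cons, h1]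
    congr 1
    unfold bS
    exact Finset.sum_congr rfl fun s hs => by rw [h2 s (mem_range.1 hs)]

/-- the real number of a pair. -/
theorem z_diff {w β bt oU k l g n : ℕ} {ν : ℕ → ℕ → ℕ} {μ : ℕ → ℕ → ℕ} (hg : g < n)
    {f f' : BD → List (List ℕ)} :
    ∀ (bs : List BD), (∀ b ∈ bs, TblOk n ν β bt μ b (f b) (f' b)) →
    (((bs.map (bC w β f k l g)).sum + oU * (bs.map (bS β f' g)).sum : ℕ) : ℝ)
      - ((bs.map (bC w β f' k l g)).sum + oU * (bs.map (bS β f g)).sum : ℕ)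
      = (bs.map fun b => ∑ s ∈ range b.d, ∑ s' ∈ range b.d,
        ((dg (2 ^ w) (b.Us.getD (k * b.d + s) 0) (l * b.d + s') : ℝ) - oU)
          * (μ s s' * corr n ν b.A s s' g)).sum
  | [], _ => by simp
  | b :: bs, h => by
    have ih := z_diff (w := w) (oU := oU) (k := k) (l := l) hg bs fun b' hb' =>
      h b' (by simp [hb'])
    have hb := h b (by simp)
    simp only [List.map_cons, List.sum_cons]
    rw [← ih]
    have e : ∑ s ∈ range b.d, ∑ s' ∈ range b.d,
        ((dg (2 ^ w) (b.Us.getD (k * b.d + s) 0) (l * b.d + s') : ℝ) - oU)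
          * (μ s s' * corr n ν b.A s s' g)
        = ((bC w β f k l g b + oU * bS β f' g b : ℕ) : ℝ)
          - (bC w β f' k l g b + oU * bS β f g b : ℕ) := by
      unfold bC bS
      push_cast
      simp only [Finset.mul_sum]
      rw [← Finset.sum_add_distrib, ← Finset.sum_add_distrib, ← Finset.sum_sub_distrib]
      refine Finset.sum_congr rfl fun s hs => ?_
      rw [← Finset.sum_add_distrib, ← Finset.sum_add_distrib, ← Finset.sum_sub_distrib]
      refine Finset.sum_congr rfl fun s' hs' => ?_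
      rw [← hb.co s (mem_range.1 hs) s' (mem_range.1 hs') g hg, fld_eq, fld_eq]
      ring
    rw [e]; push_cast; ring

/-! ### The kernel side -/

/-- rows of a representative (kernel form). -/
def rowsKX (k : ℕ) (bs : List BD) : List ℕ :=
  List.rec (motive := fun _ => List ℕ) []
    (fun b _ ih => consR (fun s => nthL b.Us (Nat.add (Nat.mul k b.d) s)) b.d ih) bs

theorem rowsKX_eq (k : ℕ) : ∀ bs : List BD, rowsKX k bs = rowsK k bs
  | [] => rfl
  | b :: bs => by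
    have e : rowsKX k (b :: bs) = consR (fun s => nthL b.Us (k * b.d + s)) b.d (rowsKX k bs) := rfl
    rw [e, consR_eq, rowsKX_eq k bs]
    have e2 : rowsK k (b :: bs) = ((List.range b.d).map fun s => b.Us.getD (k * b.d + s) 0)
      ++ rowsK k bs := rfl
    rw [e2]
    simp only [nthL_eq]

/-- row `k` of one sign: `T`, `T'` the tables of this sign (off and on the diagonal), `N`, `N'`
those of the other sign. -/
def rowX (R : Rec) (w β Ws oU n BP : ℕ) (T T' N N' : List (ℕ × List ℕ)) (bs : List BD) (EL : List ℕ)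
    (k acc : ℕ) : ℕ :=
  force (cstX oU N) fun C => force (cstX oU N') fun C' => forceL (rowsKX k bs) fun Rs =>
    force (nthL EL k) fun E => accK R w β Ws n BP C C' T T' k E Rs acc

/-- value of the row `k`. -/
noncomputable def rowV (R : Rec) (w β oU n BP : ℕ) (val : ℕ → ℝ) (T T' N N' : List (ℕ × List ℕ))
    (bs : List BD) (EL : List ℕ) (k : ℕ) : ℝ :=
  ∑ l ∈ range k, ∑ j ∈ range n,
    (mmu (bP BP k) (bP BP l) * R.fm (fld R.rw (eKL R n (EL.getD k 0) l) j)
      * zN w β l (fun g => oU * cG β N g) T (rowsK k bs) j : ℝ)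
      * val (R.fi (fld R.rw (eKL R n (EL.getD k 0) l) j))
    + ∑ j ∈ range n, (mmu (bP BP k) (bP BP k) * R.fm (fld R.rw (eKK R n (EL.getD k 0) k) j)
      * zN w β k (fun g => oU * cG β N' g) T' (rowsK k bs) j : ℝ)
      * val (R.fi (fld R.rw (eKK R n (EL.getD k 0) k) j))

theorem rowX_spec {R : Rec} {w bu β n bt BP oU k F : ℕ} {T T' N N' : List (ℕ × List ℕ)}
    {bs : List BD} {EL : List ℕ} {Ws : ℕ} {val : ℕ → ℝ}
    (hT : ∀ t ∈ T, ∀ D ∈ t.2, VR β n D (2 ^ bt) fun g => H129.dg (2 ^ β) D g)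
    (hT' : ∀ t ∈ T', ∀ D ∈ t.2, VR β n D (2 ^ bt) fun g => H129.dg (2 ^ β) D g)
    (hN : ∀ t ∈ N, ∀ D ∈ t.2, VR β n D (2 ^ bt) fun g => H129.dg (2 ^ β) D g)
    (hN' : ∀ t ∈ N', ∀ D ∈ t.2, VR β n D (2 ^ bt) fun g => H129.dg (2 ^ β) D g)
    (hR : ∀ R ∈ rowsK k bs, ∀ j, dg (2 ^ w) R j < 2 ^ bu) {q M : ℕ}
    (h1 : nT T ≤ q) (h2 : nT T' ≤ q) (h3 : nT N ≤ q) (h4 : nT N' ≤ q)
    (hq : q * (2 ^ bu * 2 ^ bt) + oU * (q * 2 ^ bt) ≤ M) (hM : M < 2 ^ β)
    (hF : ∀ e, R.fm e ≤ F) (acc : ℕ) :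
    AR Ws val acc (rowX R w β Ws oU n BP T T' N N' bs EL k acc) (k + 1)
      ((k + 1) * (n * (6 * F * M))) (rowV R w β oU n BP val T T' N N' bs EL k) := by
  unfold rowX rowV
  simp only [force_eq, forceL_eq, nthL_eq, rowsKX_eq]
  have hc : ∀ X : List (ℕ × List ℕ), nT X ≤ q → oU * (nT X * 2 ^ bt) ≤ oU * (q * 2 ^ bt) :=
    fun X hX => Nat.mul_le_mul_left _ (Nat.mul_le_mul_right _ hX)
  have hb : ∀ X : List (ℕ × List ℕ), nT X ≤ q →
      nT X * (2 ^ bu * 2 ^ bt) + oU * (q * 2 ^ bt) ≤ M := fun X hX =>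
    (Nat.add_le_add_right (Nat.mul_le_mul_right _ hX) _).trans hq
  have a1 := (cstX_VR (oU := oU) hN).mono (hc N h3)
  have a2 := (cstX_VR (oU := oU) hN').mono (hc N' h4)
  exact accK_spec (Ws := Ws) (val := val) a1 a2 hT hT' hR (hb T h1) (hb T' h2) hM hF acc

theorem BD.ck_spec {n : ℕ} {ν : ℕ → ℕ → ℕ} {β bt : ℕ} {b : BD} (h : b.ck n ν β bt = true) :
    0 < b.d ∧ TblOk n ν β bt (fun _ _ => 2) b b.Tp b.Tn ∧ TblOk n ν β bt mu2 b b.Sp b.Sn := by
  unfold BD.ck at h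
  simp only [Bool.and_eq_true, Nat.blt_eq] at h
  exact ⟨h.1, tblCk_spec h.2.1, tblCk_spec h.2.2⟩

theorem TblOk.symm_shape {n : ℕ} {ν : ℕ → ℕ → ℕ} {β bt : ℕ} {μ : ℕ → ℕ → ℕ} {b : BD}
    {P N : List (List ℕ)} (h : TblOk n ν β bt μ b P N) :
    (P.length = b.d ∧ ∀ s < b.d, (P.getD s []).length = b.d) ∧
      (N.length = b.d ∧ ∀ s < b.d, (N.getD s []).length = b.d) :=
  ⟨⟨h.lP, h.lP'⟩, ⟨h.lN, h.lN'⟩⟩

/-! ### The abstract form -/

/-- checks of the blocks of a type. -/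
structure BOk (n : ℕ) (ν : ℕ → ℕ → ℕ) (nk β bt oU w bu : ℕ) (bs : List BD) : Prop where
  blk : ∀ b ∈ bs, b.ck n ν β bt = true
  len : ∀ b ∈ bs, b.Us.length = nk * b.d
  bdd : ∀ b ∈ bs, ∀ k < nk * b.d, ∀ j, dg (2 ^ w) (b.Us.getD k 0) j < 2 ^ bu
  psd : ∀ b ∈ bs, ∀ z : ℕ → ℂ, 0 ≤ ∑ i ∈ range (nk * b.d), ∑ j ∈ range (nk * b.d),
    (Gm w oU b.Us i j : ℝ) * (z i * star (z j)).re

/-- a type: `M` the Gram kernel, `x k` the representatives, `act`, `ν` the group, `R` the reading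
of the records in `EL`, `val` the class values. -/
structure SOk {X : Type*} (n nk : ℕ) (act : ℕ → X → X) (ν : ℕ → ℕ → ℕ) (M : X → X → ℝ)
    (x : ℕ → X) (κ : ℝ) (R : Rec) (val : ℕ → ℝ) (BP : ℕ) (EL : List ℕ) : Prop where
  pos : 0 ≤ κ
  grp : GT n act ν
  gram : GramF M
  inv : ∀ i < n, ∀ x y, M (act i x) (act i y) = M x y
  prs : ∀ k < nk, ∀ l < k, ∀ j < n,
    κ * (sb (bP BP k) * sb (bP BP l) * M (x k) (act j (x l)))
      = (mmu (bP BP k) (bP BP l) : ℝ) * R.fm (fld R.rw (eKL R n (EL.getD k 0) l) j)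
        * val (R.fi (fld R.rw (eKL R n (EL.getD k 0) l) j))
  prd : ∀ k < nk, ∀ j < n,
    κ * (sb (bP BP k) * sb (bP BP k) * M (x k) (act j (x k)))
      = (mmu (bP BP k) (bP BP k) : ℝ) * R.fm (fld R.rw (eKK R n (EL.getD k 0) k) j)
        * val (R.fi (fld R.rw (eKK R n (EL.getD k 0) k) j))

theorem rowV_diff {R : Rec} {n nk β bt BP oU w bu : ℕ} {ν : ℕ → ℕ → ℕ} {EL : List ℕ}
    {bs : List BD} (h : BOk n ν nk β bt oU w bu bs) (val : ℕ → ℝ) {k : ℕ} :
    rowV R w β oU n BP val (mkTS BD.Tp bs) (mkTS BD.Sp bs) (mkTS BD.Tn bs) (mkTS BD.Sn bs) bs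
        EL k
      - rowV R w β oU n BP val (mkTS BD.Tn bs) (mkTS BD.Sn bs) (mkTS BD.Tp bs) (mkTS BD.Sp bs)
        bs EL k
      = ∑ l ∈ range k, ∑ j ∈ range n, (bs.map fun b => ∑ s ∈ range b.d, ∑ s' ∈ range b.d,
          ((dg (2 ^ w) (b.Us.getD (k * b.d + s) 0) (l * b.d + s') : ℝ) - oU)
            * (((fun _ _ => 2 : ℕ → ℕ → ℕ) s s' : ℕ) * corr n ν b.A s s' j)).sum
          * ((mmu (bP BP k) (bP BP l) : ℝ) * R.fm (fld R.rw (eKL R n (EL.getD k 0) l) j)
            * val (R.fi (fld R.rw (eKL R n (EL.getD k 0) l) j)))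
        + ∑ j ∈ range n, (bs.map fun b => ∑ s ∈ range b.d, ∑ s' ∈ range b.d,
          ((dg (2 ^ w) (b.Us.getD (k * b.d + s) 0) (k * b.d + s') : ℝ) - oU)
            * (mu2 s s' * corr n ν b.A s s' j)).sum
          * ((mmu (bP BP k) (bP BP k) : ℝ) * R.fm (fld R.rw (eKK R n (EL.getD k 0) k) j)
            * val (R.fi (fld R.rw (eKK R n (EL.getD k 0) k) j))) := by
  have hb := fun b hb => BD.ck_spec (h.blk b hb)
  have s1 : ∀ b ∈ bs, (BD.Tp b).length = b.d ∧ ∀ s < b.d, ((BD.Tp b).getD s []).length = b.d :=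
    fun b hb' => ((hb b hb').2.1.symm_shape).1
  have s2 : ∀ b ∈ bs, (BD.Tn b).length = b.d ∧ ∀ s < b.d, ((BD.Tn b).getD s []).length = b.d :=
    fun b hb' => ((hb b hb').2.1.symm_shape).2
  have s3 : ∀ b ∈ bs, (BD.Sp b).length = b.d ∧ ∀ s < b.d, ((BD.Sp b).getD s []).length = b.d :=
    fun b hb' => ((hb b hb').2.2.symm_shape).1
  have s4 : ∀ b ∈ bs, (BD.Sn b).length = b.d ∧ ∀ s < b.d, ((BD.Sn b).getD s []).length = b.d :=
    fun b hb' => ((hb b hb').2.2.symm_shape).2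
  unfold rowV
  have e1 : ∀ a b a' b' : ℝ, (a + b) - (a' + b') = (a - a') + (b - b') := fun _ _ _ _ => by ring
  rw [e1, ← Finset.sum_sub_distrib, ← Finset.sum_sub_distrib]
  congr 1
  · refine Finset.sum_congr rfl fun l _ => ?_
    rw [← Finset.sum_sub_distrib]
    refine Finset.sum_congr rfl fun j hj => ?_
    have h1 := z_diff (w := w) (oU := oU) (k := k) (l := l) (mem_range.1 hj) bs
      fun b hb' => (hb b hb').2.1
    rw [← h1, zN_blocks w β k l _ j BD.Tp bs s1, zN_blocks w β k l _ j BD.Tn bs s2,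
      cG_blocks β j BD.Tn bs s2, cG_blocks β j BD.Tp bs s1]
    ring
  · refine Finset.sum_congr rfl fun j hj => ?_
    have h1 := z_diff (w := w) (oU := oU) (k := k) (l := k) (mem_range.1 hj) bs
      fun b hb' => (hb b hb').2.2
    rw [← h1, zN_blocks w β k k _ j BD.Sp bs s3, zN_blocks w β k k _ j BD.Sn bs s4,
      cG_blocks β j BD.Sn bs s4, cG_blocks β j BD.Sp bs s3]
    ring

/-- **The sum of squares of a type is nonnegative.** -/
theorem sok_sos {X : Type*} {n nk : ℕ} {act : ℕ → X → X} {ν : ℕ → ℕ → ℕ} {M : X → X → ℝ}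
    {x : ℕ → X} {κ : ℝ} {R : Rec} {val : ℕ → ℝ} {BP : ℕ} {EL : List ℕ}
    (h : SOk n nk act ν M x κ R val BP EL) {β bt oU w bu : ℕ} {bs : List BD}
    (hb : BOk n ν nk β bt oU w bu bs) :
    0 ≤ ∑ k ∈ range nk,
      (rowV R w β oU n BP val (mkTS BD.Tp bs) (mkTS BD.Sp bs) (mkTS BD.Tn bs) (mkTS BD.Sn bs)
        bs EL k
      - rowV R w β oU n BP val (mkTS BD.Tn bs) (mkTS BD.Sn bs) (mkTS BD.Tp bs)
        (mkTS BD.Sp bs) bs EL k) := by
  set σ : ℕ → ℝ := fun k => sb (bP BP k) with hσ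
  set MK : ℕ → ℕ → ℕ → ℝ := fun k l j => σ k * σ l * M (x k) (act j (x l)) with hMK
  -- all blocks
  have main : ∀ bs' : List BD, (∀ b ∈ bs', b ∈ bs) →
      0 ≤ Lam nk n MK
        (fun k l j => (bs'.map fun b => ∑ s ∈ range b.d, ∑ s' ∈ range b.d,
          (Gm w oU b.Us (k * b.d + s) (l * b.d + s') : ℝ)
            * (2 * corr n ν b.A s s' j)).sum)
        (fun k j => (bs'.map fun b => ∑ s ∈ range b.d, ∑ s' ∈ range b.d,
          (Gm w oU b.Us (k * b.d + s) (k * b.d + s') : ℝ)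
            * (mu2 s s' * corr n ν b.A s s' j)).sum) := by
    intro bs'
    induction bs' with
    | nil => intro _; simp [Lam]
    | cons b bs' ih =>
      intro hb'
      have h1 := ih fun b' hb'' => hb' b' (by simp [hb''])
      have hbm := hb' b (by simp)
      have h2 := block_pairs2 (n := n) (d := b.d) (nk := nk) (BD.ck_spec (hb.blk b hbm)).1 h.grp
        h.gram h.inv b.A x σ
        (Q := fun i j => (Gm w oU b.Us i j : ℝ)) (fun i j => by rw [Gm_comm])
        (hb.psd b hbm)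
      have h3 := add_nonneg h2 h1
      rw [← Lam_add] at h3
      exact h3
  have h1 := mul_nonneg h.pos (main bs fun b hb => hb)
  refine h1.trans (le_of_eq ?_)
  unfold Lam
  rw [Finset.mul_sum]
  refine Finset.sum_congr rfl fun k hk => ?_
  have hk' := mem_range.1 hk
  rw [rowV_diff hb, mul_add, Finset.mul_sum]
  -- entries of the lower triangle are digits
  have hGm : ∀ b : BD, ∀ i j, j ≤ i →
      (Gm w oU b.Us i j : ℝ) = (dg (2 ^ w) (b.Us.getD i 0) j : ℝ) - oU := by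
    intro b i j hij
    unfold Gm
    rw [max_eq_left hij, min_eq_right hij]
    push_cast; ring
  congr 1
  · refine Finset.sum_congr rfl fun l hl => ?_
    rw [Finset.mul_sum]
    refine Finset.sum_congr rfl fun j hj => ?_
    have hl' := mem_range.1 hl
    have hj' := mem_range.1 hj
    rw [← h.prs k hk' l hl' j hj']
    have e2 : ∀ z : ℝ, κ * (z * MK k l j) = z * (κ * MK k l j) := fun z => by ring
    rw [e2]
    refine congrArg (fun z : ℝ => z * (κ * MK k l j)) ?_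
    refine congrArg List.sum (List.map_congr_left fun b hb => ?_)
    refine Finset.sum_congr rfl fun s hs => Finset.sum_congr rfl fun s' hs' => ?_
    have hs1 := mem_range.1 hs
    have hs2 := mem_range.1 hs'
    have hle : l * b.d + s' ≤ k * b.d + s := by
      have : (l + 1) * b.d ≤ k * b.d := Nat.mul_le_mul_right _ hl'
      rw [Nat.succ_mul] at this
      omega
    rw [hGm b _ _ hle]
    push_cast; ring
  · rw [Finset.mul_sum]
    refine Finset.sum_congr rfl fun j hj => ?_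
    have hj' := mem_range.1 hj
    rw [← h.prd k hk' j hj']
    have e2 : ∀ z : ℝ, κ * (z * MK k k j) = z * (κ * MK k k j) := fun z => by ring
    rw [e2]
    refine congrArg (fun z : ℝ => z * (κ * MK k k j)) ?_
    refine congrArg List.sum (List.map_congr_left fun b hb => ?_)
    refine Finset.sum_congr rfl fun s hs => Finset.sum_congr rfl fun s' hs' => ?_
    rcases le_or_gt s' s with hle | hlt
    · rw [hGm b _ _ (by omega)]
    · have : mu2 s s' = 0 := by
        unfold mu2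
        rw [cond_blt, cond_beq, if_neg (by omega), if_neg (by omega)]
      rw [this]; simp

/-! ### Scalar types -/

/-- records of a scalar type. -/
def Rsc : Rec := ⟨28, fun e => Nat.shiftRight e 9, fun _ => 1⟩

/-- data and checks of a scalar type. -/
structure TyOk (r c SW : ℕ) (key : ℕ → ℕ) (t : TD) (nk BP : ℕ)
    (FL TL EL : List ℕ) : Prop where
  grp : t.ck r c = true
  tab : ∀ k < nk, tabCk SW r c t (FL.getD k 0) (TL.getD k 0) = true
  par : ∀ k < nk, bP BP k = TL.getD k 0 % 2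
  prs : ∀ k < nk, (∀ l < k, pairCk key SW t (TL.getD k 0) (TL.getD l 0)
      (eKL Rsc t.n (EL.getD k 0) l) = true) ∧
    pairCk key SW t (TL.getD k 0) (TL.getD k 0) (eKK Rsc t.n (EL.getD k 0) k) = true

theorem TyOk.sok (hB : IsMUBs B) {SW nk BP : ℕ} {key : ℕ → ℕ} {t : TD}
    {FL TL EL : List ℕ} (h : TyOk r c SW key t nk BP FL TL EL) :
    SOk t.n nk (t.act r c) t.nu ((t.typ r c).M B) (fun k => xF r c (FL.getD k 0)) 1 Rsc
      (fun i => cv B (r + 2) c (key i)) BP EL := by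
  obtain ⟨h0, hc, hsym, hG⟩ := TD.ck_spec h.grp
  refine ⟨zero_le_one, hG, (t.typ r c).gram B, fun i hi x y => TD.inv h.grp hB hi x y, ?_, ?_⟩
  · intro k hk l hl j hj
    have e1 := pair_spec hB h.grp (h.tab k hk) (h.tab l (hl.trans hk)) ((h.prs k hk).1 l hl) hj
    rw [h.par k hk, h.par l (hl.trans hk), one_mul, e1]
    show _ = (mmu _ _ : ℝ) * ((1 : ℕ) : ℝ) * _
    rw [Nat.cast_one, mul_one]; rfl
  · intro k hk j hj
    have e1 := pair_spec hB h.grp (h.tab k hk) (h.tab k hk) (h.prs k hk).2 hj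
    rw [h.par k hk, one_mul, e1]
    show _ = (mmu _ _ : ℝ) * ((1 : ℕ) : ℝ) * _
    rw [Nat.cast_one, mul_one]; rfl

/-- **The sum of squares of a scalar type is nonnegative.** -/
theorem type_sos (hB : IsMUBs B) {SW nk BP : ℕ} {key : ℕ → ℕ} {t : TD}
    {FL TL EL : List ℕ} (h : TyOk r c SW key t nk BP FL TL EL) {β bt oU w bu : ℕ}
    {bs : List BD} (hb : BOk t.n t.nu nk β bt oU w bu bs) :
    0 ≤ ∑ k ∈ range nk,
      (rowV Rsc w β oU t.n BP (fun i => cv B (r + 2) c (key i)) (mkTS BD.Tp bs) (mkTS BD.Sp bs)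
        (mkTS BD.Tn bs) (mkTS BD.Sn bs) bs EL k
      - rowV Rsc w β oU t.n BP (fun i => cv B (r + 2) c (key i)) (mkTS BD.Tn bs)
        (mkTS BD.Sn bs) (mkTS BD.Tp bs) (mkTS BD.Sp bs) bs EL k) :=
  sok_sos (h.sok hB) hb

end Vale.Agent.P355.H147
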