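import Vale.Agent.P355.H998.E.Im
import Vale.Agent.P355.H147.LSym
import Vale.Agent.P355.H147.TypeSos

/-! Symmetries of packed flags with legs. -/

namespace Vale.Agent.P355.H147

open Finset Matrix Vale.Agent.P355
open Vale.Agent.P355.H998.E
open Vale.Agent.P355.H693 (w2c net)
open Vale.Agent.P355.H129 (force force_eq)

variable {m c k l : ℕ} {B : Fin m → M6}

/-- list entry. -/
def nthX {α : Type} (d : α) (l : List α) : ℕ → α :=
  List.rec (motive := fun _ => ℕ → α) (fun _ => d)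
    (fun a _ ih i => Nat.rec (motive := fun _ => α) a (fun j _ => ih j) i) l

theorem nthX_eq {α : Type} (d : α) : ∀ (l : List α) (i : ℕ), nthX d l i = l.getD i d
  | [], i => by simp [nthX]
  | a :: l, 0 => rfl
  | a :: l, i + 1 => by
    have h : nthX d (a :: l) (i + 1) = nthX d l i := rfl
    rw [h, nthX_eq d l i]; simp

/-! ### The permutation of the ports -/

/-- number of a port. -/
def pn (k l : ℕ) (i : Fin k ⊕ Fin l) : ℕ := (finSumFinEquiv i : Fin (k + l))

theorem pn_inl (i : Fin k) : pn k l (Sum.inl i) = i := by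
  unfold pn; rw [finSumFinEquiv_apply_left]; rfl

theorem pn_inr (j : Fin l) : pn k l (Sum.inr j) = k + j := by
  unfold pn; rw [finSumFinEquiv_apply_right]; rfl

theorem pn_lt (i : Fin k ⊕ Fin l) : pn k l i < k + l := Fin.is_lt _

theorem pn_inj {i j : Fin k ⊕ Fin l} (h : pn k l i = pn k l j) : i = j :=
  finSumFinEquiv.injective (Fin.ext h)

theorem pn_left (i : Fin k ⊕ Fin l) : i.isLeft = decide (pn k l i < k) := by
  rcases i with i | j
  · rw [pn_inl]; simp
  · rw [pn_inr]; simp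

open Classical in
/-- permutation of `Fin n`. -/
noncomputable def permG (n : ℕ) (f : ℕ → ℕ) : Equiv.Perm (Fin n) :=
  if h : IsP n f then Equiv.ofBijective (fun a : Fin n => (⟨f a, h.1 a a.2⟩ : Fin n)) (by
    rw [← Finite.surjective_iff_bijective]
    intro j
    obtain ⟨i, hi, hj⟩ := h.2 j j.2
    exact ⟨⟨i, hi⟩, Fin.ext hj⟩) else 1

theorem permG_val {n : ℕ} {f : ℕ → ℕ} (h : IsP n f) (a : Fin n) :
    ((permG n f a : Fin n) : ℕ) = f a := by
  unfold permG; rw [dif_pos h]; rfl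

/-- the symmetry of an element. -/
noncomputable def sy (c k l : ℕ) [NeZero c] (e : GD) : LSym 8 c k l where
  σ := e.σ
  τ := (permF c (cf e.t)).symm
  neg := e.s
  π := (finSumFinEquiv.trans (permG (k + l) (qd e.pi))).trans finSumFinEquiv.symm

theorem sy_π [NeZero c] {e : GD} {T : TyD} (h : e.Ok c k l T) (i : Fin k ⊕ Fin l) :
    pn k l ((sy c k l e).π i) = qd e.pi (pn k l i) := by
  show ((finSumFinEquiv (finSumFinEquiv.symm (permG (k + l) (qd e.pi) (finSumFinEquiv i))) :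
    Fin (k + l)) : ℕ) = _
  rw [Equiv.apply_symm_apply, permG_val h.pi]; rfl

theorem w2c_map' [NeZero c] {t w w' : ℕ} (h : ckT c t = true) (hw : w / 2 ≤ c)
    (he : qd t (w / 2) = w' / 2) : (w2c c w).map (permF c (cf t)) = w2c c w' := by
  have h1 : w2c c w = oc c (w / 2) := rfl
  have h2 : w2c c w' = oc c (w' / 2) := rfl
  rw [h1, h2]
  exact H998.E.oc_map h hw he

theorem sy_ok [NeZero c] {e : GD} {T : TyD} (hT : T.Ok c) (ho : e.Ok c k l T) :
    (sy c k l e).Ok (T.ty c) := by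
  have hv : ∀ p : Fin 8, (((sy c k l e).σ p : Fin 8) : ℕ) = qv 8 e.g p := fun p => GD.σ_val ho p
  have hrt : ∀ p : Fin 8, mb T.rm ((sy c k l e).σ p : Fin 8) = mb T.rm p := by
    intro p
    rw [hv]
    cases hp : mb T.rm p
    · rw [ho.fx p p.2 hp, hp]
    · exact (ho.rr p p.2 hp).1
  have hfx : ∀ p : Fin 8, mb T.rm p = false → (sy c k l e).σ p = p := by
    intro p hp
    apply Fin.ext
    rw [hv, ho.fx p p.2 hp]
  refine ⟨fun p hp => ?_, fun p => ?_, hrt, fun p => ?_, ?_⟩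
  · have hp : mb T.rm p = true := hp
    show w2c c (qd T.W ((sy c k l e).σ p : Fin 8)) = (w2c c (qd T.W p)).map (permF c (cf e.t)).symm
    rw [hv]
    have h1 : (w2c c (qd T.W (qv 8 e.g p))).map (permF c (cf e.t)) = w2c c (qd T.W p) := by
      refine w2c_map' ho.t ?_ (ho.rr p p.2 hp).2.2
      rw [← hv]
      exact hT.wc _ (Fin.is_lt _)
    rw [← h1, Option.map_map]
    have : (⇑(permF c (cf e.t)).symm ∘ ⇑(permF c (cf e.t))) = id := by funext x; simp
    rw [this, Option.map_id]; rfl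
  · show (mb T.rm ((sy c k l e).σ p : Fin 8) && (qd T.W ((sy c k l e).σ p : Fin 8) % 2 == 1))
      = (mb T.rm p && (qd T.W p % 2 == 1))
    rw [hrt, hv]
    cases hp : mb T.rm p
    · rfl
    · rw [(ho.rr p p.2 hp).2.1]
  · show mb T.lm ((sy c k l e).σ p : Fin 8) = mb T.lm p
    cases hp : mb T.rm p
    · rw [hfx p hp]
    · have h1 := hrt p
      rw [hp] at h1
      have h2 : ∀ q : Fin 8, mb T.rm q = true → mb T.lm q = false := by
        intro q hq
        by_contra h3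
        have := hT.lr q q.2 (by simpa using h3)
        rw [hq] at this; exact absurd this (by simp)
      rw [h2 _ h1, h2 _ hp]
  · intro i
    rw [pn_left, pn_left, sy_π ho]
    exact ho.pk _ (pn_lt i)

/-! ### Images of flags -/

/-- colours of an image. -/
theorem sy_col [NeZero c] (e : GD) (x : LFlg 8 c k l) (p : Fin 8) :
    ((sy c k l e).act x).col p = (x.col (e.σ p)).map (permF c (cf e.t)) := rfl

/-- net flows of an image. -/
theorem sy_net [NeZero c] (e : GD) (x : LFlg 8 c k l) (a b : Fin 8) :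
    net ((sy c k l e).act x).fl a b = sg e.s * net x.fl (e.σ a) (e.σ b) := by
  unfold net sg
  show sgn e.s * x.fl (e.σ a) (e.σ b) - sgn e.s * x.fl (e.σ b) (e.σ a) = _
  cases e.s
  · simp [sgn]
  · simp [sgn]; ring

/-- ends of an image. -/
theorem sy_port [NeZero c] {e : GD} {T : TyD} (h : e.Ok c k l T) (x : PF) (i : Fin k ⊕ Fin l) :
    ((sy c k l e).act (x.dec c k l)).port i
      = e.σ.symm (sl (x.pt.getD (qd e.pi (pn k l i)) 0)) := by
  rw [LSym.port_act]
  show e.σ.symm _ = _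
  congr 1
  rw [← sy_π h]
  rcases (sy c k l e).π i with j | j
  · rw [pn_inl]; rfl
  · rw [pn_inr]; rfl

theorem sy_kt [NeZero c] {e : GD} {T : TyD} (h : e.Ok c k l T) (x : PF) (i : Fin k) :
    ((sy c k l e).act (x.dec c k l)).kt i = e.σ.symm (sl (x.pt.getD (qd e.pi i) 0)) := by
  have := sy_port h x (Sum.inl i)
  rwa [pn_inl] at this

theorem sy_br [NeZero c] {e : GD} {T : TyD} (h : e.Ok c k l T) (x : PF) (j : Fin l) :
    ((sy c k l e).act (x.dec c k l)).br j = e.σ.symm (sl (x.pt.getD (qd e.pi (k + j)) 0)) := by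
  have := sy_port h x (Sum.inr j)
  rwa [pn_inr] at this

/-- `ι ∘ σ⁻¹` is given by `e.i`. -/
theorem sy_iota {e : GD} {T : TyD} (hT : T.Ok c) (ho : e.Ok c k l T) (p : Fin 8) :
    (((T.ty c).ι (e.σ.symm p) : Fin 8) : ℕ) = qv 8 e.i p := by
  rw [TyD.iota hT]
  set q := e.σ.symm p with hq
  have h1 : e.σ q = p := by rw [hq, Equiv.apply_symm_apply]
  have h2 := GD.σ_val ho q
  rw [h1] at h2
  rw [h2, ho.ie q q.2]

/-- slot of the end `i` of an image, on the other side. -/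
theorem sy_iport [NeZero c] {e : GD} {T : TyD} (hT : T.Ok c) (h : e.Ok c k l T) (x : PF)
    {y : ℕ} (i : Fin k ⊕ Fin l) (hy : x.pt.getD (qd e.pi (pn k l i)) 0 = y) (h8 : y < 8) :
    (((T.ty c).ι (((sy c k l e).act (x.dec c k l)).port i) : Fin 8) : ℕ) = qv 8 e.i y := by
  rw [sy_port h, sy_iota hT h, hy, sl_val h8]

/-! ### The group -/

/-- packed data of a group: order, multiplication table and inverses (8 bits), elements. -/
structure GG where
  n : ℕ
  NU : ℕ
  IV : ℕ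
  gl : List GD

/-- default element. -/
def gd0 : GD := ⟨0, 0, 0, 0, false, 0⟩

/-- product. -/
def GG.nu (G : GG) (i j : ℕ) : ℕ :=
  Nat.mod (Nat.shiftRight G.NU (Nat.mul 8 (Nat.add (Nat.mul G.n i) j))) 256
/-- inverse. -/
def GG.iv (G : GG) (i : ℕ) : ℕ := Nat.mod (Nat.shiftRight G.IV (Nat.mul 8 i)) 256
/-- element. -/
def GG.g (G : GG) (i : ℕ) : GD := nthX gd0 G.gl i

theorem GG.g_eq (G : GG) (i : ℕ) : G.g i = G.gl.getD i gd0 := nthX_eq _ _ _

/-- `u` is `a` after `b`. -/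
def cmpCk (c k l : ℕ) (a b u : GD) : Bool :=
  and (allN 8 fun p => Nat.beq (qv 8 u.g p) (qv 8 b.g (qv 8 a.g p)))
    (and (allN c fun p => Nat.beq (qd u.t (Nat.succ p)) (qd a.t (qd b.t (Nat.succ p))))
    (and (cond u.s (cond a.s (not b.s) b.s) (cond a.s b.s (not b.s)))
      (allN (Nat.add k l) fun i => Nat.beq (qd u.pi i) (qd b.pi (qd a.pi i)))))

theorem xor_of {x y z : Bool} (h : cond x (cond y (not z) z) (cond y z (not z)) = true) :
    x = xor y z := by
  revert h; cases x <;> cases y <;> cases z <;> simp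

theorem sy_comp [NeZero c] {a b u : GD} {T : TyD} (oa : a.Ok c k l T) (ob : b.Ok c k l T)
    (ou : u.Ok c k l T) (h : cmpCk c k l a b u = true) (x : LFlg 8 c k l) :
    (sy c k l a).act ((sy c k l b).act x) = (sy c k l u).act x := by
  unfold cmpCk at h
  simp only [Bool.and_eq_true] at h
  obtain ⟨h1, h2, h3, h4⟩ := h
  refine LSym.act_act _ _ _ (fun p => ?_) (fun p => ?_) (xor_of h3) (fun i => ?_) x
  · apply Fin.ext
    show ((u.σ p : Fin 8) : ℕ) = (b.σ (a.σ p) : Fin 8)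
    rw [GD.σ_val ou, GD.σ_val ob, GD.σ_val oa]
    have := allN_spec h1 p p.2
    rwa [Nat.beq_eq] at this
  · show permF c (cf u.t) p = permF c (cf a.t) (permF c (cf b.t) p)
    apply Fin.ext
    obtain ⟨ca, ca'⟩ := ckT_cf oa.t
    obtain ⟨cb, cb'⟩ := ckT_cf ob.t
    obtain ⟨cu, cu'⟩ := ckT_cf ou.t
    rw [permF_val cu, permF_val ca, permF_val cb]
    have e1 := allN_spec h2 p p.2
    rw [Nat.beq_eq] at e1
    have e2 := cu' p p.2
    have e3 := cb' p p.2
    have e4 := ca' (cf b.t p) (cb.1 p p.2)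
    have e5 : qd u.t (p + 1) = qd a.t (qd b.t (p + 1)) := e1
    rw [← e3] at e5
    omega
  · apply pn_inj
    rw [sy_π ou, sy_π ob, sy_π oa]
    have := allN_spec h4 _ (pn_lt i)
    rwa [Nat.beq_eq] at this

/-- check of the group. -/
def GG.ck (c k l : ℕ) (T : TyD) (G : GG) : Bool :=
  and (Nat.blt 0 G.n) (allN G.n fun i => and ((G.g i).ok c k l T) (and (Nat.blt (G.iv i) G.n)
    (allN G.n fun j => force (G.nu i j) fun u => and (Nat.blt u G.n)
      (and (Nat.beq (G.nu (G.iv i) u) j) (cmpCk c k l (G.g i) (G.g j) (G.g u))))))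

/-- the action. -/
noncomputable def GG.act (c k l : ℕ) [NeZero c] (G : GG) (i : ℕ) (x : LFlg 8 c k l) :
    LFlg 8 c k l := (sy c k l (G.g i)).act x

theorem GG.ck_spec [NeZero c] {T : TyD} {G : GG} (h : G.ck c k l T = true) :
    0 < G.n ∧ (∀ i < G.n, (G.g i).Ok c k l T) ∧ GT G.n (G.act c k l) G.nu := by
  unfold GG.ck at h
  simp only [Bool.and_eq_true, Nat.blt_eq, force_eq] at h
  obtain ⟨h0, h1⟩ := h
  have h2 : ∀ i < G.n, (G.g i).Ok c k l T ∧ G.iv i < G.n ∧ ∀ j < G.n,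
      G.nu i j < G.n ∧ G.nu (G.iv i) (G.nu i j) = j ∧
        cmpCk c k l (G.g i) (G.g j) (G.g (G.nu i j)) = true := by
    intro i hi
    have h3 := allN_spec h1 i hi
    simp only [Bool.and_eq_true, Nat.blt_eq] at h3
    refine ⟨GD.ok_spec h3.1, h3.2.1, fun j hj => ?_⟩
    have h4 := allN_spec h3.2.2 j hj
    simp only [Bool.and_eq_true, Nat.blt_eq, Nat.beq_eq] at h4
    exact h4
  refine ⟨h0, fun i hi => (h2 i hi).1, ⟨fun i hi j hj => ((h2 i hi).2.2 j hj).1, ?_, ?_⟩⟩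
  · intro i hi j hj x
    exact sy_comp (h2 i hi).1 (h2 j hj).1 (h2 _ ((h2 i hi).2.2 j hj).1).1
      ((h2 i hi).2.2 j hj).2.2 x
  · intro i hi
    exact ⟨G.iv i, (h2 i hi).2.1, fun j hj => ((h2 i hi).2.2 j hj).2.1⟩

theorem GG.inv [NeZero c] {T : TyD} {G : GG} (hT : T.Ok c) (h : G.ck c k l T = true)
    (hB : IsMUBs B) {i : ℕ} (hi : i < G.n) (x y : LFlg 8 c k l) :
    (T.ty c).M B (G.act c k l i x) (G.act c k l i y) = (T.ty c).M B x y :=
  Lty.M_act _ (TyD.ty_ok hT) hB (sy_ok hT ((GG.ck_spec h).2.1 i hi)) x y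

/-- **A leg type from checked data**: only the products remain. -/
theorem lty_sok [NeZero c] (hB : IsMUBs B) {T : TyD} {G : GG} (hT : T.ok c = true)
    (hG : G.ck c k l T = true) {nk BP : ℕ} {x : ℕ → LFlg 8 c k l} {κ : ℝ} (hκ : 0 ≤ κ)
    {R : Rec} {val : ℕ → ℝ} {EL : List ℕ}
    (prs : ∀ k' < nk, ∀ l' < k', ∀ j < G.n,
      κ * (sb (bP BP k') * sb (bP BP l') * (T.ty c).M B (x k') (G.act c k l j (x l')))
      = (mmu (bP BP k') (bP BP l') : ℝ) * R.fm (fld R.rw (eKL R G.n (EL.getD k' 0) l') j)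
        * val (R.fi (fld R.rw (eKL R G.n (EL.getD k' 0) l') j)))
    (prd : ∀ k' < nk, ∀ j < G.n,
      κ * (sb (bP BP k') * sb (bP BP k') * (T.ty c).M B (x k') (G.act c k l j (x k')))
      = (mmu (bP BP k') (bP BP k') : ℝ) * R.fm (fld R.rw (eKK R G.n (EL.getD k' 0) k') j)
        * val (R.fi (fld R.rw (eKK R G.n (EL.getD k' 0) k') j))) :
    SOk G.n nk (G.act c k l) G.nu ((T.ty c).M B) x κ R val BP EL :=
  ⟨hκ, (GG.ck_spec hG).2.2, (T.ty c).gram B, fun _ hi a b =>
    GG.inv (TyD.ok_spec hT) hG hB hi a b, prs, prd⟩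

end Vale.Agent.P355.H147
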