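import Vale.Agent.P355.H147.TyRun
import Vale.Agent.P355.H998.E.Rc

/-! Fast accumulation for records in the format `RcE`, one-dimensional blocks. -/

namespace Vale.Agent.P355.H147

open Finset Vale.Agent.P355
open Vale.Agent.P355.H998.E (RcE)
open Vale.Agent.P355.H129 (force force_eq)

/-- group sum: every step shifts the packed coefficients `Z` and the records `E`. -/
def accGf (β rw mβ Ws TT μ n : ℕ) : ℕ → ℕ → ℕ → ℕ :=
  Nat.rec (motive := fun _ => ℕ → ℕ → ℕ → ℕ) (fun _ _ a => a)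
    (fun _ ih Z E a => ih (Nat.shiftRight Z β) (Nat.shiftRight E rw)
      (Nat.add a (Nat.shiftLeft
        (Nat.mul (Nat.mul μ (Nat.pow 6 (Nat.sub TT (Nat.land (Nat.shiftRight E 16) 7))))
          (Nat.land Z mβ))
        (Nat.add 64 (Nat.mul Ws (Nat.land E 65535)))))) n

theorem accGf_spec {β rw mβ Ws TT μ : ℕ} (hm : mβ = 2 ^ β - 1) : ∀ (n Z E a : ℕ),
    accGf β rw mβ Ws TT μ n Z E a = a + ∑ j ∈ range n,
      (μ * 6 ^ (TT - (((E >>> (rw * j)) >>> 16) &&& 7)) * ((Z >>> (β * j)) % 2 ^ β)) <<<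
        (64 + Ws * ((E >>> (rw * j)) &&& 65535))
  | 0, Z, E, a => by simp [accGf]
  | n + 1, Z, E, a => by
    have e : accGf β rw mβ Ws TT μ (n + 1) Z E a
        = accGf β rw mβ Ws TT μ n (Z >>> β) (E >>> rw) (a +
          (μ * 6 ^ (TT - ((E >>> 16) &&& 7)) * (Z &&& mβ)) <<< (64 + Ws * (E &&& 65535))) := rfl
    rw [e, accGf_spec hm n, sum_range_succ', add_assoc]
    congr 1
    rw [add_comm]
    congr 1
    · refine sum_congr rfl fun j _ => ?_
      have e1 : (E >>> rw) >>> (rw * j) = E >>> (rw * (j + 1)) := by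
        rw [← Nat.shiftRight_add]; congr 1; ring
      have e2 : (Z >>> β) >>> (β * j) = Z >>> (β * (j + 1)) := by
        rw [← Nat.shiftRight_add]; congr 1; ring
      rw [e1, e2]
    · have e3 : Z &&& mβ = Z % 2 ^ β := by rw [hm]; exact Nat.and_two_pow_sub_one_eq_mod Z β
      simp only [mul_zero, Nat.shiftRight_zero, e3]

theorem and_mod {X rw : ℕ} (h : 19 ≤ rw) : (X % 2 ^ rw) &&& 65535 = X &&& 65535 := by
  apply Nat.eq_of_testBit_eq
  intro b
  rw [Nat.testBit_and, Nat.testBit_and, Nat.testBit_mod_two_pow]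
  by_cases hb : b < rw
  · simp [hb]
  · have : Nat.testBit 65535 b = false := by
      apply Nat.testBit_lt_two_pow
      calc 65535 < 2 ^ 19 := by norm_num
        _ ≤ 2 ^ b := Nat.pow_le_pow_right (by norm_num) (by omega)
    simp [this]

theorem and_mod7 {X rw : ℕ} (h : 19 ≤ rw) : ((X % 2 ^ rw) >>> 16) &&& 7 = (X >>> 16) &&& 7 := by
  apply Nat.eq_of_testBit_eq
  intro b
  rw [Nat.testBit_and, Nat.testBit_and, Nat.testBit_shiftRight, Nat.testBit_shiftRight,
    Nat.testBit_mod_two_pow]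
  by_cases hb : 16 + b < rw
  · simp [hb]
  · have : Nat.testBit 7 b = false := by
      apply Nat.testBit_lt_two_pow
      calc 7 < 2 ^ 3 := by norm_num
        _ ≤ 2 ^ b := Nat.pow_le_pow_right (by norm_num) (by omega)
    simp [this]

theorem accG_eq {β rw mβ Ws TT μ n Z E y acc : ℕ} (hm : mβ = 2 ^ β - 1) (hrw : 19 ≤ rw) :
    accG (RcE TT rw) β Ws n (slt Z y) E μ acc
      = Nat.succ (accGf β rw mβ Ws TT μ n Z E acc) := by
  rw [accGf_spec hm]
  unfold accG
  congr 1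
  induction n with
  | zero => simp
  | succ n ih =>
    rw [sum_range_succ, ← add_assoc, ← ih]
    show force _ _ = _
    rw [force_eq, fldS_slt]
    show _ + (μ * 6 ^ (TT - (((E >>> (rw * n) % 2 ^ rw) >>> 16) &&& 7)) * (Z >>> (β * n) % 2 ^ β)) <<<
      (64 + Ws * ((E >>> (rw * n) % 2 ^ rw) &&& 65535)) = _
    rw [and_mod hrw]
    have e := and_mod7 (X := E >>> (rw * n)) hrw
    rw [e]

/-- packed vector of a pair, one-dimensional blocks (`p = w l`). -/
def z1 (mw p C : ℕ) (Ts : List ℕ) : List ℕ → ℕ :=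
  List.rec (motive := fun _ => List ℕ → ℕ) (fun _ => C)
    (fun T _ ih Rs => List.rec (motive := fun _ => ℕ) C
      (fun R Rs' _ => Nat.add (Nat.mul (Nat.land (Nat.shiftRight R p) mw) T) (ih Rs')) Rs) Ts

theorem z1_eq {w mw l C : ℕ} (hm : mw = 2 ^ w - 1) : ∀ (Ts Rs : List ℕ),
    z1 mw (w * l) C Ts Rs = zX w l C (Ts.map fun T => (1, [T])) Rs
  | [], Rs => rfl
  | T :: Ts, [] => rfl
  | T :: Ts, R :: Rs => by
    have e1 : z1 mw (w * l) C (T :: Ts) (R :: Rs)
        = ((R >>> (w * l)) &&& mw) * T + z1 mw (w * l) C Ts Rs := rfl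
    have e2 : zX w l C ((T :: Ts).map fun T => (1, [T])) (R :: Rs)
        = (((R >>> (w * (1 * l))) % 2 ^ w) * T + 0)
          + zX w l C (Ts.map fun T => (1, [T])) Rs := rfl
    rw [e1, e2, z1_eq hm Ts Rs, one_mul, add_zero]
    have e3 : (R >>> (w * l)) &&& mw = (R >>> (w * l)) % 2 ^ w := by
      rw [hm]; exact Nat.and_two_pow_sub_one_eq_mod _ w
    rw [e3]

/-- row `k`, fast. -/
def accKf (β rw mβ Ws TT n nrw BP w mw C C' : ℕ) (Ts Ts' : List ℕ) (k E : ℕ) (Rs : List ℕ)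
    (acc : ℕ) : ℕ :=
  force (Nat.mod (Nat.shiftRight BP k) 2) fun bk =>
    force (Nat.rec (motive := fun _ => ℕ → ℕ) (fun a => a)
      (fun l ih a => force (Nat.succ (accGf β rw mβ Ws TT
        (mmu bk (Nat.mod (Nat.shiftRight BP l) 2)) n (z1 mw (Nat.mul w l) C Ts Rs)
        (Nat.shiftRight E (Nat.mul nrw l)) a)) ih) k acc)
      fun acc' => Nat.succ (accGf β rw mβ Ws TT (mmu bk bk) n
        (z1 mw (Nat.mul w k) C' Ts' Rs) (Nat.shiftRight E (Nat.mul nrw k)) acc')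

/-- reading masked records. -/
theorem accGf_mask {β rw mβ Ws TT μ n Z E a : ℕ} (hm : mβ = 2 ^ β - 1) (hrw : 19 ≤ rw) :
    accGf β rw mβ Ws TT μ n Z (E % 2 ^ (rw * n)) a = accGf β rw mβ Ws TT μ n Z E a := by
  rw [accGf_spec hm, accGf_spec hm]
  congr 1
  refine sum_congr rfl fun j hj => ?_
  have hj := mem_range.1 hj
  have h5 : rw * (j + 1) ≤ rw * n := Nat.mul_le_mul_left _ hj
  rw [Nat.mul_succ] at h5
  have key : ∀ b < rw, ((E % 2 ^ (rw * n)) >>> (rw * j)).testBit b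
      = (E >>> (rw * j)).testBit b := by
    intro b hb
    rw [Nat.testBit_shiftRight, Nat.testBit_shiftRight, Nat.testBit_mod_two_pow]
    simp [show rw * j + b < rw * n by omega]
  have e1 : ((E % 2 ^ (rw * n)) >>> (rw * j)) % 2 ^ rw = (E >>> (rw * j)) % 2 ^ rw := by
    apply Nat.eq_of_testBit_eq
    intro b
    rw [Nat.testBit_mod_two_pow, Nat.testBit_mod_two_pow]
    by_cases hb : b < rw
    · rw [key b hb]
    · simp [hb]
  rw [← and_mod hrw, ← and_mod7 hrw, e1, and_mod hrw, and_mod7 hrw]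

theorem accKf_eq {β rw mβ Ws TT n BP w mw C C' k E acc : ℕ} {Ts Ts' Rs : List ℕ}
    (hβ : mβ = 2 ^ β - 1) (hw : mw = 2 ^ w - 1) (hrw : 19 ≤ rw) :
    accKf β rw mβ Ws TT n (rw * n) BP w mw C C' Ts Ts' k E Rs acc
      = accK (RcE TT rw) w β Ws n BP C C' (Ts.map fun T => (1, [T])) (Ts'.map fun T => (1, [T]))
          k E Rs acc := by
  have step : ∀ (μ l a : ℕ), Nat.succ (accGf β rw mβ Ws TT μ n (z1 mw (Nat.mul w l) C Ts Rs)
        (Nat.shiftRight E (Nat.mul (rw * n) l)) a)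
      = accG (RcE TT rw) β Ws n (slt (zX w l C (Ts.map fun T => (1, [T])) Rs) a)
        (Nat.mod (Nat.shiftRight E (Nat.mul (Nat.mul (RcE TT rw).rw n) l))
          (Nat.pow 2 (Nat.mul (RcE TT rw).rw n))) μ a := by
    intro μ l a
    rw [accG_eq hβ hrw]
    show _ = Nat.succ (accGf β rw mβ Ws TT μ n _ ((E >>> (rw * n * l)) % 2 ^ (rw * n)) a)
    rw [accGf_mask hβ hrw, ← z1_eq hw]
    rfl
  unfold accKf accK
  simp only [force_eq, step]
  rw [accG_eq hβ hrw, ← z1_eq hw]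
  rfl

/-- the one-dimensional tables. -/
def tb1 (f : BD → List (List ℕ)) (bs : List BD) : List ℕ := bs.map fun b => ((f b).getD 0 []).getD 0 0

/-- all blocks have dimension one. -/
def TyE.one (t : TyE) : Bool :=
  decide (mkTS BD.Tp t.bs = (tb1 BD.Tp t.bs).map fun T => (1, [T])) &&
  decide (mkTS BD.Sp t.bs = (tb1 BD.Sp t.bs).map fun T => (1, [T])) &&
  decide (mkTS BD.Tn t.bs = (tb1 BD.Tn t.bs).map fun T => (1, [T])) &&
  decide (mkTS BD.Sn t.bs = (tb1 BD.Sn t.bs).map fun T => (1, [T]))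

/-- the row `k`, fast: literal parameters. -/
def rowF (β rw mβ Ws TT n nrw BP w mw C C' : ℕ) (Ts Ts' : List ℕ) (bs : List BD) (EL : List ℕ)
    (k acc : ℕ) : ℕ :=
  forceL (rowsKX k bs) fun Rs => force (nthL EL k) fun E =>
    accKf β rw mβ Ws TT n nrw BP w mw C C' Ts Ts' k E Rs acc

/-- `num` rows starting with `k`. -/
def runF (β rw mβ Ws TT n nrw BP w mw C C' : ℕ) (Ts Ts' : List ℕ) (bs : List BD) (EL : List ℕ)
    (num : ℕ) : ℕ → ℕ → ℕ :=
  Nat.rec (motive := fun _ => ℕ → ℕ → ℕ) (fun _ acc => acc)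
    (fun _ ih k acc => force (rowF β rw mβ Ws TT n nrw BP w mw C C' Ts Ts' bs EL k acc) fun a =>
      force (Nat.succ k) fun k' => ih k' a) num

/-- the parameters are forced once. -/
def TyE.runF (t : TyE) (TT rw : ℕ) (s : Bool) (num a X : ℕ) : ℕ :=
  force (Nat.sub (Nat.pow 2 t.β) 1) fun mβ => force (Nat.sub (Nat.pow 2 t.w) 1) fun mw =>
  force (Nat.mul rw t.n) fun nrw => force t.β fun β => force t.Ws fun Ws => force t.n fun n =>
  force t.BP fun BP => force t.w fun w =>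
  force (cstX t.oU (mkTS (fun b => cond s b.Tn b.Tp) t.bs)) fun C =>
  force (cstX t.oU (mkTS (fun b => cond s b.Sn b.Sp) t.bs)) fun C' =>
  forceL (tb1 (fun b => cond s b.Tp b.Tn) t.bs) fun Ts =>
  forceL (tb1 (fun b => cond s b.Sp b.Sn) t.bs) fun Ts' =>
  H147.runF β rw mβ Ws TT n nrw BP w mw C C' Ts Ts' t.bs t.EL num a X

theorem rowF_eq {t : TyE} {TT rw : ℕ} (hR : t.R = RcE TT rw) (h1 : t.one = true)
    (hrw : 19 ≤ rw) (s : Bool) (k acc : ℕ) :
    rowF t.β rw (2 ^ t.β - 1) t.Ws TT t.n (rw * t.n) t.BP t.w (2 ^ t.w - 1)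
      (cstX t.oU (mkTS (fun b => cond s b.Tn b.Tp) t.bs))
      (cstX t.oU (mkTS (fun b => cond s b.Sn b.Sp) t.bs))
      (tb1 (fun b => cond s b.Tp b.Tn) t.bs) (tb1 (fun b => cond s b.Sp b.Sn) t.bs)
      t.bs t.EL k acc = t.rowX s k acc := by
  unfold TyE.one at h1
  simp only [Bool.and_eq_true, decide_eq_true_eq] at h1
  obtain ⟨⟨⟨a1, a2⟩, a3⟩, a4⟩ := h1
  unfold rowF TyE.rowX
  simp only [forceL_eq, force_eq]
  rw [accKf_eq rfl rfl hrw]
  cases s
  · simp only [cond_false]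
    unfold rowX
    rw [hR, ← a3, ← a4]
    simp only [forceL_eq, force_eq]
  · simp only [cond_true]
    unfold rowX
    rw [hR, ← a1, ← a2]
    simp only [forceL_eq, force_eq]

theorem runF_eq {t : TyE} {TT rw : ℕ} (hR : t.R = RcE TT rw) (h1 : t.one = true)
    (hrw : 19 ≤ rw) (s : Bool) (num a X : ℕ) : t.runF TT rw s num a X = t.run s num a X := by
  unfold TyE.runF
  simp only [forceL_eq, force_eq]
  show H147.runF t.β rw (2 ^ t.β - 1) t.Ws TT t.n (rw * t.n) t.BP t.w (2 ^ t.w - 1)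
      _ _ _ _ t.bs t.EL num a X = _
  induction num generalizing a X with
  | zero => rfl
  | succ n ih =>
    have e1 : t.run s (n + 1) a X = force (t.rowX s a X) fun x => force (Nat.succ a) fun k' =>
      t.run s n k' x := rfl
    rw [e1, force_eq, force_eq, ← ih, ← rowF_eq hR h1 hrw s a X]
    show force _ _ = _
    rw [force_eq]
    rfl

/-- a checked chunk, fast. -/
theorem Ch.ckF {t : TyE} {ν : ℕ → ℕ → ℕ} {nk : ℕ} (ht : t.Ok ν nk) {TT rw : ℕ}
    (hR : t.R = RcE TT rw) (h1 : t.one = true) (hrw : Nat.ble 19 rw = true) (s : Bool)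
    (num a b X X' : ℕ)
    (h : and (Nat.beq (Nat.add a num) b) (and (Nat.ble b nk)
      (Nat.beq (t.runF TT rw s num a X) X')) = true) : Ch t s a b X X' := by
  rw [runF_eq hR h1 (Nat.le_of_ble_eq_true hrw)] at h
  exact Ch.ck ht s num a b X X' h

end Vale.Agent.P355.H147
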