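import Vale.Agent.P355.H147.Group

/-! Positivity of blocks spanned by fixed combinations of group translates. -/

namespace Vale.Agent.P355.H147

open Finset

theorem GramF.symm {X : Type*} {M : X → X → ℝ} (h : GramF M) (x y : X) : M x y = M y x := by
  obtain ⟨ι, _, φ, hφ⟩ := h
  rw [hφ, hφ]
  refine Finset.sum_congr rfl fun i _ => ?_
  have : φ i y * star (φ i x) = star (φ i x * star (φ i y)) := by
    rw [star_mul', star_star, mul_comm]
  rw [this]; rfl

/-- scaling of the vectors. -/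
theorem GramF.scale {X : Type*} {M : X → X → ℝ} (h : GramF M) (s : X → ℝ) :
    GramF fun x y => s x * s y * M x y := by
  obtain ⟨ι, hι, φ, hφ⟩ := h
  refine ⟨ι, hι, fun i x => (s x : ℂ) * φ i x, fun x y => ?_⟩
  simp only
  rw [hφ, Finset.mul_sum]
  refine Finset.sum_congr rfl fun i _ => ?_
  have h3 : star ((s y : ℝ) : ℂ) = ((s y : ℝ) : ℂ) := Complex.conj_ofReal _
  have h4 : (s x : ℂ) * φ i x * star ((s y : ℂ) * φ i y)
      = ((s x * s y : ℝ) : ℂ) * (φ i x * star (φ i y)) := by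
    rw [star_mul', h3]; push_cast; ring
  rw [h4, Complex.re_ofReal_mul]

variable {X : Type*}

/-- inner product of two combinations of translates. -/
noncomputable def EA (n : ℕ) (act : ℕ → X → X) (M : X → X → ℝ) (A : ℕ → ℕ → ℝ) (x : ℕ → X)
    (k s l s' : ℕ) : ℝ :=
  ∑ i ∈ range n, ∑ i' ∈ range n, A s i * A s' i' * M (act i (x k)) (act i' (x l))

theorem EA_symm {n : ℕ} {act : ℕ → X → X} {M : X → X → ℝ} (hM : GramF M) (A : ℕ → ℕ → ℝ)
    (x : ℕ → X) (k s l s' : ℕ) : EA n act M A x k s l s' = EA n act M A x l s' k s := by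
  unfold EA
  rw [Finset.sum_comm]
  refine Finset.sum_congr rfl fun i _ => Finset.sum_congr rfl fun i' _ => ?_
  rw [hM.symm]; ring

/-- a group acting by tables (on naturals below `n`). -/
structure GT (n : ℕ) (act : ℕ → X → X) (ν : ℕ → ℕ → ℕ) : Prop where
  lt : ∀ i < n, ∀ j < n, ν i j < n
  act : ∀ i < n, ∀ j < n, ∀ x, act i (act j x) = act (ν i j) x
  inv : ∀ i < n, ∃ i' < n, ∀ j < n, ν i' (ν i j) = j

theorem GT.sum {n : ℕ} {act : ℕ → X → X} {ν : ℕ → ℕ → ℕ} (h : GT n act ν) {i : ℕ} (hi : i < n)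
    (f : ℕ → ℝ) : ∑ j ∈ range n, f (ν i j) = ∑ j ∈ range n, f j := by
  obtain ⟨i', _, hinv⟩ := h.inv i hi
  have hinj : Set.InjOn (ν i) (range n : Set ℕ) := by
    intro a ha b hb hab
    have ha' : a < n := by simpa using ha
    have hb' : b < n := by simpa using hb
    rw [← hinv a ha', ← hinv b hb', hab]
  have him : (range n).image (ν i) = range n := by
    refine Finset.eq_of_subset_of_card_le ?_ ?_
    · intro a ha
      obtain ⟨b, hb, rfl⟩ := Finset.mem_image.1 ha
      exact mem_range.2 (h.lt i hi b (mem_range.1 hb))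
    · rw [Finset.card_image_of_injOn hinj]
  calc ∑ j ∈ range n, f (ν i j) = ∑ j ∈ (range n).image (ν i), f j :=
        (Finset.sum_image hinj).symm
    _ = _ := by rw [him]

/-- correlations of the coefficient functions. -/
noncomputable def corr (n : ℕ) (ν : ℕ → ℕ → ℕ) (A : ℕ → ℕ → ℝ) (s s' j : ℕ) : ℝ :=
  ∑ i ∈ range n, A s i * A s' (ν i j)

theorem EA_eq {n : ℕ} {act : ℕ → X → X} {ν : ℕ → ℕ → ℕ} (hG : GT n act ν) {M : X → X → ℝ}
    (hinv : ∀ i < n, ∀ x y, M (act i x) (act i y) = M x y) (A : ℕ → ℕ → ℝ) (x : ℕ → X)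
    (k s l s' : ℕ) :
    EA n act M A x k s l s' = ∑ j ∈ range n, corr n ν A s s' j * M (x k) (act j (x l)) := by
  unfold EA corr
  simp only [Finset.sum_mul]
  conv_rhs => rw [Finset.sum_comm]
  refine Finset.sum_congr rfl fun i hi => ?_
  have hi' := mem_range.1 hi
  rw [← hG.sum hi' fun i' => A s i * A s' i' * M (act i (x k)) (act i' (x l))]
  refine Finset.sum_congr rfl fun j hj => ?_
  rw [← hG.act i hi' j (mem_range.1 hj), hinv i hi']

/-- positivity. -/
theorem EA_nonneg {n d nk : ℕ} {act : ℕ → X → X} {M : X → X → ℝ} (hM : GramF M)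
    (A : ℕ → ℕ → ℝ) (x : ℕ → X) {Q : ℕ → ℕ → ℝ}
    (hQ : ∀ z : ℕ → ℂ, 0 ≤ ∑ i ∈ range (nk * d), ∑ j ∈ range (nk * d),
      Q i j * (z i * star (z j)).re) :
    0 ≤ ∑ i ∈ range (nk * d), ∑ j ∈ range (nk * d),
      Q i j * EA n act M A x (i / d) (i % d) (j / d) (j % d) := by
  obtain ⟨ι, _, φ, hφ⟩ := hM
  have h1 : ∀ i j, EA n act M A x (i / d) (i % d) (j / d) (j % d)
      = ∑ α : ι, ((∑ a ∈ range n, (A (i % d) a : ℂ) * φ α (act a (x (i / d))))
        * star (∑ a ∈ range n, (A (j % d) a : ℂ) * φ α (act a (x (j / d))))).re := by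
    intro i j
    unfold EA
    simp only [hφ, Finset.mul_sum, star_sum, star_mul', Finset.sum_mul, Complex.re_sum]
    rw [Finset.sum_comm]
    have h2 : ∀ b ∈ range n, ∑ a ∈ range n, ∑ α : ι, A (i % d) a * A (j % d) b
        * (φ α (act a (x (i / d))) * star (φ α (act b (x (j / d))))).re
        = ∑ α : ι, ∑ a ∈ range n, A (i % d) a * A (j % d) b
        * (φ α (act a (x (i / d))) * star (φ α (act b (x (j / d))))).re := fun b _ =>
      Finset.sum_comm
    rw [Finset.sum_congr rfl h2, Finset.sum_comm]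
    refine Finset.sum_congr rfl fun α _ => ?_
    refine Finset.sum_congr rfl fun b _ => Finset.sum_congr rfl fun a _ => ?_
    have h3 : star ((A (j % d) b : ℝ) : ℂ) = ((A (j % d) b : ℝ) : ℂ) := Complex.conj_ofReal _
    rw [h3]
    have h4 : (A (i % d) a : ℂ) * φ α (act a (x (i / d)))
        * (((A (j % d) b : ℝ) : ℂ) * star (φ α (act b (x (j / d)))))
        = ((A (i % d) a * A (j % d) b : ℝ) : ℂ)
          * (φ α (act a (x (i / d))) * star (φ α (act b (x (j / d))))) := by
      push_cast; ring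
    rw [h4, Complex.re_ofReal_mul]
  simp only [h1, Finset.mul_sum]
  have h5 : ∀ i ∈ range (nk * d), ∑ j ∈ range (nk * d), ∑ α : ι,
      Q i j * ((∑ a ∈ range n, (A (i % d) a : ℂ) * φ α (act a (x (i / d))))
        * star (∑ a ∈ range n, (A (j % d) a : ℂ) * φ α (act a (x (j / d))))).re
      = ∑ α : ι, ∑ j ∈ range (nk * d),
      Q i j * ((∑ a ∈ range n, (A (i % d) a : ℂ) * φ α (act a (x (i / d))))
        * star (∑ a ∈ range n, (A (j % d) a : ℂ) * φ α (act a (x (j / d))))).re := fun i _ =>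
    Finset.sum_comm
  rw [Finset.sum_congr rfl h5, Finset.sum_comm]
  exact Finset.sum_nonneg fun α _ =>
    hQ fun i => ∑ a ∈ range n, (A (i % d) a : ℂ) * φ α (act a (x (i / d)))

/-- splitting an index. -/
theorem sum_div_mod (nk d : ℕ) (f : ℕ → ℝ) :
    ∑ i ∈ range (nk * d), f i = ∑ k ∈ range nk, ∑ s ∈ range d, f (k * d + s) := by
  induction nk with
  | zero => simp
  | succ nk ih =>
    rw [Nat.succ_mul, Finset.sum_range_add, ih, Finset.sum_range_succ]

/-- symmetric double sums. -/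
theorem sum_symm' (n : ℕ) (f : ℕ → ℕ → ℝ) (h : ∀ i j, f i j = f j i) :
    ∑ i ∈ range n, ∑ j ∈ range n, f i j = ∑ i ∈ range n, (f i i + 2 * ∑ j ∈ range i, f i j) := by
  induction n with
  | zero => simp
  | succ n ih =>
    rw [Finset.sum_range_succ, Finset.sum_range_succ (f := fun i => f i i + 2 * ∑ j ∈ range i, f i j)]
    have h1 : ∑ i ∈ range n, ∑ j ∈ range (n + 1), f i j
        = ∑ i ∈ range n, ∑ j ∈ range n, f i j + ∑ i ∈ range n, f n i := by
      rw [← Finset.sum_add_distrib]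
      refine Finset.sum_congr rfl fun i _ => ?_
      rw [Finset.sum_range_succ, h i n]
    rw [h1, ih, Finset.sum_range_succ (f := fun j => f n j)]
    ring

/-- one block: the sum over pairs of representatives. -/
theorem block_pairs {n d nk : ℕ} (hd : 0 < d) {act : ℕ → X → X} {ν : ℕ → ℕ → ℕ}
    (hG : GT n act ν)
    {M : X → X → ℝ} (hM : GramF M) (hinv : ∀ i < n, ∀ x y, M (act i x) (act i y) = M x y)
    (A : ℕ → ℕ → ℝ) (x : ℕ → X) {Q : ℕ → ℕ → ℝ} (hs : ∀ i j, Q i j = Q j i)
    (hQ : ∀ z : ℕ → ℂ, 0 ≤ ∑ i ∈ range (nk * d), ∑ j ∈ range (nk * d),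
      Q i j * (z i * star (z j)).re) :
    0 ≤ ∑ k ∈ range nk, ∑ l ∈ range (k + 1), (if l < k then 2 else 1) *
      ∑ j ∈ range n, (∑ s ∈ range d, ∑ s' ∈ range d,
        Q (k * d + s) (l * d + s') * corr n ν A s s' j) * M (x k) (act j (x l)) := by
  have h := EA_nonneg (n := n) (d := d) (nk := nk) (act := act) hM A x hQ
  have e : ∀ k s, s < d → (k * d + s) / d = k ∧ (k * d + s) % d = s := by
    intro k s hs
    constructor
    · rw [mul_comm, Nat.mul_add_div hd, Nat.div_eq_of_lt hs, add_zero]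
    · rw [mul_comm, Nat.mul_add_mod, Nat.mod_eq_of_lt hs]
  set F : ℕ → ℕ → ℝ := fun k l => ∑ s ∈ range d, ∑ s' ∈ range d,
    Q (k * d + s) (l * d + s') * EA n act M A x k s l s' with hF
  have h1 : ∑ i ∈ range (nk * d), ∑ j ∈ range (nk * d),
      Q i j * EA n act M A x (i / d) (i % d) (j / d) (j % d)
      = ∑ k ∈ range nk, ∑ l ∈ range nk, F k l := by
    rw [sum_div_mod]
    refine Finset.sum_congr rfl fun k _ => ?_
    have h2 : ∀ s ∈ range d, ∑ j ∈ range (nk * d), Q (k * d + s) j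
        * EA n act M A x ((k * d + s) / d) ((k * d + s) % d) (j / d) (j % d)
        = ∑ l ∈ range nk, ∑ s' ∈ range d, Q (k * d + s) (l * d + s')
          * EA n act M A x k s l s' := by
      intro s hs
      rw [(e k s (mem_range.1 hs)).1, (e k s (mem_range.1 hs)).2, sum_div_mod]
      refine Finset.sum_congr rfl fun l _ => Finset.sum_congr rfl fun s' hs' => ?_
      rw [(e l s' (mem_range.1 hs')).1, (e l s' (mem_range.1 hs')).2]
    rw [Finset.sum_congr rfl h2, Finset.sum_comm]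
  have hsym : ∀ k l, F k l = F l k := by
    intro k l
    rw [hF]
    simp only
    rw [Finset.sum_comm]
    refine Finset.sum_congr rfl fun s' _ => Finset.sum_congr rfl fun s _ => ?_
    rw [hs, EA_symm hM]
  rw [h1, sum_symm' nk F hsym] at h
  refine h.trans (le_of_eq (Finset.sum_congr rfl fun k _ => ?_))
  have h3 : ∀ l, F k l = ∑ j ∈ range n, (∑ s ∈ range d, ∑ s' ∈ range d,
      Q (k * d + s) (l * d + s') * corr n ν A s s' j) * M (x k) (act j (x l)) := by
    intro l
    rw [hF]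
    simp only [EA_eq hG hinv, Finset.mul_sum, Finset.sum_mul]
    have h4 : ∀ s ∈ range d, ∑ s' ∈ range d, ∑ j ∈ range n,
        Q (k * d + s) (l * d + s') * (corr n ν A s s' j * M (x k) (act j (x l)))
        = ∑ j ∈ range n, ∑ s' ∈ range d,
        Q (k * d + s) (l * d + s') * (corr n ν A s s' j * M (x k) (act j (x l))) := fun s _ =>
      Finset.sum_comm
    rw [Finset.sum_congr rfl h4, Finset.sum_comm]
    refine Finset.sum_congr rfl fun j _ => Finset.sum_congr rfl fun s _ =>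
      Finset.sum_congr rfl fun s' _ => ?_
    ring
  rw [Finset.sum_range_succ, if_neg (lt_irrefl k), one_mul, ← h3, add_comm]
  congr 1
  rw [Finset.mul_sum]
  refine Finset.sum_congr rfl fun l hl => ?_
  rw [if_pos (mem_range.1 hl), ← h3]

end Vale.Agent.P355.H147
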