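import Vale.Agent.P355.H147.Sos

/-! Fast check of the tables of a block: correlations by multiplication of packed numbers. -/

namespace Vale.Agent.P355.H147

open Finset Vale.Agent.P355
open Vale.Agent.P355.H129 (force force_eq dg dg_sum)

/-- Horner: `∑ i < n, f i * 2 ^ (32 i)` on top of `acc`. -/
def hN (f : ℕ → ℕ) (n : ℕ) : ℕ → ℕ :=
  Nat.rec (motive := fun _ => ℕ → ℕ) (fun acc => acc)
    (fun i ih acc => force (Nat.add (Nat.mul acc 4294967296) (f i)) ih) n

theorem hN_eq (f : ℕ → ℕ) : ∀ (n acc : ℕ), hN f n acc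
    = acc * 4294967296 ^ n + ∑ i ∈ range n, f i * 4294967296 ^ i
  | 0, acc => by simp [hN]
  | n + 1, acc => by
    have e : hN f (n + 1) acc = hN f n (acc * 4294967296 + f n) := by
      show force (acc * 4294967296 + f n) (hN f n) = _
      rw [force_eq]
    rw [e, hN_eq f n, sum_range_succ, pow_succ]; ring

/-- values along a column of the table of the group. -/
def permX (n : ℕ) (ν : ℕ → ℕ → ℕ) (a j : ℕ) : ℕ := hN (fun i => fld 8 a (ν i j)) n 0

/-- reversed values. -/
def revX (n a : ℕ) : ℕ := hN (fun i => fld 8 a (Nat.sub (Nat.sub n 1) i)) n 0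

/-- digit. -/
def dgm (sh X : ℕ) : ℕ := Nat.mod (Nat.shiftRight X sh) 4294967296

theorem dgm_eq (k X : ℕ) : dgm (Nat.mul 32 k) X = dg 4294967296 X k := by
  show (X >>> (32 * k)) % 4294967296 = X / 4294967296 ^ k % 4294967296
  rw [Nat.shiftRight_eq_div_pow, pow_mul]
  norm_num

theorem fld8_lt (a i : ℕ) : fld 8 a i < 256 := by
  rw [fld_eq]
  exact H129.dg_lt (by norm_num) _ _

open Polynomial in
theorem conv_dg {B n : ℕ} {x y x' y' : ℕ → ℕ} (hx : ∀ i, x i < 256) (hy : ∀ i, y i < 256)
    (hx' : ∀ i, x' i < 256) (hy' : ∀ i, y' i < 256) (hB : 2 * (n * 65536) < B) (hn : 0 < n) :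
    dg B ((∑ i ∈ range n, x (n - 1 - i) * B ^ i) * (∑ i ∈ range n, y i * B ^ i)
      + (∑ i ∈ range n, x' (n - 1 - i) * B ^ i) * (∑ i ∈ range n, y' i * B ^ i)) (n - 1)
      = ∑ i ∈ range n, (x i * y i + x' i * y' i) := by
  set P : (ℕ → ℕ) → ℕ[X] := fun f => ∑ i ∈ range n, monomial i (f i) with hP
  have hev : ∀ f : ℕ → ℕ, (P f).eval B = ∑ i ∈ range n, f i * B ^ i := by
    intro f
    rw [hP, eval_finsetSum]
    exact sum_congr rfl fun i _ => by rw [eval_monomial]
  have hco : ∀ (f : ℕ → ℕ) (a : ℕ), (P f).coeff a = if a < n then f a else 0 := by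
    intro f a
    rw [hP, finsetSum_coeff]
    simp only [coeff_monomial]
    rw [Finset.sum_ite_eq' (range n) a]
    simp only [mem_range]
  have hdeg : ∀ f : ℕ → ℕ, (P f).natDegree < n := by
    intro f
    rw [Nat.lt_iff_le_pred hn]
    refine natDegree_sum_le_of_forall_le _ _ fun i hi => ?_
    exact (natDegree_monomial_le _).trans (by have := mem_range.1 hi; simp; omega)
  set R : ℕ[X] := P (fun i => x (n - 1 - i)) * P y + P (fun i => x' (n - 1 - i)) * P y' with hR
  have hRd : R.natDegree < 2 * n := by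
    have h1 : ∀ f g : ℕ → ℕ, (P f * P g).natDegree ≤ 2 * n - 1 := by
      intro f g
      refine natDegree_mul_le.trans ?_
      have := hdeg f
      have := hdeg g
      omega
    have h2 := natDegree_add_le_of_degree_le (h1 (fun i => x (n - 1 - i)) y)
      (h1 (fun i => x' (n - 1 - i)) y')
    rw [← hR] at h2
    omega
  have hRe : (∑ i ∈ range n, x (n - 1 - i) * B ^ i) * (∑ i ∈ range n, y i * B ^ i)
      + (∑ i ∈ range n, x' (n - 1 - i) * B ^ i) * (∑ i ∈ range n, y' i * B ^ i)
      = ∑ t ∈ range (2 * n), R.coeff t * B ^ t := by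
    rw [← eval_eq_sum_range' hRd B, hR, eval_add, eval_mul, eval_mul, hev, hev, hev, hev]
  have hcm : ∀ (f g : ℕ → ℕ) (t : ℕ), (P f * P g).coeff t
      = ∑ k ∈ range (t + 1), (if k < n then f k else 0) * (if t - k < n then g (t - k) else 0) := by
    intro f g t
    rw [coeff_mul, Finset.Nat.sum_antidiagonal_eq_sum_range_succ_mk]
    exact sum_congr rfl fun k _ => by rw [hco, hco]
  have hcb : ∀ (f g : ℕ → ℕ), (∀ i, f i < 256) → (∀ i, g i < 256) → ∀ t,
      (P f * P g).coeff t ≤ n * 65536 := by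
    intro f g hf hg t
    rw [hcm]
    calc ∑ k ∈ range (t + 1), (if k < n then f k else 0) * (if t - k < n then g (t - k) else 0)
        ≤ ∑ k ∈ range (t + 1), (if k < n then 65536 else 0) := by
          refine Finset.sum_le_sum fun k _ => ?_
          have h1 := hf k
          have h2 : (if t - k < n then g (t - k) else 0) ≤ 256 := by
            split_ifs
            · exact (hg (t - k)).le
            · omega
          by_cases hk : k < n
          · rw [if_pos hk, if_pos hk]
            exact Nat.mul_le_mul h1.le h2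
          · rw [if_neg hk, if_neg hk, Nat.zero_mul]
      _ = ((range (t + 1)).filter (· < n)).card * 65536 := by
          rw [Finset.sum_ite, Finset.sum_const_zero, add_zero, Finset.sum_const, smul_eq_mul]
      _ ≤ n * 65536 := by
          refine Nat.mul_le_mul_right _ ?_
          have : (range (t + 1)).filter (· < n) ⊆ range n := by
            intro k hk
            exact mem_range.2 (Finset.mem_filter.1 hk).2
          simpa using Finset.card_le_card this
  have hRb : ∀ t < 2 * n, R.coeff t < B := by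
    intro t _
    rw [hR, coeff_add]
    have h1 := hcb (fun i => x (n - 1 - i)) y (fun i => hx _) hy t
    have h2 := hcb (fun i => x' (n - 1 - i)) y' (fun i => hx' _) hy' t
    omega
  rw [hRe, dg_sum (show n - 1 < 2 * n by omega) hRb, hR, coeff_add, hcm, hcm]
  have e1 : n - 1 + 1 = n := by omega
  rw [e1, ← Finset.sum_add_distrib, ← Finset.sum_range_reflect
    (fun i => x i * y i + x' i * y' i) n]
  refine sum_congr rfl fun k hk => ?_
  have hk' := mem_range.1 hk
  rw [if_pos hk', if_pos (show n - 1 - k < n by omega)]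
  rw [if_pos hk', if_pos (show n - 1 - k < n by omega)]

/-- walk through the group elements. -/
def wk (sh β RA RN μ P N P' N' : ℕ) : List ℕ → List ℕ → ℕ → Bool :=
  List.rec (motive := fun _ => List ℕ → ℕ → Bool) (fun _ _ => true)
    (fun pa _ ih NA j => List.rec (motive := fun _ => Bool) false
      (fun na NA' _ => force (dgm sh (Nat.add (Nat.mul RA pa) (Nat.mul RN na))) fun p =>
        force (dgm sh (Nat.add (Nat.mul RA na) (Nat.mul RN pa))) fun q =>
        and (Nat.beq (Nat.add (fld β P j) (Nat.mul 2 q)) (Nat.add (fld β N j) (Nat.mul 2 p)))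
          (and (Nat.beq (Nat.add (fld β P' j) (Nat.mul μ q)) (Nat.add (fld β N' j) (Nat.mul μ p)))
            (force (Nat.succ j) fun j' => ih NA' j'))) NA)

theorem wk_spec {sh β RA RN μ P N P' N' : ℕ} : ∀ {PA NA : List ℕ} {j : ℕ},
    wk sh β RA RN μ P N P' N' PA NA j = true → ∀ i < PA.length,
      fld β P (j + i) + 2 * dgm sh (RA * NA.getD i 0 + RN * PA.getD i 0)
        = fld β N (j + i) + 2 * dgm sh (RA * PA.getD i 0 + RN * NA.getD i 0) ∧
      fld β P' (j + i) + μ * dgm sh (RA * NA.getD i 0 + RN * PA.getD i 0)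
        = fld β N' (j + i) + μ * dgm sh (RA * PA.getD i 0 + RN * NA.getD i 0)
  | [], NA, j, _, i, hi => absurd hi (by simp)
  | pa :: PA, [], j, h, i, hi => absurd h (by simp [wk])
  | pa :: PA, na :: NA, j, h, i, hi => by
    have e : wk sh β RA RN μ P N P' N' (pa :: PA) (na :: NA) j
        = force (dgm sh (RA * pa + RN * na)) fun p =>
        force (dgm sh (RA * na + RN * pa)) fun q =>
        ((Nat.beq (fld β P j + 2 * q) (fld β N j + 2 * p)) &&
          ((Nat.beq (fld β P' j + μ * q) (fld β N' j + μ * p)) &&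
            (force (Nat.succ j) fun j' => wk sh β RA RN μ P N P' N' PA NA j'))) := rfl
    rw [e] at h
    simp only [force_eq, Bool.and_eq_true] at h
    obtain ⟨h1, h2, h3⟩ := h
    cases i with
    | zero =>
      exact ⟨Nat.eq_of_beq_eq_true h1, Nat.eq_of_beq_eq_true h2⟩
    | succ i =>
      have h4 := wk_spec h3 i (by simpa using hi)
      have e2 : Nat.succ j + i = j + (i + 1) := by omega
      rw [e2] at h4
      exact h4

/-- correlations of all pairs. -/
def corCk (n : ℕ) (ν : ℕ → ℕ → ℕ) (β : ℕ) (b : BD) : Bool :=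
  and (Nat.ble n 256) (and (Nat.blt 0 n) (force (Nat.mul 32 (Nat.sub n 1)) fun sh =>
    allN b.d fun s' => force (b.Ap.getD s' 0) fun a' => force (b.An.getD s' 0) fun c' =>
      forceL (consR (fun j => permX n ν a' j) n []) fun PA =>
      forceL (consR (fun j => permX n ν c' j) n []) fun NA =>
      allN b.d fun s => force (revX n (b.Ap.getD s 0)) fun RA =>
        force (revX n (b.An.getD s 0)) fun RN => force (mu2 s s') fun μ =>
        force (tb b.Tp s s') fun P => force (tb b.Tn s s') fun N =>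
        force (tb b.Sp s s') fun P' => force (tb b.Sn s s') fun N' =>
        wk sh β RA RN μ P N P' N' PA NA 0))

/-- shape and digits of a table. -/
def shpCk (n β bt d : ℕ) (P : List (List ℕ)) : Bool :=
  and (Nat.beq P.length d) (allN d fun s => and (Nat.beq (P.getD s []).length d)
    (allN d fun s' => force ((P.getD s []).getD s' 0) fun p => vCk β n bt p))

/-- fast check of a block. -/
def BD.ckF (n : ℕ) (ν : ℕ → ℕ → ℕ) (β bt : ℕ) (b : BD) : Bool :=
  and (Nat.blt 0 b.d) (and (shpCk n β bt b.d b.Tp) (and (shpCk n β bt b.d b.Tn)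
    (and (shpCk n β bt b.d b.Sp) (and (shpCk n β bt b.d b.Sn) (corCk n ν β b)))))

theorem allN_intro {n : ℕ} {p : ℕ → Bool} (h : ∀ i < n, p i = true) : allN n p = true := by
  induction n with
  | zero => rfl
  | succ n ih =>
    have e : allN (n + 1) p = (p n && allN n p) := rfl
    rw [e, h n (by omega), ih fun i hi => h i (by omega)]; rfl

theorem corCk_spec {n : ℕ} {ν : ℕ → ℕ → ℕ} {β : ℕ} {b : BD} (h : corCk n ν β b = true)
    {s s' j : ℕ} (hs : s < b.d) (hs' : s' < b.d) (hj : j < n) :
    (fld β (tb b.Tp s s') j + 2 * posX n ν (b.Ap.getD s 0) (b.An.getD s 0) (b.An.getD s' 0)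
        (b.Ap.getD s' 0) j
      = fld β (tb b.Tn s s') j + 2 * posX n ν (b.Ap.getD s 0) (b.An.getD s 0) (b.Ap.getD s' 0)
        (b.An.getD s' 0) j) ∧
    (fld β (tb b.Sp s s') j + mu2 s s' * posX n ν (b.Ap.getD s 0) (b.An.getD s 0)
        (b.An.getD s' 0) (b.Ap.getD s' 0) j
      = fld β (tb b.Sn s s') j + mu2 s s' * posX n ν (b.Ap.getD s 0) (b.An.getD s 0)
        (b.Ap.getD s' 0) (b.An.getD s' 0) j) := by
  unfold corCk at h
  simp only [force_eq, forceL_eq, consR_eq, List.append_nil, Bool.and_eq_true] at h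
  obtain ⟨hn, hn0, h⟩ := h
  have hn : n ≤ 256 := Nat.le_of_ble_eq_true hn
  have hn0 : 0 < n := by rw [Nat.blt_eq] at hn0; exact hn0
  have h1 := allN_spec (allN_spec h s' hs') s hs
  have h2 := wk_spec h1 j (by simpa using hj)
  rw [Nat.zero_add] at h2
  have gp : ∀ a : ℕ, ((List.range n).map fun j => permX n ν a j).getD j 0 = permX n ν a j := by
    intro a; simp [List.getD_eq_getElem?_getD, hj]
  rw [gp, gp] at h2
  have key : ∀ a c a' c' : ℕ, dgm (Nat.mul 32 (Nat.sub n 1))
      (revX n a * permX n ν a' j + revX n c * permX n ν c' j)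
      = posX n ν a c a' c' j := by
    intro a c a' c'
    have e := dgm_eq (n - 1) (revX n a * permX n ν a' j + revX n c * permX n ν c' j)
    have e' : Nat.mul 32 (Nat.sub n 1) = Nat.mul 32 (n - 1) := rfl
    rw [e', e, posX_eq]
    unfold revX permX
    rw [hN_eq, hN_eq, hN_eq, hN_eq]
    simp only [zero_mul, zero_add]
    exact conv_dg (x := fun i => fld 8 a i) (y := fun i => fld 8 a' (ν i j))
      (x' := fun i => fld 8 c i) (y' := fun i => fld 8 c' (ν i j)) (fun _ => fld8_lt _ _)
      (fun _ => fld8_lt _ _) (fun _ => fld8_lt _ _) (fun _ => fld8_lt _ _) (by omega) hn0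
  rw [key, key] at h2
  exact h2

/-- **The fast check implies the check.** -/
theorem BD.ck_of {n : ℕ} {ν : ℕ → ℕ → ℕ} {β bt : ℕ} {b : BD} (h : b.ckF n ν β bt = true) :
    b.ck n ν β bt = true := by
  unfold BD.ckF at h
  simp only [Bool.and_eq_true] at h
  obtain ⟨hd, hTp, hTn, hSp, hSn, hc⟩ := h
  have sh : ∀ P : List (List ℕ), shpCk n β bt b.d P = true → P.length = b.d ∧
      ∀ s < b.d, (P.getD s []).length = b.d ∧ ∀ s' < b.d,
        vCk β n bt ((P.getD s []).getD s' 0) = true := by
    intro P hP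
    unfold shpCk at hP
    simp only [Bool.and_eq_true, force_eq] at hP
    refine ⟨Nat.eq_of_beq_eq_true hP.1, fun s hs => ?_⟩
    have h5 := allN_spec hP.2 s hs
    rw [Bool.and_eq_true] at h5
    exact ⟨Nat.eq_of_beq_eq_true h5.1, fun s' hs' => allN_spec h5.2 s' hs'⟩
  have mk : ∀ (μ : ℕ → ℕ → ℕ) (P N : List (List ℕ)), shpCk n β bt b.d P = true →
      shpCk n β bt b.d N = true →
      (∀ s < b.d, ∀ s' < b.d, ∀ j < n,
        fld β (tb P s s') j + μ s s' * posX n ν (b.Ap.getD s 0) (b.An.getD s 0) (b.An.getD s' 0)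
          (b.Ap.getD s' 0) j
        = fld β (tb N s s') j + μ s s' * posX n ν (b.Ap.getD s 0) (b.An.getD s 0)
          (b.Ap.getD s' 0) (b.An.getD s' 0) j) → tblCk n ν β bt μ b P N = true := by
    intro μ P N hP hN hco
    obtain ⟨p1, p2⟩ := sh P hP
    obtain ⟨q1, q2⟩ := sh N hN
    unfold tblCk
    simp only [Bool.and_eq_true, force_eq]
    refine ⟨by rw [p1]; exact Nat.beq_refl _, by rw [q1]; exact Nat.beq_refl _, ?_⟩
    refine allN_intro fun s hs => ?_
    simp only [Bool.and_eq_true]
    refine ⟨by rw [(p2 s hs).1]; exact Nat.beq_refl _, by rw [(q2 s hs).1]; exact Nat.beq_refl _,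
      ?_⟩
    refine allN_intro fun s' hs' => ?_
    simp only [Bool.and_eq_true]
    refine ⟨(p2 s hs).2 s' hs', (q2 s hs).2 s' hs', ?_⟩
    unfold coCk
    refine allN_intro fun j hj => ?_
    have := hco s hs s' hs' j hj
    rw [Nat.beq_eq]
    exact this
  unfold BD.ck
  simp only [Bool.and_eq_true]
  exact ⟨hd, mk (fun _ _ => 2) _ _ hTp hTn fun s hs s' hs' j hj => (corCk_spec hc hs hs' hj).1,
    mk mu2 _ _ hSp hSn fun s hs s' hs' j hj => (corCk_spec hc hs hs' hj).2⟩

end Vale.Agent.P355.H147
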