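import Vale.Agent.P355.H147.Key

/-! Encoding of flows and colour words as keys. -/

namespace Vale.Agent.P355.H147

open Finset

theorem np_succ (n : ℕ) : np (n + 1) = np n + n := by
  unfold np
  have h : (n + 1) * (n + 1 - 1) = n * (n - 1) + n * 2 := by
    cases n with
    | zero => rfl
    | succ n => simp only [Nat.add_sub_cancel]; ring
  rw [h, Nat.add_mul_div_right _ _ (by norm_num)]

theorem ix_eq (p q : ℕ) : ix p q = np q + p := rfl

theorem np_mono {a b : ℕ} (h : a ≤ b) : np a ≤ np b := by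
  induction h with
  | refl => exact le_rfl
  | step _ ih => rw [np_succ]; omega

theorem ix_lt {p q N : ℕ} (h : p < q) (hq : q < N) : ix p q < np N := by
  have h1 : np (q + 1) ≤ np N := np_mono hq
  rw [np_succ] at h1
  rw [ix_eq]; omega

/-- digits in base `B` on a range. -/
def en1 (B : ℕ) (d : ℕ → ℕ) (n : ℕ) : ℕ := ∑ a ∈ range n, d a * B ^ a

theorem en1_succ (B : ℕ) (d : ℕ → ℕ) (n : ℕ) : en1 B d (n + 1) = en1 B d n + B ^ n * d n := by
  unfold en1; rw [sum_range_succ, mul_comm (B ^ n)]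

theorem en1_lt {B : ℕ} {d : ℕ → ℕ} {n : ℕ} (h : ∀ a < n, d a < B) : en1 B d n < B ^ n := by
  induction n with
  | zero => simp [en1]
  | succ n ih =>
    have h1 := ih fun a ha => h a (by omega)
    have h2 := h n (by omega)
    rw [en1_succ, pow_succ]
    have h3 : B ^ n * d n ≤ B ^ n * (B - 1) := Nat.mul_le_mul_left _ (by omega)
    have h4 : B ^ n * (B - 1) + B ^ n = B ^ n * B := by
      rw [← Nat.mul_succ]; congr 1; omega
    omega

theorem low_dg {B X Y n i : ℕ} (hB : 0 < B) (h : i < n) :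
    (X + B ^ n * Y) / B ^ i % B = X / B ^ i % B := by
  obtain ⟨k, rfl⟩ : ∃ k, n = i + (k + 1) := ⟨n - i - 1, by omega⟩
  have h1 : B ^ (i + (k + 1)) * Y = B ^ i * (B * (B ^ k * Y)) := by
    rw [pow_add, pow_succ]; ring
  rw [h1, Nat.add_mul_div_left _ _ (pow_pos hB i), Nat.add_mul_mod_self_left]

theorem high_dg {B X Y n : ℕ} (hX : X < B ^ n) : (X + B ^ n * Y) / B ^ n = Y := by
  have hB : 0 < B ^ n := lt_of_le_of_lt (Nat.zero_le _) hX
  rw [Nat.add_mul_div_left _ _ hB, Nat.div_eq_of_lt hX, zero_add]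

theorem en1_dg {B : ℕ} {d : ℕ → ℕ} {n i : ℕ} (h : ∀ a < n, d a < B) (hi : i < n) :
    en1 B d n / B ^ i % B = d i := by
  have hB : 0 < B := lt_of_le_of_lt (Nat.zero_le _) (h i hi)
  induction n with
  | zero => omega
  | succ n ih =>
    rw [en1_succ]
    rcases Nat.lt_succ_iff_lt_or_eq.1 hi with h1 | h1
    · rw [low_dg hB h1]
      exact ih (fun a ha => h a (by omega)) h1
    · subst h1
      rw [high_dg (en1_lt fun a ha => h a (by omega)), Nat.mod_eq_of_lt (h i (by omega))]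

/-- flows. -/
def en2 (d : ℕ → ℕ → ℕ) (N : ℕ) : ℕ := ∑ b ∈ range N, 65 ^ np b * en1 65 (fun a => d a b) b

theorem en2_succ (d : ℕ → ℕ → ℕ) (N : ℕ) :
    en2 d (N + 1) = en2 d N + 65 ^ np N * en1 65 (fun a => d a N) N := by
  unfold en2; rw [sum_range_succ]

theorem en2_lt {d : ℕ → ℕ → ℕ} {N : ℕ} (h : ∀ a b, a < b → b < N → d a b < 65) :
    en2 d N < 65 ^ np N := by
  induction N with
  | zero => simp [en2, np]
  | succ N ih =>
    have h1 := ih fun a b hab hb => h a b hab (by omega)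
    have h2 : en1 65 (fun a => d a N) N < 65 ^ N := en1_lt fun a ha => h a N ha (by omega)
    rw [en2_succ, np_succ, pow_add]
    have h3 : 65 ^ np N * en1 65 (fun a => d a N) N + 65 ^ np N ≤ 65 ^ np N * 65 ^ N := by
      rw [← Nat.mul_succ]; exact Nat.mul_le_mul_left _ h2
    omega

theorem en2_dg {d : ℕ → ℕ → ℕ} {N p q : ℕ} (h : ∀ a b, a < b → b < N → d a b < 65)
    (hpq : p < q) (hq : q < N) : en2 d N / 65 ^ ix p q % 65 = d p q := by
  induction N with
  | zero => omega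
  | succ N ih =>
    rw [en2_succ]
    rcases Nat.lt_succ_iff_lt_or_eq.1 hq with h1 | h1
    · rw [low_dg (by norm_num) (ix_lt hpq h1)]
      exact ih (fun a b hab hb => h a b hab (by omega)) h1
    · subst h1
      rw [ix_eq, pow_add, ← Nat.div_div_eq_div_mul,
        high_dg (en2_lt fun a b hab hb => h a b hab (by omega))]
      exact en1_dg (fun a ha => h a q ha (by omega)) hpq

/-- keys. -/
def enc (N : ℕ) (d : ℕ → ℕ → ℕ) (w : ℕ → ℕ) : ℕ := en2 d N + 65 ^ np N * (2 * en1 16 w N)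

theorem enc_dg {N : ℕ} {d : ℕ → ℕ → ℕ} {w : ℕ → ℕ} {p q : ℕ}
    (h : ∀ a b, a < b → b < N → d a b < 65) (hpq : p < q) (hq : q < N) :
    enc N d w / 65 ^ ix p q % 65 = d p q := by
  unfold enc
  rw [low_dg (by norm_num) (ix_lt hpq hq)]
  exact en2_dg h hpq hq

theorem enc_wd {N : ℕ} {d : ℕ → ℕ → ℕ} {w : ℕ → ℕ} {p : ℕ}
    (h : ∀ a b, a < b → b < N → d a b < 65) (hw : ∀ a < N, w a < 16) (hp : p < N) :
    wd N (enc N d w) p = w p := by
  unfold wd enc
  rw [high_dg (en2_lt h), Nat.mul_div_cancel_left _ (by norm_num)]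
  exact en1_dg hw hp

theorem en1_add (B : ℕ) (d d' : ℕ → ℕ) (n : ℕ) :
    en1 B (fun a => d a + d' a) n = en1 B d n + en1 B d' n := by
  unfold en1; rw [← sum_add_distrib]; exact sum_congr rfl fun a _ => by ring

theorem enc_add (N : ℕ) (d d' : ℕ → ℕ → ℕ) (w w' : ℕ → ℕ) :
    enc N (fun a b => d a b + d' a b) (fun a => w a + w' a) = enc N d w + enc N d' w' := by
  unfold enc en2
  rw [en1_add]
  simp only [en1_add 65, mul_add, sum_add_distrib]
  ring

theorem en1_congr (B : ℕ) {d d' : ℕ → ℕ} {n : ℕ} (h : ∀ a < n, d a = d' a) :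
    en1 B d n = en1 B d' n := by
  unfold en1; exact sum_congr rfl fun a ha => by rw [h a (mem_range.1 ha)]

theorem enc_congr {N : ℕ} {d d' : ℕ → ℕ → ℕ} {w w' : ℕ → ℕ}
    (h : ∀ a b, a < b → b < N → d a b = d' a b) (hw : ∀ a < N, w a = w' a) :
    enc N d w = enc N d' w' := by
  unfold enc en2
  rw [en1_congr 16 hw]
  congr 1
  exact sum_congr rfl fun b hb => by
    rw [en1_congr 65 fun a ha => h a b ha (mem_range.1 hb)]

/-! ### Executable forms -/

/-- `en1` by recursion. -/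
def en1X (B : ℕ) (d : ℕ → ℕ) (n : ℕ) : ℕ :=
  Nat.rec (motive := fun _ => ℕ) 0 (fun a ih => Nat.add ih (Nat.mul (d a) (Nat.pow B a))) n

theorem en1X_eq (B : ℕ) (d : ℕ → ℕ) (n : ℕ) : en1X B d n = en1 B d n := by
  induction n with
  | zero => rfl
  | succ n ih =>
    have : en1X B d (n + 1) = en1X B d n + d n * B ^ n := rfl
    rw [this, ih, en1_succ, mul_comm (B ^ n)]

/-- `enc` by recursion. -/
def encX (N : ℕ) (d : ℕ → ℕ → ℕ) (w : ℕ → ℕ) : ℕ :=
  Nat.add
    (Nat.rec (motive := fun _ => ℕ) 0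
      (fun b ih => Nat.add ih (Nat.mul (Nat.pow 65 (np b)) (en1X 65 (fun a => d a b) b))) N)
    (Nat.mul (Nat.pow 65 (np N)) (Nat.mul 2 (en1X 16 w N)))

theorem encX_eq (N : ℕ) (d : ℕ → ℕ → ℕ) (w : ℕ → ℕ) : encX N d w = enc N d w := by
  have h : ∀ n, Nat.rec (motive := fun _ => ℕ) 0
      (fun b ih => Nat.add ih (Nat.mul (Nat.pow 65 (np b)) (en1X 65 (fun a => d a b) b))) n
      = en2 d n := by
    intro n
    induction n with
    | zero => rfl
    | succ n ih =>
      rw [en2_succ, ← ih, ← en1X_eq]; rfl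
  unfold encX enc
  rw [h, en1X_eq]; rfl

end Vale.Agent.P355.H147
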