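import Vale.Agent.P355.H147.T2W
import Vale.Agent.P355.H693.GFin

/-! The key bridge: class words are values of keys; the result of a type as a list of terms. -/

namespace Vale.Agent.P355.H147

open Finset Matrix Vale.Agent.P355
open Vale.Agent.P355.H998.E
open Vale.Agent.P355.H693 (w2c net T2 pwp tck tck_spec tId tabG valT valT_cons valT_append
  valT_scl sclT empty_key)
open Vale.Agent.P355.H129 (force force_eq NRep tP tM tV resL1)

variable {m c : ℕ} {B : Fin m → M6}

/-- recognition of a class word as a term of the key table. -/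
def kbCk (c : ℕ) (tab : ℕ → ℕ) (C T : ℕ) : Bool :=
  tck 8 c tab (parC C) (fun p => qd (wp C) p) (fun p q => Nat.add (dg C p q) 64) T

/-- **The bridge.** -/
theorem kb_spec (hB : IsMUBs B) {tab : ℕ → ℕ} {C T : ℕ} (h : kbCk c tab C T = true) :
    cvB B c C = cv B 8 c (tab (tId T)) := by
  unfold kbCk at h
  rw [tck_spec hB (colB 8 c C) (labB 8 C) (flB 8 C) h (fun p => rfl) (fun p _ => rfl)
    (fun p q hpq _ _ => ?_)]
  · rfl
  · have e1 : net (flB 8 C) p q = (dg C p q : ℤ) - 32 := by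
      unfold net flB
      rw [if_pos hpq, if_neg (not_lt.2 hpq.le), sub_zero]
    rw [e1, Nat.add_eq]
    push_cast; ring

/-- data of a final list: coefficient, class, term. -/
abbrev FD := ℤ × ℕ × ℕ

/-- positive part. -/
def spP (D : List FD) : List (ℕ × ℕ) := D.map fun d => (d.1.toNat, d.2.1)

/-- negative part. -/
def spN (D : List FD) : List (ℕ × ℕ) := D.map fun d => ((-d.1).toNat, d.2.1)

theorem sp_val (val : ℕ → ℝ) : ∀ D : List FD,
    tV val (spP D) - tV val (spN D) = (D.map fun d => (d.1 : ℝ) * val d.2.1).sum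
  | [] => by simp [spP, spN, tV]
  | d :: D => by
    have ih := sp_val val D
    have e1 : tV val (spP (d :: D)) = (d.1.toNat : ℝ) * val d.2.1 + tV val (spP D) := by
      simp [tV, spP]
    have e2 : tV val (spN (d :: D)) = ((-d.1).toNat : ℝ) * val d.2.1 + tV val (spN D) := by
      simp [tV, spN]
    rw [e1, e2, List.map_cons, List.sum_cons, ← ih]
    have e3 : (d.1 : ℝ) = (d.1.toNat : ℝ) - ((-d.1).toNat : ℝ) := by
      have h4 : d.1 = (d.1.toNat : ℤ) - ((-d.1).toNat : ℤ) := by omega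
      calc (d.1 : ℝ) = (((d.1.toNat : ℤ) - ((-d.1).toNat : ℤ) : ℤ) : ℝ) := by rw [← h4]
        _ = _ := by push_cast; ring
    rw [e3]; ring

/-- the list of terms. -/
def trm (D : List FD) : List (ℤ × ℕ) := D.map fun d => (d.1, d.2.2)

/-- all words are recognised. -/
def kbAll (c : ℕ) (tab : ℕ → ℕ) (cls : ℕ → ℕ) (D : List FD) : Bool :=
  D.all fun d => force (cls d.2.1) fun C => kbCk c tab C d.2.2

theorem kb_val (hB : IsMUBs B) {ct : H693.GT} {cls : ℕ → ℕ} : ∀ {D : List FD},
    kbAll c (tabG ct) cls D = true →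
    (D.map fun d => (d.1 : ℝ) * cvB B c (cls d.2.1)).sum = valT (cv B 8 c) ct (trm D)
  | [], _ => by simp [trm, valT]
  | d :: D, h => by
    unfold kbAll at h
    rw [List.all_cons, Bool.and_eq_true, force_eq] at h
    have ih := kb_val hB (ct := ct) (cls := cls) (D := D) h.2
    have e : trm (d :: D) = (d.1, d.2.2) :: trm D := rfl
    rw [List.map_cons, List.sum_cons, ih, e, valT_cons, kb_spec hB h.1]

/-- numerical check of the end, general form. -/
def endL (Ws nk tm P Q d v : ℕ) (D : List FD) (E : ℕ) : Bool :=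
  and (Nat.blt (Nat.mul nk nk) 18446744073709551616)
    (force (Nat.mul (Nat.mul nk nk) tm) fun M =>
      resL1 d Ws v (Nat.add (Nat.shiftRight P 64) (tP Ws (spN D)))
        (Nat.add (Nat.shiftRight Q 64) (tP Ws (spP D)))
        (Nat.add M (tM (spN D))) (Nat.add M (tM (spP D))) E)

/-- **The result of a type as a linear inequality between keys.** -/
theorem ty_T (hB : IsMUBs B) (hcm : c ≤ m) {X : Type*} {nk : ℕ}
    {act : ℕ → X → X} {ν : ℕ → ℕ → ℕ} {M : X → X → ℝ} {x : ℕ → X} {κ : ℝ} {cls : ℕ → ℕ}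
    {t : TyE} (hs : SOk t.n nk act ν M x κ t.R (fun i => cvB B c (cls i)) t.BP t.EL)
    (ht : t.Ok ν nk) {P Q : ℕ} (hP : Ch t true 0 nk 0 P) (hQ : Ch t false 0 nk 0 Q)
    {d v E al : ℕ} {ct : H693.GT} {D : List FD} {T0 : ℕ}
    (h0 : tck 8 c (tabG ct) 0 (fun _ => 0) (fun _ _ => 96) T0 = true)
    (hk : kbAll c (tabG ct) cls D = true)
    (he : endL t.Ws nk t.m P Q d v D E = true) :
    0 ≤ valT (cv B 8 c) ct (sclT (2 * (al : ℤ)) (trm D) ++ [((al : ℤ) * (5 * E), T0)]) := by
  unfold endL at he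
  rw [Bool.and_eq_true, force_eq] at he
  obtain ⟨e2, e3⟩ := he
  obtain ⟨p, q, hpq, h3, h4⟩ := ty_result hs ht hP hQ e2
  have h5 : ∀ i, |(fun i => cvB B c (cls i)) i| ≤ 5 / 2 := fun i => abs_cvB_le hB (cls i)
  have s1 : ∀ X : ℕ, Nat.shiftRight X 64 = X / 2 ^ 64 := fun X => by
    show X >>> 64 = _
    rw [Nat.shiftRight_eq_div_pow]
  rw [s1, s1] at e3
  have h6 := final_ineq h5 hpq h3 h4 (spP D) (spN D) e3
  rw [sp_val, kb_val hB hk] at h6
  have h7 : cv B 8 c (tabG ct (tId T0)) = 1 := empty_key hB hcm h0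
  have h8 : valT (cv B 8 c) ct [] = 0 := rfl
  rw [valT_append, valT_scl, valT_cons, h7, h8]
  push_cast
  have h9 : (0 : ℝ) ≤ al := by positivity
  nlinarith [mul_nonneg h9 h6]

end Vale.Agent.P355.H147
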