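import Vale.Agent.P355.H147.KBr

/-! The result of a type as a list of terms, divided by an integer scale. -/

namespace Vale.Agent.P355.H147

open Finset Matrix Vale.Agent.P355
open Vale.Agent.P355.H998.E
open Vale.Agent.P355.H693 (T2 tck tabG valT valT_cons valT_append valT_scl sclT empty_key)
open Vale.Agent.P355.H129 (tV)

variable {m c : ℕ} {B : Fin m → M6}

/-- a list multiplied by a positive integer. -/
def mulD (ρ : ℕ) (D : List FD) : List FD := D.map fun d => ((ρ : ℤ) * d.1, d.2.1, d.2.2)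

theorem valT_mulD (g : ℕ → ℝ) (ct : H693.GT) (ρ : ℕ) : ∀ D : List FD,
    valT g ct (trm (mulD ρ D)) = ρ * valT g ct (trm D)
  | [] => by simp [trm, mulD, valT]
  | d :: D => by
    have ih := valT_mulD g ct ρ D
    have e1 : trm (mulD ρ (d :: D)) = ((ρ : ℤ) * d.1, d.2.2) :: trm (mulD ρ D) := rfl
    have e2 : trm (d :: D) = (d.1, d.2.2) :: trm D := rfl
    rw [e1, e2, valT_cons, valT_cons, ih]
    push_cast; ring

theorem kbAll_mulD {c : ℕ} {tab cls : ℕ → ℕ} {ρ : ℕ} {D : List FD} :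
    kbAll c tab cls (mulD ρ D) = kbAll c tab cls D := by
  unfold kbAll mulD
  rw [List.all_map]
  rfl

/-- **The result of a type, divided by `ρ`.** The list `D` holds the coefficients divided by `ρ`
(rounded), `ρ E` bounds the `ℓ¹` distance of `ρ D` from the exact totals. -/
theorem ty_TR (hB : IsMUBs B) (hcm : c ≤ m) {X : Type*} {nk : ℕ}
    {act : ℕ → X → X} {ν : ℕ → ℕ → ℕ} {M : X → X → ℝ} {x : ℕ → X} {κ : ℝ} {cls : ℕ → ℕ}
    {t : TyE} (hs : SOk t.n nk act ν M x κ t.R (fun i => cvB B c (cls i)) t.BP t.EL)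
    (ht : t.Ok ν nk) {P Q : ℕ} (hP : Ch t true 0 nk 0 P) (hQ : Ch t false 0 nk 0 Q)
    {d v E al ρ : ℕ} {ct : H693.GT} {D : List FD} {T0 : ℕ} (hρ : 0 < ρ)
    (h0 : tck 8 c (tabG ct) 0 (fun _ => 0) (fun _ _ => 96) T0 = true)
    (hk : kbAll c (tabG ct) cls D = true)
    (he : endL t.Ws nk t.m P Q d v (mulD ρ D) (ρ * E) = true) :
    0 ≤ valT (cv B 8 c) ct (sclT (2 * (al : ℤ)) (trm D) ++ [((al : ℤ) * (5 * E), T0)]) := by
  have hk' : kbAll c (tabG ct) cls (mulD ρ D) = true := by rw [kbAll_mulD]; exact hk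
  have h := ty_T hB hcm hs ht hP hQ (al := 1) h0 hk' he
  rw [valT_append, valT_scl, valT_cons, valT_mulD] at h
  rw [valT_append, valT_scl, valT_cons]
  have h8 : valT (cv B 8 c) ct [] = 0 := rfl
  rw [h8] at h ⊢
  push_cast at h ⊢
  have h1 : (0 : ℝ) < ρ := by exact_mod_cast hρ
  have h2 : (0 : ℝ) ≤ ρ * (2 * valT (cv B 8 c) ct (trm D)
      + 5 * E * cv B 8 c (tabG ct (H693.tId T0))) := by nlinarith [h]
  have h3 : (0 : ℝ) ≤ 2 * valT (cv B 8 c) ct (trm D)
      + 5 * E * cv B 8 c (tabG ct (H693.tId T0)) := by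
    by_contra hc
    push Not at hc
    have := mul_neg_of_pos_of_neg h1 hc
    linarith
  have h9 : (0 : ℝ) ≤ al := by positivity
  nlinarith [mul_nonneg h9 h3]

end Vale.Agent.P355.H147
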