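import Vale.Agent.P355.H147.Acc3

/-! Blocks given by a factor: the matrix is `L Lᵀ`, its rows are computed when they are used. -/

namespace Vale.Agent.P355.H147

open Finset Vale.Agent.P355
open Vale.Agent.P355.H998.E (RcE)
open Vale.Agent.P355.H129 (force force_eq dg Gm sub sub_spec sumL sumL_eq allB allB_spec rep
  sum_dg dg_sum dg_ge dg_lt sum_lt)

/-- sum of the columns, weighted with their digits at bit `p`. -/
def lrA (mw p : ℕ) (Cs : List ℕ) : ℕ :=
  List.rec (motive := fun _ => ℕ) 0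
    (fun C _ ih => Nat.add (Nat.mul (Nat.land (Nat.shiftRight C p) mw) C) ih) Cs

/-- sum of the digits at bit `p`. -/
def lrS (mw p : ℕ) (Cs : List ℕ) : ℕ :=
  List.rec (motive := fun _ => ℕ) 0
    (fun C _ ih => Nat.add (Nat.land (Nat.shiftRight C p) mw) ih) Cs

/-- row `i` of `L Lᵀ + oU`. -/
def lrow (mw w o cA REP SC i : ℕ) (Cs : List ℕ) : ℕ :=
  force (Nat.mul w i) fun p =>
    Nat.sub (Nat.add (lrA mw p Cs) (Nat.mul cA REP))
      (Nat.mul o (Nat.add (Nat.mul (lrS mw p Cs) REP) SC))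

theorem dg_eq_land {w : ℕ} (C i : ℕ) :
    Nat.land (Nat.shiftRight C (w * i)) (2 ^ w - 1) = dg (2 ^ w) C i := by
  have e : Nat.land (Nat.shiftRight C (w * i)) (2 ^ w - 1) = (C >>> (w * i)) &&& (2 ^ w - 1) := rfl
  rw [e, Nat.and_two_pow_sub_one_eq_mod, Nat.shiftRight_eq_div_pow]
  unfold dg
  rw [pow_mul]

theorem lrA_eq {w : ℕ} (i : ℕ) : ∀ Cs : List ℕ, lrA (2 ^ w - 1) (w * i) Cs
    = ∑ a ∈ range Cs.length, dg (2 ^ w) (Cs.getD a 0) i * Cs.getD a 0
  | [] => rfl
  | C :: Cs => by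
    have e : lrA (2 ^ w - 1) (w * i) (C :: Cs)
        = Nat.land (Nat.shiftRight C (w * i)) (2 ^ w - 1) * C + lrA (2 ^ w - 1) (w * i) Cs := rfl
    rw [e, lrA_eq i Cs, dg_eq_land, List.length_cons, sum_range_succ']
    simp [add_comm]

theorem lrS_eq {w : ℕ} (i : ℕ) : ∀ Cs : List ℕ, lrS (2 ^ w - 1) (w * i) Cs
    = ∑ a ∈ range Cs.length, dg (2 ^ w) (Cs.getD a 0) i
  | [] => rfl
  | C :: Cs => by
    have e : lrS (2 ^ w - 1) (w * i) (C :: Cs)
        = Nat.land (Nat.shiftRight C (w * i)) (2 ^ w - 1) + lrS (2 ^ w - 1) (w * i) Cs := rfl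
    rw [e, lrS_eq i Cs, dg_eq_land, List.length_cons, sum_range_succ']
    simp [add_comm]

/-- length of a list (kernel form). -/
def lenL (l : List ℕ) : ℕ := List.rec (motive := fun _ => ℕ) 0 (fun _ _ ih => Nat.succ ih) l

theorem lenL_eq : ∀ l : List ℕ, lenL l = l.length
  | [] => rfl
  | a :: l => by
    have e : lenL (a :: l) = lenL l + 1 := rfl
    rw [e, lenL_eq l, List.length_cons]

/-- a block given by the columns `Cs` of a factor: digit `j` of a column is `l + o`. -/
structure LB where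
  d : ℕ
  Cs : List ℕ
  /-- repunit with `nk * d` digits -/
  REP : ℕ
  /-- sum of the columns -/
  SC : ℕ
  /-- `K o² + oU` -/
  cA : ℕ
  Ap : List ℕ
  An : List ℕ
  Tp : List (List ℕ)
  Tn : List (List ℕ)
  Sp : List (List ℕ)
  Sn : List (List ℕ)

/-- row `i` of a block. -/
def LB.row (w o : ℕ) (b : LB) (i : ℕ) : ℕ := lrow (2 ^ w - 1) w o b.cA b.REP b.SC i b.Cs

/-- the block. -/
def LB.toBD (w o nk : ℕ) (b : LB) : BD :=
  ⟨b.d, (List.range (Nat.mul nk b.d)).map fun i => b.row w o i, b.Ap, b.An, b.Tp, b.Tn, b.Sp,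
    b.Sn⟩

/-- check of the factor. -/
def LB.ck (w bl bu o oU nk : ℕ) (b : LB) : Bool :=
  and (Nat.beq (Nat.add (Nat.mul b.REP (Nat.sub (Nat.pow 2 w) 1)) 1)
    (Nat.pow 2 (Nat.mul w (Nat.mul nk b.d))))
  (and (Nat.beq (sumL b.Cs) b.SC)
  (and (force (Nat.mul (Nat.sub (Nat.pow 2 bl) 1) b.REP) fun M => allB (sub M) b.Cs)
  (and (Nat.beq b.cA (Nat.add (Nat.mul (lenL b.Cs) (Nat.mul o o)) oU))
  (and (Nat.ble (Nat.mul (lenL b.Cs) (Nat.mul o o)) oU)
  (and (Nat.blt (Nat.mul 2 oU) (Nat.pow 2 bu))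
  (and (Nat.ble bu w) (and (Nat.ble bl w) (and (Nat.ble (Nat.pow 2 bl) (Nat.mul 2 o))
    (Nat.blt 0 w)))))))))

theorem rep_of {B N X : ℕ} (hB : 1 < B) (h : X * (B - 1) + 1 = B ^ N) : X = rep B N := by
  have h1 : ∀ n, rep B n * (B - 1) + 1 = B ^ n := by
    intro n
    induction n with
    | zero => simp [rep]
    | succ n ih =>
      have e : rep B (n + 1) = rep B n + B ^ n := by
        unfold rep; rw [sum_range_succ]
      obtain ⟨b, rfl⟩ : ∃ b, B = b + 1 := ⟨B - 1, by omega⟩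
      rw [Nat.add_sub_cancel] at ih ⊢
      rw [e, pow_succ, ← ih]; ring
  have h2 := h1 N
  rw [← h] at h2
  have h3 : rep B N * (B - 1) = X * (B - 1) := by omega
  exact (Nat.eq_of_mul_eq_mul_right (by omega) h3).symm

/-- entry of the factor. -/
def LB.l (w o : ℕ) (b : LB) (i a : ℕ) : ℤ := (dg (2 ^ w) (b.Cs.getD a 0) i : ℤ) - o

/-- digits of a row. -/
theorem LB.row_spec {w bl bu o oU nk : ℕ} {b : LB} (h : b.ck w bl bu o oU nk = true) (i : ℕ) :
    (∀ j < nk * b.d, (dg (2 ^ w) (b.row w o i) j : ℤ)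
      = ∑ a ∈ range b.Cs.length, b.l w o i a * b.l w o j a + oU) ∧
    ∀ j, dg (2 ^ w) (b.row w o i) j < 2 ^ bu := by
  unfold LB.ck at h
  simp only [Bool.and_eq_true, force_eq, lenL_eq] at h
  obtain ⟨hR, hS, hC, hA, hK, hU, hb, hbl, ho, hw⟩ := h
  replace hR : b.REP * (2 ^ w - 1) + 1 = 2 ^ (w * (nk * b.d)) := Nat.eq_of_beq_eq_true hR
  replace hS := Nat.eq_of_beq_eq_true hS
  replace hA : b.cA = b.Cs.length * (o * o) + oU := Nat.eq_of_beq_eq_true hA
  replace hK : b.Cs.length * (o * o) ≤ oU := Nat.le_of_ble_eq_true hK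
  replace hU : 2 * oU < 2 ^ bu := by rw [Nat.blt_eq] at hU; exact hU
  replace hb : bu ≤ w := Nat.le_of_ble_eq_true hb
  replace hbl : bl ≤ w := Nat.le_of_ble_eq_true hbl
  replace ho : 2 ^ bl ≤ 2 * o := Nat.le_of_ble_eq_true ho
  replace hw : 0 < w := by rw [Nat.blt_eq] at hw; exact hw
  have hB : 1 < 2 ^ w := Nat.one_lt_two_pow (by omega)
  have hB0 : 0 < 2 ^ w := by omega
  have hrep : b.REP = rep (2 ^ w) (nk * b.d) := rep_of hB (by rw [hR, pow_mul])
  set N := nk * b.d with hN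
  set B := 2 ^ w with hBd
  -- columns
  have hCs : ∀ a < b.Cs.length, b.Cs.getD a 0 < B ^ N ∧ ∀ j, dg B (b.Cs.getD a 0) j < 2 ^ bl := by
    intro a ha
    have h1 := allB_spec _ _ hC a ha
    have h2 : sub ((2 ^ bl - 1) * rep (2 ^ w) N) (b.Cs.getD a 0) = true := by
      rw [← hrep]; exact h1
    exact sub_spec hbl _ _ h2
  set K := b.Cs.length with hKd
  set x : ℕ → ℕ → ℕ := fun a j => dg B (b.Cs.getD a 0) j with hx
  have hxo : ∀ a < K, ∀ j, x a j < 2 * o := fun a ha j => lt_of_lt_of_le ((hCs a ha).2 j) ho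
  have hcol : ∀ a < K, b.Cs.getD a 0 = ∑ j ∈ range N, x a j * B ^ j := fun a ha =>
    (sum_dg hB0 N _ (hCs a ha).1).symm
  -- the digits as integers
  have hbd : ∀ j, |∑ a ∈ range K, b.l w o i a * b.l w o j a| ≤ (oU : ℤ) := by
    intro j
    have hl : ∀ a < K, ∀ j, |b.l w o j a| ≤ (o : ℤ) := by
      intro a ha j
      have h1 := hxo a ha j
      unfold LB.l
      rw [abs_le]
      have h2 : (x a j : ℤ) < 2 * o := by exact_mod_cast h1
      have h3 : (0 : ℤ) ≤ (x a j : ℤ) := Int.natCast_nonneg _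
      constructor
      · show -(o : ℤ) ≤ (x a j : ℤ) - o
        linarith
      · show (x a j : ℤ) - o ≤ o
        linarith
    calc |∑ a ∈ range K, b.l w o i a * b.l w o j a|
        ≤ ∑ a ∈ range K, |b.l w o i a * b.l w o j a| := Finset.abs_sum_le_sum_abs _ _
      _ ≤ ∑ _a ∈ range K, ((o : ℤ) * o) := by
          refine Finset.sum_le_sum fun a ha => ?_
          have ha' := mem_range.1 ha
          rw [abs_mul]
          exact mul_le_mul (hl a ha' i) (hl a ha' j) (abs_nonneg _) (Int.natCast_nonneg _)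
      _ = ((K * (o * o) : ℕ) : ℤ) := by simp
      _ ≤ oU := by exact_mod_cast hK
  set u : ℕ → ℕ := fun j => (∑ a ∈ range K, b.l w o i a * b.l w o j a + oU).toNat with hu
  have hu0 : ∀ j, (u j : ℤ) = ∑ a ∈ range K, b.l w o i a * b.l w o j a + oU := by
    intro j
    have := (abs_le.1 (hbd j)).1
    exact Int.toNat_of_nonneg (by linarith)
  have hub : ∀ j, u j < 2 ^ bu := by
    intro j
    have h1 := (abs_le.1 (hbd j)).2
    have h2 : (u j : ℤ) ≤ 2 * oU := by rw [hu0]; linarith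
    have h3 : u j ≤ 2 * oU := by exact_mod_cast h2
    omega
  have hble : 2 ^ bu ≤ B := Nat.pow_le_pow_right (by norm_num) hb
  -- the row
  have hrow : b.row w o i = ∑ j ∈ range N, u j * B ^ j := by
    have e1 : b.row w o i = lrA (2 ^ w - 1) (w * i) b.Cs + b.cA * b.REP
        - o * (lrS (2 ^ w - 1) (w * i) b.Cs * b.REP + b.SC) := by
      unfold LB.row lrow
      rw [force_eq]
      rfl
    have e2 : lrA (2 ^ w - 1) (w * i) b.Cs + b.cA * b.REP
        = ∑ j ∈ range N, (∑ a ∈ range K, x a i * x a j + (K * (o * o) + oU)) * B ^ j := by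
      rw [lrA_eq, hA, hrep]
      unfold rep
      rw [Finset.mul_sum]
      have : ∑ a ∈ range K, dg (2 ^ w) (b.Cs.getD a 0) i * b.Cs.getD a 0
          = ∑ j ∈ range N, (∑ a ∈ range K, x a i * x a j) * B ^ j := by
        simp only [Finset.sum_mul]
        rw [Finset.sum_comm]
        refine Finset.sum_congr rfl fun a ha => ?_
        conv_lhs => rw [hcol a (mem_range.1 ha)]
        rw [Finset.mul_sum]
        refine Finset.sum_congr rfl fun j hj => ?_
        have e : dg (2 ^ w) (∑ j ∈ range N, x a j * B ^ j) i = x a i := by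
          rw [← hcol a (mem_range.1 ha)]
        rw [e]; ring
      rw [this, ← Finset.sum_add_distrib]
      refine Finset.sum_congr rfl fun j _ => by ring
    have e3 : o * (lrS (2 ^ w - 1) (w * i) b.Cs * b.REP + b.SC)
        = ∑ j ∈ range N, (o * (∑ a ∈ range K, x a i + ∑ a ∈ range K, x a j)) * B ^ j := by
      have h1 : b.SC = ∑ j ∈ range N, (∑ a ∈ range K, x a j) * B ^ j := by
        rw [← hS, sumL_eq]
        simp only [Finset.sum_mul]
        rw [Finset.sum_comm]
        exact Finset.sum_congr rfl fun a ha => hcol a (mem_range.1 ha)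
      have h2 : lrS (2 ^ w - 1) (w * i) b.Cs = ∑ a ∈ range K, x a i := lrS_eq i _
      rw [h1, h2, hrep]
      unfold rep
      rw [Finset.mul_sum, ← Finset.sum_add_distrib, Finset.mul_sum]
      refine Finset.sum_congr rfl fun j _ => by ring
    have e4 : ∀ j, (∑ a ∈ range K, x a i * x a j + (K * (o * o) + oU))
        = u j + o * (∑ a ∈ range K, x a i + ∑ a ∈ range K, x a j) := by
      intro j
      have : ((∑ a ∈ range K, x a i * x a j + (K * (o * o) + oU) : ℕ) : ℤ)
          = ((u j + o * (∑ a ∈ range K, x a i + ∑ a ∈ range K, x a j) : ℕ) : ℤ) := by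
        push_cast
        rw [hu0]
        unfold LB.l
        have h1 : ∑ a ∈ range K, ((dg (2 ^ w) (b.Cs.getD a 0) i : ℤ) - o)
            * ((dg (2 ^ w) (b.Cs.getD a 0) j : ℤ) - o)
            = ∑ a ∈ range K, (x a i : ℤ) * x a j - o * ∑ a ∈ range K, (x a i : ℤ)
              - o * ∑ a ∈ range K, (x a j : ℤ) + K * ((o : ℤ) * o) := by
          have h2 : ∀ a ∈ range K, ((dg (2 ^ w) (b.Cs.getD a 0) i : ℤ) - o)
              * ((dg (2 ^ w) (b.Cs.getD a 0) j : ℤ) - o)
              = (x a i : ℤ) * x a j - o * (x a i : ℤ) - o * (x a j : ℤ) + (o : ℤ) * o := by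
            intro a _
            show ((x a i : ℤ) - o) * ((x a j : ℤ) - o) = _
            ring
          rw [Finset.sum_congr rfl h2, Finset.sum_add_distrib, Finset.sum_sub_distrib,
            Finset.sum_sub_distrib, Finset.sum_const, card_range, ← Finset.mul_sum,
            ← Finset.mul_sum, nsmul_eq_mul]
        rw [h1]; ring
      exact_mod_cast this
    rw [e1, e2, e3]
    have e5 : ∑ j ∈ range N, (∑ a ∈ range K, x a i * x a j + (K * (o * o) + oU)) * B ^ j
        = ∑ j ∈ range N, u j * B ^ j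
          + ∑ j ∈ range N, (o * (∑ a ∈ range K, x a i + ∑ a ∈ range K, x a j)) * B ^ j := by
      rw [← Finset.sum_add_distrib]
      refine Finset.sum_congr rfl fun j _ => ?_
      rw [e4 j]; ring
    rw [e5, Nat.add_sub_cancel]
  have huB : ∀ j < N, u j < B := fun j _ => lt_of_lt_of_le (hub j) hble
  have hdig : ∀ j < N, dg B (b.row w o i) j = u j := by
    intro j hj
    rw [hrow]
    exact dg_sum hj huB
  refine ⟨fun j hj => by rw [hdig j hj, hu0], fun j => ?_⟩
  by_cases hj : j < N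
  · rw [hdig j hj]; exact hub j
  · have h1 : b.row w o i < B ^ N := by rw [hrow]; exact sum_lt N u huB
    rw [dg_ge h1 (by omega) hB0]
    exact pow_pos (by norm_num) _

theorem LB.getD_Us {w o nk : ℕ} (b : LB) {i : ℕ} (hi : i < nk * b.d) :
    (b.toBD w o nk).Us.getD i 0 = b.row w o i := by
  show ((List.range (nk * b.d)).map fun i => b.row w o i).getD i 0 = _
  simp [List.getD_eq_getElem?_getD, hi]

/-- **Blocks given by factors.** -/
theorem BOk.consL {n : ℕ} {ν : ℕ → ℕ → ℕ} {nk β bt oU w bu : ℕ} {bs : List BD}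
    (h : BOk n ν nk β bt oU w bu bs) {b : LB} {o bl : ℕ}
    (hc : (b.toBD w o nk).ck n ν β bt = true) (hp : b.ck w bl bu o oU nk = true) :
    BOk n ν nk β bt oU w bu (b.toBD w o nk :: bs) := by
  refine ⟨fun b' hb => ?_, fun b' hb => ?_, fun b' hb => ?_, fun b' hb => ?_⟩ <;>
    rcases List.mem_cons.1 hb with rfl | hb
  · exact hc
  · exact h.blk b' hb
  · show ((List.range (nk * b.d)).map fun i => b.row w o i).length = nk * b.d
    simp
  · exact h.len b' hb
  · intro k hk j
    rw [b.getD_Us hk]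
    exact (b.row_spec hp k).2 j
  · exact h.bdd b' hb
  · intro z
    show 0 ≤ ∑ i ∈ range (nk * b.d), ∑ j ∈ range (nk * b.d), _
    have hG : ∀ i ∈ range (nk * b.d), ∀ j ∈ range (nk * b.d),
        (Gm w oU (b.toBD w o nk).Us i j : ℝ)
          = ∑ a ∈ range b.Cs.length, (b.l w o i a : ℝ) * (b.l w o j a : ℝ) := by
      intro i hi j hj
      have hi' := mem_range.1 hi
      have hj' := mem_range.1 hj
      have e : Gm w oU (b.toBD w o nk).Us i j
          = ∑ a ∈ range b.Cs.length, b.l w o i a * b.l w o j a := by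
        unfold Gm
        rw [b.getD_Us (max_lt hi' hj'), (b.row_spec hp (max i j)).1 (min i j)
          (lt_of_le_of_lt (min_le_left _ _) hi'), add_sub_cancel_right]
        refine Finset.sum_congr rfl fun a _ => ?_
        rcases le_total i j with hij | hij
        · rw [max_eq_right hij, min_eq_left hij]; ring
        · rw [max_eq_left hij, min_eq_right hij]
      rw [e]; push_cast; rfl
    have h1 : ∑ i ∈ range (nk * b.d), ∑ j ∈ range (nk * b.d),
        (Gm w oU (b.toBD w o nk).Us i j : ℝ) * (z i * star (z j)).re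
        = ∑ a ∈ range b.Cs.length, ((∑ i ∈ range (nk * b.d), (b.l w o i a : ℂ) * z i)
          * star (∑ j ∈ range (nk * b.d), (b.l w o j a : ℂ) * z j)).re := by
      have h2 : ∀ a ∈ range b.Cs.length,
          ((∑ i ∈ range (nk * b.d), (b.l w o i a : ℂ) * z i)
            * star (∑ j ∈ range (nk * b.d), (b.l w o j a : ℂ) * z j)).re
          = ∑ i ∈ range (nk * b.d), ∑ j ∈ range (nk * b.d),
            (b.l w o i a : ℝ) * (b.l w o j a : ℝ) * (z i * star (z j)).re := by
        intro a _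
        rw [star_sum, Finset.sum_mul_sum, Complex.re_sum]
        refine Finset.sum_congr rfl fun i _ => ?_
        rw [Complex.re_sum]
        refine Finset.sum_congr rfl fun j _ => ?_
        have e1 : star ((b.l w o j a : ℂ) * z j) = (b.l w o j a : ℂ) * star (z j) := by
          rw [star_mul']
          congr 1
          have : ((b.l w o j a : ℤ) : ℂ) = (((b.l w o j a : ℤ) : ℝ) : ℂ) := by push_cast; rfl
          rw [this]
          exact Complex.conj_ofReal _
        have e2 : (b.l w o i a : ℂ) * z i * ((b.l w o j a : ℂ) * star (z j))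
            = (((b.l w o i a : ℝ) * (b.l w o j a : ℝ) : ℝ) : ℂ) * (z i * star (z j)) := by
          push_cast; ring
        rw [e1, e2, Complex.re_ofReal_mul]
      rw [Finset.sum_congr rfl h2]
      conv_rhs => rw [Finset.sum_comm]
      refine Finset.sum_congr rfl fun i hi => ?_
      conv_rhs => rw [Finset.sum_comm]
      refine Finset.sum_congr rfl fun j hj => ?_
      rw [hG i hi j hj, Finset.sum_mul]
    have h3 : ∑ i ∈ range (nk * b.d), ∑ j ∈ range (nk * b.d),
        (Gm w oU (b.toBD w o nk).Us i j : ℝ) * (z i * star (z j)).re ≥ 0 := by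
      rw [h1]
      refine Finset.sum_nonneg fun a _ => ?_
      have e : ∀ c : ℂ, (c * star c).re = Complex.normSq c := fun c => by
        have : star c = (starRingEnd ℂ) c := rfl
        rw [this, Complex.mul_conj]
        exact Complex.ofReal_re _
      rw [e]
      exact Complex.normSq_nonneg _
    exact h3
  · exact h.psd b' hb

/-! ### The run -/

/-- rows of a representative. -/
def rowsLX (mw w o k : ℕ) (fs : List LB) : List ℕ :=
  List.rec (motive := fun _ => List ℕ) []
    (fun b _ ih => consR (fun s => lrow mw w o b.cA b.REP b.SC (Nat.add (Nat.mul k b.d) s) b.Cs)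
      b.d ih) fs

theorem rowsLX_eq {w o nk k : ℕ} (hk : k < nk) : ∀ fs : List LB,
    rowsLX (2 ^ w - 1) w o k fs = rowsKX k (fs.map (LB.toBD w o nk))
  | [] => rfl
  | b :: fs => by
    have e : rowsLX (2 ^ w - 1) w o k (b :: fs)
        = consR (fun s => b.row w o (k * b.d + s)) b.d (rowsLX (2 ^ w - 1) w o k fs) := rfl
    have e2 : rowsKX k ((b :: fs).map (LB.toBD w o nk))
        = consR (fun s => nthL (b.toBD w o nk).Us (k * b.d + s)) b.d
          (rowsKX k (fs.map (LB.toBD w o nk))) := rfl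
    rw [e, e2, consR_eq, consR_eq, rowsLX_eq hk fs]
    congr 1
    refine List.map_congr_left fun s hs => ?_
    have hs' := List.mem_range.1 hs
    rw [nthL_eq, b.getD_Us]
    calc k * b.d + s < k * b.d + b.d := by omega
      _ = (k + 1) * b.d := by ring
      _ ≤ nk * b.d := Nat.mul_le_mul_right _ hk

/-- the row `k`, rows computed. -/
def rowL (β rw mβ Ws TT n nrw BP w mw o C C' : ℕ) (TS TS' : List (ℕ × List ℕ)) (fs : List LB)
    (EL : List ℕ) (k acc : ℕ) : ℕ :=
  forceL (rowsLX mw w o k fs) fun Rs => force (nthL EL k) fun E =>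
    accKg β rw mβ Ws TT n nrw BP w mw C C' TS TS' k E Rs acc

/-- `num` rows starting with `k`. -/
def runL (β rw mβ Ws TT n nrw BP w mw o C C' : ℕ) (TS TS' : List (ℕ × List ℕ)) (fs : List LB)
    (EL : List ℕ) (num : ℕ) : ℕ → ℕ → ℕ :=
  Nat.rec (motive := fun _ => ℕ → ℕ → ℕ) (fun _ acc => acc)
    (fun _ ih k acc => force (rowL β rw mβ Ws TT n nrw BP w mw o C C' TS TS' fs EL k acc) fun a =>
      force (Nat.succ k) fun k' => ih k' a) num

/-- tables of the blocks. -/
def mkTL (f : LB → List (List ℕ)) (fs : List LB) : List (ℕ × List ℕ) :=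
  List.rec (motive := fun _ => List (ℕ × List ℕ)) []
    (fun b _ ih => List.append ((f b).map fun Ds => (b.d, Ds)) ih) fs

theorem mkTL_eq {w o nk : ℕ} {f : LB → List (List ℕ)} {g : BD → List (List ℕ)}
    (h : ∀ b : LB, g (b.toBD w o nk) = f b) : ∀ fs : List LB,
    mkTL f fs = mkTS g (fs.map (LB.toBD w o nk))
  | [] => rfl
  | b :: fs => by
    have e : mkTL f (b :: fs) = ((f b).map fun Ds => (b.d, Ds)) ++ mkTL f fs := rfl
    have e2 : mkTS g ((b :: fs).map (LB.toBD w o nk))
        = ((g (b.toBD w o nk)).map fun Ds => (b.d, Ds))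
          ++ mkTS g (fs.map (LB.toBD w o nk)) := rfl
    rw [e, e2, h, mkTL_eq h fs]

/-- the parameters are forced once. -/
def TyE.runL (t : TyE) (TT rw o : ℕ) (fs : List LB) (s : Bool) (num a X : ℕ) : ℕ :=
  force (Nat.sub (Nat.pow 2 t.β) 1) fun mβ => force (Nat.sub (Nat.pow 2 t.w) 1) fun mw =>
  force (Nat.mul rw t.n) fun nrw => force t.β fun β => force t.Ws fun Ws => force t.n fun n =>
  force t.BP fun BP => force t.w fun w =>
  force (cstX t.oU (mkTL (fun b => cond s b.Tn b.Tp) fs)) fun C =>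
  force (cstX t.oU (mkTL (fun b => cond s b.Sn b.Sp) fs)) fun C' =>
  forceT (mkTL (fun b => cond s b.Tp b.Tn) fs) fun TS =>
  forceT (mkTL (fun b => cond s b.Sp b.Sn) fs) fun TS' =>
  H147.runL β rw mβ Ws TT n nrw BP w mw o C C' TS TS' fs t.EL num a X

theorem runL_eq {t : TyE} {TT rw o nk : ℕ} {fs : List LB} (hf : t.bs = fs.map (LB.toBD t.w o nk))
    (hR : t.R = RcE TT rw) (hrw : 19 ≤ rw) (s : Bool) (num a X : ℕ) (ha : a + num ≤ nk) :
    t.runL TT rw o fs s num a X = t.run s num a X := by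
  rw [← runG_eq hR hrw s num a X]
  unfold TyE.runL TyE.runG
  simp only [forceT_eq, force_eq]
  rw [mkTL_eq (w := t.w) (o := o) (nk := nk) (f := fun b => cond s b.Tn b.Tp)
      (g := fun b => cond s b.Tn b.Tp) (fun _ => rfl),
    mkTL_eq (w := t.w) (o := o) (nk := nk) (f := fun b => cond s b.Sn b.Sp)
      (g := fun b => cond s b.Sn b.Sp) (fun _ => rfl),
    mkTL_eq (w := t.w) (o := o) (nk := nk) (f := fun b => cond s b.Tp b.Tn)
      (g := fun b => cond s b.Tp b.Tn) (fun _ => rfl),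
    mkTL_eq (w := t.w) (o := o) (nk := nk) (f := fun b => cond s b.Sp b.Sn)
      (g := fun b => cond s b.Sp b.Sn) (fun _ => rfl), ← hf]
  generalize cstX t.oU (mkTS (fun b => cond s b.Tn b.Tp) t.bs) = C
  generalize cstX t.oU (mkTS (fun b => cond s b.Sn b.Sp) t.bs) = C'
  generalize mkTS (fun b => cond s b.Tp b.Tn) t.bs = TS
  generalize mkTS (fun b => cond s b.Sp b.Sn) t.bs = TS'
  induction num generalizing a X with
  | zero => rfl
  | succ n ih =>
    have e1 : H147.runL t.β rw (2 ^ t.β - 1) t.Ws TT t.n (rw * t.n) t.BP t.w (2 ^ t.w - 1) o C C'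
        TS TS' fs t.EL (n + 1) a X
        = force (rowL t.β rw (2 ^ t.β - 1) t.Ws TT t.n (rw * t.n) t.BP t.w (2 ^ t.w - 1) o C C'
          TS TS' fs t.EL a X) fun x => force (a + 1) fun k' =>
          H147.runL t.β rw (2 ^ t.β - 1) t.Ws TT t.n (rw * t.n) t.BP t.w (2 ^ t.w - 1) o C C'
            TS TS' fs t.EL n k' x := rfl
    have e2 : H147.runG t.β rw (2 ^ t.β - 1) t.Ws TT t.n (rw * t.n) t.BP t.w (2 ^ t.w - 1) C C'
        TS TS' t.bs t.EL (n + 1) a X
        = force (rowG t.β rw (2 ^ t.β - 1) t.Ws TT t.n (rw * t.n) t.BP t.w (2 ^ t.w - 1) C C'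
          TS TS' t.bs t.EL a X) fun x => force (a + 1) fun k' =>
          H147.runG t.β rw (2 ^ t.β - 1) t.Ws TT t.n (rw * t.n) t.BP t.w (2 ^ t.w - 1) C C'
            TS TS' t.bs t.EL n k' x := rfl
    have e3 : rowL t.β rw (2 ^ t.β - 1) t.Ws TT t.n (rw * t.n) t.BP t.w (2 ^ t.w - 1) o C C'
          TS TS' fs t.EL a X
        = rowG t.β rw (2 ^ t.β - 1) t.Ws TT t.n (rw * t.n) t.BP t.w (2 ^ t.w - 1) C C'
          TS TS' t.bs t.EL a X := by
      unfold rowL rowG
      rw [rowsLX_eq (nk := nk) (by omega), ← hf]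
    show H147.runL t.β rw (2 ^ t.β - 1) t.Ws TT t.n (rw * t.n) t.BP t.w (2 ^ t.w - 1) o C C'
        TS TS' fs t.EL (n + 1) a X
      = H147.runG t.β rw (2 ^ t.β - 1) t.Ws TT t.n (rw * t.n) t.BP t.w (2 ^ t.w - 1) C C'
        TS TS' t.bs t.EL (n + 1) a X
    rw [e1, e2, force_eq, force_eq, force_eq, force_eq, e3]
    exact ih (a + 1) _ (by omega)

/-- a checked chunk, blocks given by factors. -/
theorem Ch.ckL {t : TyE} {ν : ℕ → ℕ → ℕ} {nk : ℕ} (ht : t.Ok ν nk) {TT rw o : ℕ}
    {fs : List LB} (hf : t.bs = fs.map (LB.toBD t.w o nk))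
    (hR : t.R = RcE TT rw) (hrw : Nat.ble 19 rw = true) (s : Bool)
    (num a b X X' : ℕ)
    (h : and (Nat.beq (Nat.add a num) b) (and (Nat.ble b nk)
      (Nat.beq (t.runL TT rw o fs s num a X) X')) = true) : Ch t s a b X X' := by
  have h' := h
  simp only [Bool.and_eq_true] at h'
  have h1 : a + num = b := Nat.eq_of_beq_eq_true h'.1
  have h2 : b ≤ nk := Nat.le_of_ble_eq_true h'.2.1
  rw [runL_eq hf hR (Nat.le_of_ble_eq_true hrw) s num a X (by omega)] at h
  exact Ch.ck ht s num a b X X' h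

end Vale.Agent.P355.H147
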