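import Vale.Agent.P355.H147.Rule
import Vale.Agent.P355.H147.Group

/-! Flags with any number of internal vertices and with ket and bra legs. -/

namespace Vale.Agent.P355.H147

open Finset Matrix Vale.Agent.P355

variable {m N c k l : ℕ} {B : Fin m → M6}

/-! ### Averages over mixed assignments -/

/-- the slots in `S` take their value from `u`, the others from `v`. -/
def mix (S : Fin N → Bool) (v u : Fin N → Fin 6) : Fin N → Fin 6 := fun p =>
  if S p = true then u p else v p

theorem sum_mix (S : Fin N → Bool) (J : (Fin N → Fin 6) → ℂ) :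
    ∑ v : Fin N → Fin 6, ∑ u : Fin N → Fin 6, J (mix S v u)
      = (6 : ℂ) ^ N * ∑ v : Fin N → Fin 6, J v := by
  have h1 : ∑ v : Fin N → Fin 6, ∑ u : Fin N → Fin 6, J (mix S v u)
      = ∑ p : (Fin N → Fin 6) × (Fin N → Fin 6), J (mix S p.1 p.2) := by
    rw [Fintype.sum_prod_type]
  have h2 : ∑ p : (Fin N → Fin 6) × (Fin N → Fin 6), J (mix S p.1 p.2)
      = ∑ p : (Fin N → Fin 6) × (Fin N → Fin 6), J p.1 := by
    refine Finset.sum_nbij' (fun p => (mix S p.1 p.2, mix S p.2 p.1))
      (fun p => (mix S p.1 p.2, mix S p.2 p.1)) (by simp) (by simp) ?_ ?_ ?_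
    · rintro ⟨v, u⟩ _
      ext q <;> simp only [mix] <;> split_ifs <;> rfl
    · rintro ⟨v, u⟩ _
      ext q <;> simp only [mix] <;> split_ifs <;> rfl
    · rintro ⟨v, u⟩ _; rfl
  rw [h1, h2, Fintype.sum_prod_type]
  simp [Finset.mul_sum]

/-! ### Inner products of slots -/

/-- vector of a slot, in the standard basis. -/
noncomputable def vc (B : Fin m → M6) : Option (Fin m × Fin 6) → Fin 6 → ℂ
  | some p, z => B p.1 z p.2
  | none, _ => 0

/-- inner product of two slots. -/
noncomputable def ipo (B : Fin m → M6) : Option (Fin m × Fin 6) → Option (Fin m × Fin 6) → ℂ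
  | some p, some q => ipr B p q
  | _, _ => 0

theorem vc_sum (B : Fin m → M6) (o o' : Option (Fin m × Fin 6)) :
    ∑ z : Fin 6, vc B o z * star (vc B o' z) = ipo B o' o := by
  cases o with
  | none => cases o' <;> simp [vc, ipo]
  | some p =>
    cases o' with
    | none => simp [vc, ipo]
    | some q =>
      show ∑ z : Fin 6, B p.1 z p.2 * star (B q.1 z q.2) = ((B q.1)ᴴ * B p.1) q.2 p.2
      rw [Matrix.mul_apply]
      exact Finset.sum_congr rfl fun z _ => by rw [Matrix.conjTranspose_apply, mul_comm]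

/-- products over legs. -/
theorem legs_sum (f g : Fin k → Fin 6 → ℂ) :
    ∑ z : Fin k → Fin 6, (∏ i, f i (z i)) * star (∏ i, g i (z i))
      = ∏ i, ∑ a : Fin 6, f i a * star (g i a) := by
  rw [Finset.prod_univ_sum, Fintype.piFinset_univ]
  refine Finset.sum_congr rfl fun z _ => ?_
  rw [star_prod, ← Finset.prod_mul_distrib]

/-! ### Types and flags -/

/-- a type. -/
structure Lty (N c : ℕ) where
  T : Fin N → Option (Fin c)
  lab : Fin N → Bool
  rt : Fin N → Bool
  L : Fin N → Bool
  ι : Equiv.Perm (Fin N)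

/-- consistency of a type. -/
structure Lty.Ok (t : Lty N c) : Prop where
  inv : ∀ p, t.ι (t.ι p) = p
  rι : ∀ p, t.rt p = true → t.ι p = p
  Lr : ∀ p, t.L p = true → t.rt p = false
  LR : ∀ p, t.L p = true → t.L (t.ι p) = false
  ln : ∀ p, t.rt p = false → t.lab p = false

/-- a flag. -/
structure LFlg (N c k l : ℕ) where
  col : Fin N → Option (Fin c)
  fl : Fin N → Fin N → ℤ
  kt : Fin k → Fin N
  br : Fin l → Fin N

/-- colours of the slots of a flag. -/
def Lty.xc (t : Lty N c) (x : LFlg N c k l) (p : Fin N) : Option (Fin c) :=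
  if t.rt p = true then t.T p else if t.L p = true then x.col p else none

/-- the slots of a flag. -/
structure Lty.Clean (t : Lty N c) (x : LFlg N c k l) : Prop where
  fl : ∀ p, t.rt p = false → t.L p = false → ∀ q, x.fl p q = 0 ∧ x.fl q p = 0
  kt : ∀ i, t.rt (x.kt i) = true ∨ t.L (x.kt i) = true
  br : ∀ i, t.rt (x.br i) = true ∨ t.L (x.br i) = true

/-- the integrand of a flag. -/
noncomputable def Lty.G (t : Lty N c) (B : Fin m → M6) (e : Fin c → Fin m)
    (x : LFlg N c k l) (v : Fin N → Fin 6) (z : Fin k → Fin 6) (w : Fin l → Fin 6) : ℂ :=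
  mon B e (t.xc x) x.fl v * (∏ i, vc B (pt e (t.xc x) v (x.kt i)) (z i))
    * star (∏ j, vc B (pt e (t.xc x) v (x.br j)) (w j))

/-- the flag function. -/
noncomputable def Lty.phi (t : Lty N c) (B : Fin m → M6) (e : Fin c → Fin m)
    (v : Fin N → Fin 6) (x : LFlg N c k l) (z : Fin k → Fin 6) (w : Fin l → Fin 6) : ℂ :=
  if inj t.T t.lab v then
    (6⁻¹ : ℂ) ^ N * ∑ u : Fin N → Fin 6, t.G B e x (mix (fun p => !t.rt p) v u) z w
  else 0

/-- the Gram kernel. -/
noncomputable def Lty.M (t : Lty N c) (B : Fin m → M6) (x y : LFlg N c k l) : ℝ :=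
  (av m N c fun e v => ∑ z : Fin k → Fin 6, ∑ w : Fin l → Fin 6,
    t.phi B e v x z w * star (t.phi B e v y z w)).re

theorem Lty.gram (t : Lty N c) (B : Fin m → M6) : GramF (t.M (k := k) (l := l) B) := by
  have hw : ∃ w : ℝ, 0 ≤ w ∧
      ((Fintype.card (Fin c ↪ Fin m) : ℂ)⁻¹ * (6⁻¹ : ℂ) ^ N) = (w : ℂ) := by
    refine ⟨(Fintype.card (Fin c ↪ Fin m) : ℝ)⁻¹ * (6⁻¹ : ℝ) ^ N, by positivity, ?_⟩
    push_cast; rfl
  obtain ⟨w, hw0, hw⟩ := hw
  refine ⟨((Fin c ↪ Fin m) × (Fin N → Fin 6)) × ((Fin k → Fin 6) × (Fin l → Fin 6)),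
    inferInstance, fun i x => (Real.sqrt w : ℂ) * t.phi B i.1.1 i.1.2 x i.2.1 i.2.2,
    fun x y => ?_⟩
  unfold Lty.M av
  rw [hw, Complex.re_ofReal_mul, Complex.re_sum, Fintype.sum_prod_type, Fintype.sum_prod_type,
    Finset.mul_sum]
  refine Finset.sum_congr rfl fun e _ => ?_
  rw [Complex.re_sum, Finset.mul_sum]
  refine Finset.sum_congr rfl fun v _ => ?_
  rw [Fintype.sum_prod_type, Complex.re_sum, Finset.mul_sum]
  refine Finset.sum_congr rfl fun z _ => ?_
  rw [Complex.re_sum, Finset.mul_sum]
  refine Finset.sum_congr rfl fun w' _ => ?_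
  have h3 : star ((Real.sqrt w : ℝ) : ℂ) = ((Real.sqrt w : ℝ) : ℂ) := Complex.conj_ofReal _
  have h4 : (Real.sqrt w : ℂ) * t.phi B e v x z w' * star ((Real.sqrt w : ℂ) * t.phi B e v y z w')
      = ((Real.sqrt w * Real.sqrt w : ℝ) : ℂ) * (t.phi B e v x z w' * star (t.phi B e v y z w')) := by
    rw [star_mul', h3]; push_cast; ring
  rw [h4, Complex.re_ofReal_mul, Real.mul_self_sqrt hw0]

/-! ### Values with inner product factors -/

/-- value of a graph with inner products of pairs of slots. -/
noncomputable def gve (B : Fin m → M6) (col : Fin N → Option (Fin c)) (lab : Fin N → Bool)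
    (fl : Fin N → Fin N → ℤ) (K : List (Fin N × Fin N)) : ℂ :=
  av m N c fun e v => fg B e col lab fl v
    * (K.map fun p => ipo B (pt e col v p.1) (pt e col v p.2)).prod

theorem gve_nil (B : Fin m → M6) (col : Fin N → Option (Fin c)) (lab : Fin N → Bool)
    (fl : Fin N → Fin N → ℤ) : gve B col lab fl [] = gv B col lab fl := by
  unfold gve gv
  exact av_congr fun e v => by simp

/-- colours of a product. -/
def Lty.pcol (t : Lty N c) (x y : LFlg N c k l) : Fin N → Option (Fin c) := fun p =>
  if t.rt p = true then t.T p else if t.L p = true then x.col p else t.xc y (t.ι p)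

/-- flows of a product. -/
def Lty.pfl (t : Lty N c) (x y : LFlg N c k l) : Fin N → Fin N → ℤ := fun a b =>
  x.fl a b - y.fl (t.ι a) (t.ι b)

/-- legs of a product. -/
def Lty.pk (t : Lty N c) (x y : LFlg N c k l) : List (Fin N × Fin N) :=
  (List.ofFn fun i => (t.ι (y.kt i), x.kt i)) ++ List.ofFn fun j => (x.br j, t.ι (y.br j))

/-- **The product formula.** -/
theorem Lty.M_eq (t : Lty N c) (ht : t.Ok) (hB : IsMUBs B) (x y : LFlg N c k l)
    (hx : t.Clean x) (hy : t.Clean y) :
    t.M B x y = (gve B (t.pcol x y) t.lab (t.pfl x y) (t.pk x y)).re := by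
  unfold Lty.M
  refine congrArg Complex.re ?_
  -- the integrand of the product at an assignment
  set J : (Fin c → Fin m) → (Fin N → Fin 6) → ℂ := fun e v =>
    mon B e (t.pcol x y) (t.pfl x y) v
      * ((t.pk x y).map fun p => ipo B (pt e (t.pcol x y) v p.1) (pt e (t.pcol x y) v p.2)).prod
    with hJ
  -- slots of x and of y
  have sx : ∀ (e : Fin c → Fin m) (v u u' : Fin N → Fin 6) (p : Fin N),
      (t.rt p = true ∨ t.L p = true) →
      pt e (t.pcol x y) (mix (fun p => !(t.rt p || t.L p)) (mix t.L v u) (u' ∘ t.ι)) p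
        = pt e (t.xc x) (mix (fun p => !t.rt p) v u) p := by
    intro e v u u' p hp
    unfold pt Lty.pcol Lty.xc mix
    rcases hp with hp | hp
    · have hL : t.L p = false := by
        by_contra h
        have := ht.Lr p (by simpa using h)
        rw [hp] at this; cases this
      simp [hp, hL]
    · have hr := ht.Lr p hp
      simp [hp, hr]
  have sy : ∀ (e : Fin c → Fin m) (v u u' : Fin N → Fin 6) (p : Fin N),
      (t.rt p = true ∨ t.L p = true) →
      pt e (t.pcol x y) (mix (fun p => !(t.rt p || t.L p)) (mix t.L v u) (u' ∘ t.ι)) (t.ι p)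
        = pt e (t.xc y) (mix (fun p => !t.rt p) v u') p := by
    intro e v u u' p hp
    rcases hp with hp | hp
    · have hL : t.L p = false := by
        by_contra h
        have := ht.Lr p (by simpa using h)
        rw [hp] at this; cases this
      rw [ht.rι p hp]
      unfold pt Lty.pcol Lty.xc mix
      simp [hp, hL]
    · have hr := ht.Lr p hp
      have hL := ht.LR p hp
      have hri : t.rt (t.ι p) = false := by
        by_contra h
        have h1 := ht.rι (t.ι p) (by simpa using h)
        rw [ht.inv] at h1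
        rw [← h1, hr] at h
        exact h rfl
      unfold pt Lty.pcol mix
      simp only [hri, hL, hr, ht.inv, Function.comp]
      simp
  -- factorisation
  have hfac : ∀ (e : Fin c → Fin m) (v u u' : Fin N → Fin 6),
      ∑ z : Fin k → Fin 6, ∑ w : Fin l → Fin 6,
        t.G B e x (mix (fun p => !t.rt p) v u) z w
          * star (t.G B e y (mix (fun p => !t.rt p) v u') z w)
      = J e (mix (fun p => !(t.rt p || t.L p)) (mix t.L v u) (u' ∘ t.ι)) := by
    intro e v u u'
    set V := mix (fun p => !(t.rt p || t.L p)) (mix t.L v u) (u' ∘ t.ι) with hV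
    set X := mix (fun p => !t.rt p) v u with hX
    set Y := mix (fun p => !t.rt p) v u' with hY
    have hmon : mon B e (t.pcol x y) (t.pfl x y) V
        = mon B e (t.xc x) x.fl X * star (mon B e (t.xc y) y.fl Y) := by
      have h3 : t.pfl x y = fun a b => x.fl a b + (fun a b => - y.fl (t.ι a) (t.ι b)) a b := by
        funext a b; simp [Lty.pfl, sub_eq_add_neg]
      rw [h3, mon_add hB]
      congr 1
      · unfold mon
        refine Finset.prod_congr rfl fun p _ => Finset.prod_congr rfl fun q _ => ?_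
        by_cases hp : t.rt p = true ∨ t.L p = true
        · by_cases hq : t.rt q = true ∨ t.L q = true
          · rw [sx e v u u' p hp, sx e v u u' q hq]
          · push Not at hq
            rw [(hx.fl q (by simpa using hq.1) (by simpa using hq.2) p).2, zpow_zero, zpow_zero]
        · push Not at hp
          rw [(hx.fl p (by simpa using hp.1) (by simpa using hp.2) q).1, zpow_zero, zpow_zero]
      · rw [star_mon hB]
        unfold mon
        refine Fintype.prod_equiv t.ι _ _ fun p => ?_
        refine Fintype.prod_equiv t.ι _ _ fun q => ?_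
        by_cases hp : t.rt (t.ι p) = true ∨ t.L (t.ι p) = true
        · by_cases hq : t.rt (t.ι q) = true ∨ t.L (t.ι q) = true
          · have e1 := sy e v u u' (t.ι p) hp
            have e2 := sy e v u u' (t.ι q) hq
            rw [ht.inv] at e1 e2
            rw [e1, e2]
          · push Not at hq
            have := (hy.fl (t.ι q) (by simpa using hq.1) (by simpa using hq.2) (t.ι p)).2
            simp only [this, neg_zero, zpow_zero]
        · push Not at hp
          have := (hy.fl (t.ι p) (by simpa using hp.1) (by simpa using hp.2) (t.ι q)).1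
          simp only [this, neg_zero, zpow_zero]
    have hk : ∑ z : Fin k → Fin 6, (∏ i, vc B (pt e (t.xc x) X (x.kt i)) (z i))
        * star (∏ i, vc B (pt e (t.xc y) Y (y.kt i)) (z i))
        = ∏ i, ipo B (pt e (t.pcol x y) V (t.ι (y.kt i))) (pt e (t.pcol x y) V (x.kt i)) := by
      rw [legs_sum]
      refine Finset.prod_congr rfl fun i _ => ?_
      rw [vc_sum, sx e v u u' _ (hx.kt i), sy e v u u' _ (hy.kt i)]
    have hl : ∑ w : Fin l → Fin 6, star (∏ j, vc B (pt e (t.xc x) X (x.br j)) (w j))
        * (∏ j, vc B (pt e (t.xc y) Y (y.br j)) (w j))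
        = ∏ j, ipo B (pt e (t.pcol x y) V (x.br j)) (pt e (t.pcol x y) V (t.ι (y.br j))) := by
      have h1 := legs_sum (fun j => vc B (pt e (t.xc y) Y (y.br j)))
        (fun j => vc B (pt e (t.xc x) X (x.br j)))
      have h2 : ∑ w : Fin l → Fin 6, star (∏ j, vc B (pt e (t.xc x) X (x.br j)) (w j))
          * (∏ j, vc B (pt e (t.xc y) Y (y.br j)) (w j))
          = ∑ w : Fin l → Fin 6, (∏ j, vc B (pt e (t.xc y) Y (y.br j)) (w j))
            * star (∏ j, vc B (pt e (t.xc x) X (x.br j)) (w j)) :=
        Finset.sum_congr rfl fun w _ => mul_comm _ _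
      rw [h2, h1]
      refine Finset.prod_congr rfl fun i _ => ?_
      rw [vc_sum, sx e v u u' _ (hx.br i), sy e v u u' _ (hy.br i)]
    have hpk : ((t.pk x y).map fun p => ipo B (pt e (t.pcol x y) V p.1)
        (pt e (t.pcol x y) V p.2)).prod
        = (∏ i, ipo B (pt e (t.pcol x y) V (t.ι (y.kt i))) (pt e (t.pcol x y) V (x.kt i)))
          * ∏ j, ipo B (pt e (t.pcol x y) V (x.br j)) (pt e (t.pcol x y) V (t.ι (y.br j))) := by
      unfold Lty.pk
      rw [List.map_append, List.prod_append, List.map_ofFn, List.map_ofFn, List.prod_ofFn,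
        List.prod_ofFn]
      rfl
    rw [hJ]
    simp only
    rw [hmon, hpk, ← hk, ← hl, Finset.sum_mul_sum]
    rw [Finset.mul_sum]
    refine Finset.sum_congr rfl fun z _ => ?_
    rw [Finset.mul_sum]
    refine Finset.sum_congr rfl fun w _ => ?_
    unfold Lty.G
    rw [star_mul', star_mul', star_star]
    ring
  have hpos : (6 : ℂ) ^ N ≠ 0 := pow_ne_zero _ (by norm_num)
  -- labels
  have hinj : ∀ v u u', inj (t.pcol x y) t.lab
      (mix (fun p => !(t.rt p || t.L p)) (mix t.L v u) (u' ∘ t.ι)) ↔ inj t.T t.lab v := by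
    intro v u u'
    have key : ∀ p, t.lab p = true → t.pcol x y p = t.T p
        ∧ mix (fun p => !(t.rt p || t.L p)) (mix t.L v u) (u' ∘ t.ι) p = v p := by
      intro p hp
      have hr : t.rt p = true := by
        by_contra h
        have := ht.ln p (by simpa using h)
        rw [hp] at this; cases this
      have hL : t.L p = false := by
        by_contra h
        have := ht.Lr p (by simpa using h)
        rw [hr] at this; cases this
      unfold Lty.pcol mix
      simp [hr, hL]
    unfold inj
    constructor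
    · intro h p q hpq lp lq hp hc
      have := h p q hpq lp lq (by rw [(key p lp).1]; exact hp)
        (by rw [(key p lp).1, (key q lq).1]; exact hc)
      rwa [(key p lp).2, (key q lq).2] at this
    · intro h p q hpq lp lq hp hc
      rw [(key p lp).1] at hp
      rw [(key p lp).1, (key q lq).1] at hc
      rw [(key p lp).2, (key q lq).2]
      exact h p q hpq lp lq hp hc
  unfold gve av
  congr 1
  refine Finset.sum_congr rfl fun e _ => ?_
  -- expand the right side by two mixing steps
  have hR : ∑ v : Fin N → Fin 6, (fg B e (t.pcol x y) t.lab (t.pfl x y) v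
      * ((t.pk x y).map fun p => ipo B (pt e (t.pcol x y) v p.1)
        (pt e (t.pcol x y) v p.2)).prod)
      = (6⁻¹ : ℂ) ^ N * ((6⁻¹ : ℂ) ^ N * ∑ v : Fin N → Fin 6, ∑ u : Fin N → Fin 6,
        ∑ u' : Fin N → Fin 6, if inj t.T t.lab v then
          J e (mix (fun p => !(t.rt p || t.L p)) (mix t.L v u) (u' ∘ t.ι)) else 0) := by
    set F : (Fin N → Fin 6) → ℂ := fun v => fg B e (t.pcol x y) t.lab (t.pfl x y) v
      * ((t.pk x y).map fun p => ipo B (pt e (t.pcol x y) v p.1)
        (pt e (t.pcol x y) v p.2)).prod with hF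
    have h1 : ∀ v u u', (if inj t.T t.lab v then
        J e (mix (fun p => !(t.rt p || t.L p)) (mix t.L v u) (u' ∘ t.ι)) else 0)
        = F (mix (fun p => !(t.rt p || t.L p)) (mix t.L v u) (u' ∘ t.ι)) := by
      intro v u u'
      rw [hF]
      simp only
      unfold fg
      rw [if_congr (hinj v u u') rfl rfl]
      split_ifs
      · rfl
      · rw [zero_mul]
    simp only [h1]
    have h2 : ∀ v u, ∑ u' : Fin N → Fin 6,
        F (mix (fun p => !(t.rt p || t.L p)) (mix t.L v u) (u' ∘ t.ι))
        = ∑ u' : Fin N → Fin 6, F (mix (fun p => !(t.rt p || t.L p)) (mix t.L v u) u') := by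
      intro v u
      exact Fintype.sum_equiv (Equiv.arrowCongr t.ι.symm (Equiv.refl (Fin 6))) _ _
        fun u' => rfl
    simp only [h2]
    have h3 := sum_mix t.L fun a => ∑ u' : Fin N → Fin 6,
      F (mix (fun p => !(t.rt p || t.L p)) a u')
    rw [h3, sum_mix]
    rw [inv_pow]
    field_simp
  rw [hR, Finset.mul_sum, Finset.mul_sum]
  refine Finset.sum_congr rfl fun v _ => ?_
  unfold Lty.phi
  by_cases hv : inj t.T t.lab v
  · simp only [if_pos hv]
    simp only [← hfac]
    have h6 : star ((6⁻¹ : ℂ) ^ N) = (6⁻¹ : ℂ) ^ N := by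
      rw [star_pow]; congr 1; simp
    have h7 : ∀ (z : Fin k → Fin 6) (w : Fin l → Fin 6),
        (6⁻¹ : ℂ) ^ N * (∑ u : Fin N → Fin 6, t.G B e x (mix (fun p => !t.rt p) v u) z w)
          * star ((6⁻¹ : ℂ) ^ N
            * ∑ u : Fin N → Fin 6, t.G B e y (mix (fun p => !t.rt p) v u) z w)
        = (6⁻¹ : ℂ) ^ N * ((6⁻¹ : ℂ) ^ N * ∑ u : Fin N → Fin 6, ∑ u' : Fin N → Fin 6,
            t.G B e x (mix (fun p => !t.rt p) v u) z w
            * star (t.G B e y (mix (fun p => !t.rt p) v u') z w)) := by
      intro z w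
      rw [star_mul', h6, star_sum, ← Finset.sum_mul_sum]
      ring
    simp only [h7, ← Finset.mul_sum]
    congr 1
    congr 1
    have h8 : ∀ z : Fin k → Fin 6, ∑ w : Fin l → Fin 6, ∑ u : Fin N → Fin 6,
        ∑ u' : Fin N → Fin 6, t.G B e x (mix (fun p => !t.rt p) v u) z w
          * star (t.G B e y (mix (fun p => !t.rt p) v u') z w)
        = ∑ u : Fin N → Fin 6, ∑ u' : Fin N → Fin 6, ∑ w : Fin l → Fin 6,
          t.G B e x (mix (fun p => !t.rt p) v u) z w
          * star (t.G B e y (mix (fun p => !t.rt p) v u') z w) := by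
      intro z
      rw [Finset.sum_comm]
      refine Finset.sum_congr rfl fun u _ => ?_
      rw [Finset.sum_comm]
    simp only [Finset.mul_sum]
    simp only [h8]
    rw [Finset.sum_comm]
    refine Finset.sum_congr rfl fun u _ => ?_
    rw [Finset.sum_comm]
  · simp only [if_neg hv]
    simp

end Vale.Agent.P355.H147
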