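import Vale.Agent.P355.H147.Legs

/-! Reduction of inner products in graph values. -/

namespace Vale.Agent.P355.H147

open Finset Matrix Vale.Agent.P355

variable {m N c k l : ℕ} {B : Fin m → M6} {lab : Fin N → Bool}

/-- replacement of a slot. -/
def sbs (p q z : Fin N) : Fin N := if z = p then q else z

theorem ipo_some (B : Fin m → M6) (p q : Fin m × Fin 6) : ipo B (some p) (some q) = ipr B p q := rfl

/-- both ends at the same slot. -/
theorem gve_self (hB : IsMUBs B) (col : Fin N → Option (Fin c)) (f : Fin N → Fin N → ℤ)
    (p : Fin N) (hp : col p ≠ none) (K : List (Fin N × Fin N)) :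
    gve B col lab f ((p, p) :: K) = gve B col lab f K := by
  obtain ⟨c0, h0⟩ := Option.ne_none_iff_exists'.1 hp
  refine av_congr fun e v => ?_
  have h1 : pt e col v p = some (e c0, v p) := by unfold pt; rw [h0]; rfl
  rw [List.map_cons, List.prod_cons]
  simp only [h1, ipo_some]
  rw [ipr_self hB _ _ rfl, if_pos rfl, one_mul]

/-- ends of different colours. -/
theorem gve_flow (hB : IsMUBs B) (col : Fin N → Option (Fin c)) (f : Fin N → Fin N → ℤ)
    (p q : Fin N) (hp : col p ≠ none) (hq : col q ≠ none) (hpq : col p ≠ col q)
    (K : List (Fin N × Fin N)) :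
    r6 * gve B col lab f ((p, q) :: K) = gve B col lab (addE f p q) K := by
  obtain ⟨c0, h0⟩ := Option.ne_none_iff_exists'.1 hp
  obtain ⟨c1, h1⟩ := Option.ne_none_iff_exists'.1 hq
  unfold gve
  rw [← av_mul]
  refine av_congr fun e v => ?_
  have h2 : pt e col v p = some (e c0, v p) := by unfold pt; rw [h0]; rfl
  have h3 : pt e col v q = some (e c1, v q) := by unfold pt; rw [h1]; rfl
  have h4 : e c0 ≠ e c1 := fun h => hpq (by rw [h0, h1, e.injective h])
  rw [List.map_cons, List.prod_cons]
  simp only [h2, h3, ipo_some]
  have h5 : fg B e col lab (addE f p q) v = fg B e col lab f v * (r6 * ipr B (e c0, v p) (e c1, v q)) := by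
    unfold fg
    split_ifs
    · rw [mon_addE hB, h2, h3, ho_some]
      unfold hh
      rw [if_neg h4]
    · rw [zero_mul]
  rw [h5]; ring

/-- two labelled slots of one colour. -/
theorem gve_zero (hB : IsMUBs B) (col : Fin N → Option (Fin c)) (f : Fin N → Fin N → ℤ)
    (p q : Fin N) (hpq : p ≠ q) (hp : col p ≠ none) (hc : col p = col q)
    (lp : lab p = true) (lq : lab q = true) (K : List (Fin N × Fin N)) :
    gve B col lab f ((p, q) :: K) = 0 := by
  obtain ⟨c0, h0⟩ := Option.ne_none_iff_exists'.1 hp
  unfold gve
  rw [av_congr (G := fun _ _ => 0)]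
  · unfold av; simp
  · intro e v
    have h2 : pt e col v p = some (e c0, v p) := by unfold pt; rw [h0]; rfl
    have h3 : pt e col v q = some (e c0, v q) := by unfold pt; rw [← hc, h0]; rfl
    rw [List.map_cons, List.prod_cons]
    simp only [h2, h3, ipo_some]
    unfold fg
    split_ifs with hi
    · rw [ipr_self hB (e c0, v p) (e c0, v q) rfl, if_neg]
      · ring
      · exact hi p q hpq lp lq hp hc
    · rw [zero_mul]

/-- a free slot `p` is merged into a slot `q` of its colour: general form. -/
theorem gve_mrg_aux (hB : IsMUBs B) (col : Fin N → Option (Fin c)) (f : Fin N → Fin N → ℤ)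
    (p q : Fin N) (hpq : p ≠ q) (hp : col p ≠ none) (hc : col p = col q)
    (lp : lab p = false) (K : List (Fin N × Fin N)) :
    6 * av m N c (fun e v => if v p = v q then fg B e col lab f v
        * (K.map fun z => ipo B (pt e col v z.1) (pt e col v z.2)).prod else 0)
      = gve B (era col p) lab (mrg f p q) (K.map fun z => (sbs p q z.1, sbs p q z.2)) := by
  obtain ⟨c0, h0⟩ := Option.ne_none_iff_exists'.1 hp
  rw [av_update p]
  refine av_congr fun e v => ?_
  have h1 : ∀ k : Fin 6, (if Function.update v p k p = Function.update v p k q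
      then fg B e col lab f (Function.update v p k) * (K.map fun z =>
        ipo B (pt e col (Function.update v p k) z.1) (pt e col (Function.update v p k) z.2)).prod
      else 0)
      = if v q = k then fg B e col lab f (Function.update v p k) * (K.map fun z =>
        ipo B (pt e col (Function.update v p k) z.1) (pt e col (Function.update v p k) z.2)).prod
      else 0 := by
    intro k
    simp [hpq.symm, eq_comm]
  simp only [h1]
  rw [Finset.sum_ite_eq]
  simp only [Finset.mem_univ, if_true]
  have h2 : inj col lab (Function.update v p (v q)) ↔ inj (era col p) lab v := by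
    rw [inj_update col p c0 h0]
    unfold era
    constructor
    · exact fun h => h.1
    · intro h
      refine ⟨h, fun z hz => ?_⟩
      rw [Finset.mem_filter] at hz
      rw [lp] at hz
      exact absurd hz.2.2.2.1 (by simp)
  have h3 : pt e (era col p) v q = some (e c0, v q) := by
    unfold pt era; simp [hpq.symm, ← hc, h0]
  have h4 : ∀ z, pt e col (Function.update v p (v q)) z = pt e (era col p) v (sbs p q z) := by
    intro z
    unfold sbs
    by_cases hz : z = p
    · subst hz
      rw [if_pos rfl, h3]
      unfold pt
      rw [h0]; simp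
    · rw [if_neg hz]
      unfold pt era
      simp [hz]
  have h5 : fg B e col lab f (Function.update v p (v q)) = fg B e (era col p) lab (mrg f p q) v := by
    unfold fg
    rw [if_congr h2 rfl rfl]
    split_ifs
    · rw [mon_update e col f p c0 h0]
      rw [mon_mrg hB e (era col p) f p q v _ h3]
      rfl
    · rfl
  rw [h5, List.map_map]
  simp only [h4]
  rfl

/-- a free slot `p` is merged into a slot `q` of its colour. -/
theorem gve_mrg (hB : IsMUBs B) (col : Fin N → Option (Fin c)) (f : Fin N → Fin N → ℤ)
    (p q : Fin N) (hpq : p ≠ q) (hp : col p ≠ none) (hc : col p = col q)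
    (lp : lab p = false) (K : List (Fin N × Fin N)) :
    6 * gve B col lab f ((p, q) :: K)
      = gve B (era col p) lab (mrg f p q) (K.map fun z => (sbs p q z.1, sbs p q z.2)) := by
  obtain ⟨c0, h0⟩ := Option.ne_none_iff_exists'.1 hp
  rw [← gve_mrg_aux hB col f p q hpq hp hc lp K]
  congr 1
  refine av_congr fun e v => ?_
  have h2 : pt e col v p = some (e c0, v p) := by unfold pt; rw [h0]; rfl
  have h3 : pt e col v q = some (e c0, v q) := by unfold pt; rw [← hc, h0]; rfl
  rw [List.map_cons, List.prod_cons]
  simp only [h2, h3, ipo_some]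
  rw [ipr_self hB (e c0, v p) (e c0, v q) rfl]
  simp only
  split_ifs <;> ring

/-- a free slot `q` is merged into a slot `p` of its colour. -/
theorem gve_mrg' (hB : IsMUBs B) (col : Fin N → Option (Fin c)) (f : Fin N → Fin N → ℤ)
    (p q : Fin N) (hpq : p ≠ q) (hp : col p ≠ none) (hc : col p = col q)
    (lq : lab q = false) (K : List (Fin N × Fin N)) :
    6 * gve B col lab f ((p, q) :: K)
      = gve B (era col q) lab (mrg f q p) (K.map fun z => (sbs q p z.1, sbs q p z.2)) := by
  obtain ⟨c0, h0⟩ := Option.ne_none_iff_exists'.1 hp
  rw [← gve_mrg_aux hB col f q p hpq.symm (hc ▸ hp) hc.symm lq K]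
  congr 1
  refine av_congr fun e v => ?_
  have h2 : pt e col v p = some (e c0, v p) := by unfold pt; rw [h0]; rfl
  have h3 : pt e col v q = some (e c0, v q) := by unfold pt; rw [← hc, h0]; rfl
  rw [List.map_cons, List.prod_cons]
  simp only [h2, h3, ipo_some]
  rw [ipr_self hB (e c0, v p) (e c0, v q) rfl]
  by_cases hv : v p = v q
  · rw [if_pos hv, if_pos hv.symm]; ring
  · rw [if_neg hv, if_neg (Ne.symm hv)]; ring

/-- order of the brackets. -/
theorem gve_perm (col : Fin N → Option (Fin c)) (f : Fin N → Fin N → ℤ)
    {K K' : List (Fin N × Fin N)} (h : K.Perm K') :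
    gve B col lab f K = gve B col lab f K' := by
  refine av_congr fun e v => ?_
  rw [(h.map _).prod_eq]

theorem gve_congr (hB : IsMUBs B) (col : Fin N → Option (Fin c)) (f g : Fin N → Fin N → ℤ)
    (K : List (Fin N × Fin N))
    (h : ∀ p q, col p ≠ none → col q ≠ none → col p ≠ col q → f p q - f q p = g p q - g q p) :
    gve B col lab f K = gve B col lab g K := by
  refine av_congr fun e v => ?_
  unfold fg
  rw [mon_congr hB e col f g v h]

/-- contraction of a free slot without flow carrying two ends (an identity strand). -/
theorem gve_wire (hB : IsMUBs B) (col : Fin N → Option (Fin c)) (f : Fin N → Fin N → ℤ)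
    (w p q : Fin N) (hw : col w ≠ none) (lw : lab w = false) (h0 : Lev0 col f w)
    (hp : p ≠ w) (hq : q ≠ w) (K : List (Fin N × Fin N))
    (hK : ∀ z ∈ K, z.1 ≠ w ∧ z.2 ≠ w) :
    6 * gve B col lab f ((p, w) :: (w, q) :: K) = gve B (era col w) lab f ((p, q) :: K) := by
  obtain ⟨c0, h1⟩ := Option.ne_none_iff_exists'.1 hw
  unfold gve
  rw [av_update w]
  refine av_congr fun e v => ?_
  have h2 : ∀ k z, z ≠ w → pt e col (Function.update v w k) z = pt e (era col w) v z := by
    intro k z hz
    unfold pt era
    simp [hz]
  have h3 : ∀ k, pt e col (Function.update v w k) w = some (e c0, k) := by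
    intro k; unfold pt; rw [h1]; simp
  have h4 : ∀ k, fg B e col lab f (Function.update v w k) = fg B e (era col w) lab f v := by
    intro k
    have h5 : inj col lab (Function.update v w k) ↔ inj (era col w) lab v := by
      rw [inj_update col w c0 h1]
      unfold era
      constructor
      · exact fun h => h.1
      · intro h
        refine ⟨h, fun z hz => ?_⟩
        rw [Finset.mem_filter] at hz
        rw [lw] at hz
        exact absurd hz.2.2.2.1 (by simp)
    unfold fg
    rw [if_congr h5 rfl rfl]
    split_ifs
    · rw [mon_update e col f w c0 h1]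
      have h6 : loc B e (Function.update col w none) f w v (e c0, k) = 1 := by
        rw [loc_eq hB]
        refine Finset.prod_eq_one fun z _ => ?_
        by_cases hz : col z = none ∨ col z = col w
        · have h7 := same_one (B := B) e col w z c0 h1 v k hz
          unfold era at h7
          rw [h7, _root_.one_zpow]
        · push Not at hz
          rw [h0 z hz.1 hz.2, zpow_zero]
      rw [h6, mul_one]; rfl
    · rfl
  have h5 : ∀ k, (K.map fun z => ipo B (pt e col (Function.update v w k) z.1)
      (pt e col (Function.update v w k) z.2))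
      = K.map fun z => ipo B (pt e (era col w) v z.1) (pt e (era col w) v z.2) := by
    intro k
    refine List.map_congr_left fun z hz => ?_
    rw [h2 k _ (hK z hz).1, h2 k _ (hK z hz).2]
  simp only [List.map_cons, List.prod_cons, h4, h5, h3]
  have h6 : ∀ k : Fin 6, fg B e (era col w) lab f v
      * (ipo B (pt e col (Function.update v w k) p) (some (e c0, k))
        * (ipo B (some (e c0, k)) (pt e col (Function.update v w k) q)
        * (K.map fun z => ipo B (pt e (era col w) v z.1) (pt e (era col w) v z.2)).prod))
      = (fg B e (era col w) lab f v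
        * (K.map fun z => ipo B (pt e (era col w) v z.1) (pt e (era col w) v z.2)).prod)
        * (ipo B (pt e (era col w) v p) (some (e c0, k))
          * ipo B (some (e c0, k)) (pt e (era col w) v q)) := by
    intro k
    rw [h2 k p hp, h2 k q hq]; ring
  simp only [h6, ← Finset.mul_sum]
  have h7 : ∑ k : Fin 6, ipo B (pt e (era col w) v p) (some (e c0, k))
      * ipo B (some (e c0, k)) (pt e (era col w) v q)
      = ipo B (pt e (era col w) v p) (pt e (era col w) v q) := by
    cases pt e (era col w) v p with
    | none => simp [ipo]
    | some a =>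
      cases pt e (era col w) v q with
      | none => simp [ipo]
      | some b => exact ipr_contract hB a b (e c0)
  rw [h7]; ring

end Vale.Agent.P355.H147
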