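import Vale.Agent.P355.H147.Acc

/-! Tables of a type and the classes of the products. -/

namespace Vale.Agent.P355.H147

open Finset Matrix Vale.Agent.P355
open Vale.Agent.P355.H129 (force force_eq)

variable {m r c : ℕ} {B : Fin m → M6}

/-- packed data of the group of a type. -/
structure TD where
  /-- root words -/
  W : ℕ
  /-- order -/
  n : ℕ
  /-- elements, 168 bits each -/
  GP : ℕ
  /-- multiplication table, 8 bits each -/
  NU : ℕ
  /-- inverses -/
  IV : ℕ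

/-- element. -/
def TD.g (t : TD) (i : ℕ) : ℕ := Nat.mod (Nat.shiftRight t.GP (Nat.mul 168 i)) (Nat.pow 2 168)
/-- product. -/
def TD.nu (t : TD) (i j : ℕ) : ℕ :=
  Nat.mod (Nat.shiftRight t.NU (Nat.mul 8 (Nat.add (Nat.mul t.n i) j))) 256
/-- inverse. -/
def TD.iv (t : TD) (i : ℕ) : ℕ := Nat.mod (Nat.shiftRight t.IV (Nat.mul 8 i)) 256
/-- action. -/
def TD.act (t : TD) (r c : ℕ) (i : ℕ) (x : Flg (r + 2) c) : Flg (r + 2) c :=
  (symOf r c (t.g i)).act x
/-- type. -/
def TD.typ (t : TD) (r c : ℕ) : Typ (r + 2) c := H147.typ r c (rW t.W)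

/-- composition check: `k` is `g` after `h`. -/
def compCk (r c g h k : ℕ) : Bool :=
  and (allN (r + 2) fun a => Nat.beq (gS k a) (gS h (gS g a)))
    (and (allN c fun a => Nat.beq (gTI k a) (gTI g (gTI h a)))
      (cond (gN k) (cond (gN g) (not (gN h)) (gN h)) (cond (gN g) (gN h) (not (gN h)))))

/-- check of the group. -/
def TD.ck (t : TD) (r c : ℕ) : Bool :=
  and (Nat.blt 0 t.n) (and (Nat.blt c 8) (allN t.n fun i => force (t.g i) fun g =>
    and (symCk r c t.W g) (and (Nat.blt (t.iv i) t.n) (allN t.n fun j => force (t.g j) fun h =>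
      force (t.nu i j) fun u => and (Nat.blt u t.n) (and (Nat.beq (t.nu (t.iv i) u) j)
        (force (t.g u) fun k => compCk r c g h k))))))

theorem sg_comp {x1 x2 x3 : Bool}
    (h : cond x1 (cond x2 (not x3) x3) (cond x2 x3 (not x3)) = true) :
    sg x1 = sg x2 * sg x3 := by
  revert h
  cases x1 <;> cases x2 <;> cases x3 <;> simp [sg]

theorem comp_spec {W g h k : ℕ} (hg : symCk r c W g = true) (hh : symCk r c W h = true)
    (hk : symCk r c W k = true) (hc : compCk r c g h k = true) (x : Flg (r + 2) c) :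
    (symOf r c g).act ((symOf r c h).act x) = (symOf r c k).act x := by
  obtain ⟨g1, g2, -, -, -⟩ := symCk_spec hg
  obtain ⟨h1, h2, -, -, -⟩ := symCk_spec hh
  obtain ⟨k1, k2, -, -, -⟩ := symCk_spec hk
  unfold compCk at hc
  simp only [Bool.and_eq_true] at hc
  obtain ⟨e1, e2, e3⟩ := hc
  have hσ : ∀ a, (symOf r c k).σ a = (symOf r c h).σ ((symOf r c g).σ a) := by
    intro a
    apply Fin.ext
    have e4 := allN_spec e1 a a.2
    rw [Nat.beq_eq] at e4
    show (mkPerm (r + 2) (gS k) (gSI k) a : ℕ)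
      = mkPerm (r + 2) (gS h) (gSI h) (mkPerm (r + 2) (gS g) (gSI g) a)
    rw [mkPerm_val k1, mkPerm_val h1, mkPerm_val g1, e4]
  have hτ : ∀ a, (symOf r c k).τ.symm a = (symOf r c g).τ.symm ((symOf r c h).τ.symm a) := by
    intro a
    apply Fin.ext
    have e4 := allN_spec e2 a a.2
    rw [Nat.beq_eq] at e4
    show ((mkPerm c (gT k) (gTI k)).symm a : ℕ)
      = (mkPerm c (gT g) (gTI g)).symm ((mkPerm c (gT h) (gTI h)).symm a)
    rw [mkPerm_symm_val k2, mkPerm_symm_val g2, mkPerm_symm_val h2, e4]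
  have hn : sg (symOf r c k).neg = sg (symOf r c g).neg * sg (symOf r c h).neg := by
    exact sg_comp e3
  unfold Sym.act
  refine Prod.ext ?_ ?_
  · show Option.map _ (Option.map _ x.1) = Option.map _ x.1
    rw [Option.map_map]
    exact congrArg (fun f => Option.map f x.1) (funext fun a => (hτ a).symm)
  · funext a b
    show sg _ * (sg _ * x.2 _ _) = sg _ * x.2 _ _
    rw [hσ, hσ, hn]; ring

theorem TD.ck_spec {t : TD} (h : t.ck r c = true) :
    0 < t.n ∧ c < 8 ∧ (∀ i < t.n, symCk r c t.W (t.g i) = true) ∧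
      GT t.n (t.act r c) t.nu := by
  unfold TD.ck at h
  simp only [Bool.and_eq_true, Nat.blt_eq, force_eq] at h
  obtain ⟨h0, hc, h1⟩ := h
  have h2 : ∀ i < t.n, symCk r c t.W (t.g i) = true ∧ t.iv i < t.n ∧ ∀ j < t.n,
      t.nu i j < t.n ∧ t.nu (t.iv i) (t.nu i j) = j ∧
        compCk r c (t.g i) (t.g j) (t.g (t.nu i j)) = true := by
    intro i hi
    have h3 := allN_spec h1 i hi
    simp only [Bool.and_eq_true, Nat.blt_eq] at h3
    refine ⟨h3.1, h3.2.1, fun j hj => ?_⟩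
    have h4 := allN_spec h3.2.2 j hj
    simp only [Bool.and_eq_true, Nat.blt_eq, Nat.beq_eq] at h4
    exact h4
  refine ⟨h0, hc, fun i hi => (h2 i hi).1, ⟨fun i hi j hj => ((h2 i hi).2.2 j hj).1, ?_, ?_⟩⟩
  · intro i hi j hj x
    exact comp_spec (h2 i hi).1 (h2 j hj).1 (h2 _ ((h2 i hi).2.2 j hj).1).1
      ((h2 i hi).2.2 j hj).2.2 x
  · intro i hi
    exact ⟨t.iv i, (h2 i hi).2.1, fun j hj => ((h2 i hi).2.2 j hj).2.1⟩

theorem TD.inv {t : TD} (h : t.ck r c = true) (hB : IsMUBs B) {i : ℕ} (hi : i < t.n)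
    (x y : Flg (r + 2) c) :
    (t.typ r c).M B (t.act r c i x) (t.act r c i y) = (t.typ r c).M B x y :=
  Typ.M_act _ hB _ (symCk_spec ((TD.ck_spec h).2.2.1 i hi)).2.2.2.2 x y

/-! ### Flags -/

/-- position of a pair. -/
def ixX (p q : ℕ) : ℕ := Nat.add (Nat.div (Nat.mul q (Nat.sub q 1)) 2) p

/-- digits of a packed flag. -/
def fd (F a b : ℕ) : ℕ := Nat.mod (Nat.shiftRight F (Nat.mul 5 (ixX a b))) 32
/-- internal colour of a packed flag. -/
def fk (r F : ℕ) : ℕ := Nat.mod (Nat.shiftRight F (Nat.mul 5 (ixX 0 (r + 2)))) 16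

/-- the flag. -/
def xF (r c F : ℕ) : Flg (r + 2) c := flg r c (fd F) (fk r F)

/-- admissible packed flag. -/
def goodCk (r c F : ℕ) : Bool :=
  and (Nat.ble (fk r F) c) (allN (r + 2) fun b => allN b fun a => force (fd F a b) fun x =>
    and (Nat.blt 0 x) (cond (Nat.beq b (r + 1)) (Nat.beq x 16) true))

theorem good_spec {F : ℕ} (hc : c < 8) (h : goodCk r c F = true) :
    GoodD r (fd F) (fk r F) ∧ fk r F ≤ c := by
  unfold goodCk at h
  simp only [Bool.and_eq_true, Nat.ble_eq, force_eq] at h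
  obtain ⟨h1, h2⟩ := h
  have h3 : ∀ a b, a < b → b < r + 2 → 0 < fd F a b ∧ (b = r + 1 → fd F a b = 16) := by
    intro a b hab hb
    have h4 := allN_spec (allN_spec h2 b hb) a hab
    simp only [Bool.and_eq_true, Nat.blt_eq] at h4
    refine ⟨h4.1, fun hb' => ?_⟩
    have h5 := h4.2
    have h6 : Nat.beq b (r + 1) = true := by rw [Nat.beq_eq]; exact hb'
    rw [h6] at h5
    exact Nat.eq_of_beq_eq_true h5
  refine ⟨⟨fun a b hab hb => (h3 a b hab hb).1, fun a b _ _ => ?_, fun a ha => ?_, by omega⟩, h1⟩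
  · have : fd F a b < 32 := Nat.mod_lt _ (by norm_num)
    omega
  · exact (h3 a (r + 1) ha (by omega)).2 rfl

/-- words of the left factor. -/
def lwX (r : ℕ) (w : ℕ → ℕ) (k p : ℕ) : ℕ :=
  cond (Nat.blt p r) (w p) (cond (Nat.beq p r) (Nat.mul 2 k) 0)
/-- words of the right factor. -/
def rwX (r k p : ℕ) : ℕ := cond (Nat.beq p (r + 1)) (Nat.mul 2 k) 0
/-- digits of the right factor. -/
def rdX (r : ℕ) (d : ℕ → ℕ → ℕ) (a b : ℕ) : ℕ :=
  cond (Nat.blt b r) (Nat.sub 32 (d a b))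
    (cond (Nat.beq b (r + 1)) (cond (Nat.blt a r) (Nat.sub 32 (d a r)) 16) 16)

theorem cond_blt {α : Type*} (a b : ℕ) (x y : α) :
    cond (Nat.blt a b) x y = if a < b then x else y := by
  by_cases h : a < b
  · rw [if_pos h]
    have h1 : Nat.blt a b = true := by rw [Nat.blt_eq]; exact h
    rw [h1]; rfl
  · rw [if_neg h]
    have h1 : Nat.blt a b = false := by
      rw [Bool.eq_false_iff]; intro h2; rw [Nat.blt_eq] at h2; exact h h2
    rw [h1]; rfl

theorem cond_beq {α : Type*} (a b : ℕ) (x y : α) :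
    cond (Nat.beq a b) x y = if a = b then x else y := by
  by_cases h : a = b
  · rw [if_pos h]
    have h1 : Nat.beq a b = true := by rw [Nat.beq_eq]; exact h
    rw [h1]; rfl
  · rw [if_neg h]
    have h1 : Nat.beq a b = false := by
      rw [Bool.eq_false_iff]; intro h2; rw [Nat.beq_eq] at h2; exact h h2
    rw [h1]; rfl

theorem lwX_eq (r : ℕ) (w : ℕ → ℕ) (k : ℕ) : lwX r w k = lw r w k := by
  funext p
  unfold lwX lw
  rw [cond_blt, cond_beq]; rfl

theorem rwX_eq (r k : ℕ) : rwX r k = rw' r k := by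
  funext p
  unfold rwX rw'
  rw [cond_beq]; rfl

theorem rdX_eq (r : ℕ) (d : ℕ → ℕ → ℕ) : rdX r d = rd r d := by
  funext a b
  unfold rdX rd
  rw [cond_blt, cond_beq, cond_blt]
  split_ifs with h1 h2 h3 h4 h4 h4 <;> first | rfl | (exfalso; tauto)

/-- table of a representative: `n` left numbers, `n` right numbers of `SW` bits. -/
def tabCk (SW r c : ℕ) (t : TD) (F T : ℕ) : Bool :=
  and (goodCk r c F) (force (Nat.mod T 2) fun b => force (fk r F) fun k0 =>
    allN t.n fun i => force (t.g i) fun g => force (tC (gTI g) k0) fun k =>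
      force (fld SW T i) fun L => force (fld SW T (Nat.add t.n i)) fun R =>
        and (Nat.beq L (encX (r + 2) (dA g (fd F)) (lwX r (rW t.W) k)))
          (and (Nat.beq R (encX (r + 2) (rdX r (dA g (fd F))) (rwX r k)))
            (and (Nat.beq (Nat.mod L 2) b) (Nat.beq (Nat.mod R 2) b))))

theorem tab_spec {SW F T : ℕ} {t : TD} (hc : c < 8) (h : tabCk SW r c t F T = true) :
    (GoodD r (fd F) (fk r F) ∧ fk r F ≤ c) ∧ ∀ i < t.n,
      fld SW T i = LK r (rW t.W) (dA (t.g i) (fd F)) (tC (gTI (t.g i)) (fk r F)) ∧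
      fld SW T (t.n + i) = RK r (dA (t.g i) (fd F)) (tC (gTI (t.g i)) (fk r F)) ∧
      fld SW T i % 2 = T % 2 ∧ fld SW T (t.n + i) % 2 = T % 2 := by
  unfold tabCk at h
  simp only [Bool.and_eq_true, force_eq] at h
  refine ⟨good_spec hc h.1, fun i hi => ?_⟩
  have h1 := allN_spec h.2 i hi
  simp only [Bool.and_eq_true, Nat.beq_eq] at h1
  obtain ⟨h2, h3, h4, h5⟩ := h1
  rw [encX_eq, lwX_eq] at h2
  rw [encX_eq, rwX_eq, rdX_eq] at h3
  exact ⟨h2, h3, h4, h5⟩

theorem rW_lt (W p : ℕ) : rW W p < 16 := Nat.mod_lt _ (by norm_num)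

/-- value of a product of translates. -/
theorem ent_spec {SW Fk Tk Fl Tl : ℕ} {t : TD} (hB : IsMUBs B) (ht : t.ck r c = true)
    (hk : tabCk SW r c t Fk Tk = true) (hl : tabCk SW r c t Fl Tl = true) {w u : ℕ}
    (hw : w < t.n) (hu : u < t.n) :
    (gv B (colK (r + 2) c (fld SW Tk w + fld SW Tl (t.n + u)))
      (labK (r + 2) (fld SW Tk w + fld SW Tl (t.n + u)))
      (flK (r + 2) (fld SW Tk w + fld SW Tl (t.n + u)))).re
      = (t.typ r c).M B (t.act r c w (xF r c Fk)) (t.act r c u (xF r c Fl)) := by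
  obtain ⟨_, hc, hsym, _⟩ := TD.ck_spec ht
  obtain ⟨⟨gk, kk⟩, h1⟩ := tab_spec hc hk
  obtain ⟨⟨gl, kl⟩, h2⟩ := tab_spec hc hl
  rw [(h1 w hw).1, (h2 u hu).2.1]
  rw [key_prod hB (fun a _ => rW_lt t.W a) (goodD_act (hsym w hw) gk kk hc)
    (goodD_act (hsym u hu) gl kl hc)]
  have a1 := act_flg (hsym w hw) gk kk
  have a2 := act_flg (hsym u hu) gl kl
  exact (Typ.M_congr _ hB _ _ _ _ a1.1 a1.2 a2.1 a2.2).symm

/-! ### Pairs -/

/-- weight of a parity. -/
noncomputable def sb (b : ℕ) : ℝ := if b = 1 then Real.sqrt 6 else 1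

theorem sb_mul {a b : ℕ} (ha : a < 2) (hb : b < 2) (x : ℝ) :
    sb a * sb b * x = (mmu a b : ℝ) * ((if (a + b) % 2 = 1 then Real.sqrt 6 else 1) * x) := by
  have h6 : Real.sqrt 6 * Real.sqrt 6 = 6 := Real.mul_self_sqrt (by norm_num)
  have h1 : a = 0 ∨ a = 1 := by omega
  have h2 : b = 0 ∨ b = 1 := by omega
  rcases h1 with rfl | rfl <;> rcases h2 with rfl | rfl
  · simp [sb, mmu]
  · simp [sb, mmu]
  · simp [sb, mmu]
  · have : (mmu 1 1 : ℝ) = 6 := by unfold mmu; norm_num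
    rw [this]
    simp only [sb, if_true]
    rw [h6]; norm_num

/-- class of the entry `j` (28 bits: class, group element, side). -/
def idE (E j : ℕ) : ℕ := Nat.shiftRight (fld 28 E j) 9

/-- check of the entry `e` at the group element `j`. -/
def eCk (key : ℕ → ℕ) (SW : ℕ) (t : TD) (Tk Tl j e : ℕ) : Bool :=
  force (Nat.mod (Nat.shiftRight e 1) 256) fun w => force (t.nu w j) fun u =>
    and (Nat.blt w t.n) (Nat.beq (key (Nat.shiftRight e 9))
      (cond (Nat.beq (Nat.mod e 2) 0) (Nat.add (fld SW Tk w) (fld SW Tl (Nat.add t.n u)))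
        (Nat.add (fld SW Tl u) (fld SW Tk (Nat.add t.n w)))))

/-- check of a pair. -/
def pairCk (key : ℕ → ℕ) (SW : ℕ) (t : TD) (Tk Tl E : ℕ) : Bool :=
  allN t.n fun j => force (fld 28 E j) fun e => eCk key SW t Tk Tl j e

theorem pair_spec {key : ℕ → ℕ} {SW Fk Tk Fl Tl E : ℕ} {t : TD} (hB : IsMUBs B)
    (ht : t.ck r c = true) (hk : tabCk SW r c t Fk Tk = true) (hl : tabCk SW r c t Fl Tl = true)
    (h : pairCk key SW t Tk Tl E = true) {j : ℕ} (hj : j < t.n) :
    sb (Tk % 2) * sb (Tl % 2) * (t.typ r c).M B (xF r c Fk) (t.act r c j (xF r c Fl))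
      = (mmu (Tk % 2) (Tl % 2) : ℝ) * cv B (r + 2) c (key (idE E j)) := by
  obtain ⟨_, hc, hsym, hG⟩ := TD.ck_spec ht
  have h1 := allN_spec h j hj
  simp only [force_eq] at h1
  unfold eCk at h1
  simp only [force_eq, Bool.and_eq_true, Nat.blt_eq, Nat.beq_eq] at h1
  obtain ⟨hw, h2⟩ := h1
  set w : ℕ := Nat.mod (Nat.shiftRight (fld 28 E j) 1) 256 with hwdef
  have hu := hG.lt w hw j hj
  rw [sb_mul (Nat.mod_lt _ (by norm_num)) (Nat.mod_lt _ (by norm_num))]
  congr 1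
  have hM : (t.typ r c).M B (xF r c Fk) (t.act r c j (xF r c Fl))
      = (t.typ r c).M B (t.act r c w (xF r c Fk)) (t.act r c (t.nu w j) (xF r c Fl)) := by
    rw [← hG.act w hw j hj, TD.inv ht hB hw]
  rw [hM]
  have hid : key (idE E j) = key (Nat.shiftRight (fld 28 E j) 9) := rfl
  rw [hid, h2, cond_beq]
  obtain ⟨_, tk⟩ := tab_spec hc hk
  obtain ⟨_, tl⟩ := tab_spec hc hl
  have hcv : ∀ {K b : ℕ} {X : ℝ}, K % 2 = b % 2 →
      (gv B (colK (r + 2) c K) (labK (r + 2) K) (flK (r + 2) K)).re = X →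
      (if b % 2 = 1 then Real.sqrt 6 else 1) * X = cv B (r + 2) c K := by
    intro K b X e1 e2
    unfold cv
    rw [e1, e2]
  by_cases h3 : Nat.mod (fld 28 E j) 2 = 0
  · rw [if_pos h3]
    refine hcv (K := fld SW Tk w + fld SW Tl (t.n + t.nu w j)) ?_ (ent_spec hB ht hk hl hw hu)
    rw [Nat.add_mod, (tk w hw).2.2.1, (tl _ hu).2.2.2]
  · rw [if_neg h3, ((t.typ r c).gram B).symm]
    refine hcv (K := fld SW Tl (t.nu w j) + fld SW Tk (t.n + w)) ?_
      (ent_spec hB ht hl hk hu hw)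
    rw [Nat.add_mod, (tk w hw).2.2.2, (tl _ hu).2.2.1]
    simp only [Nat.add_mod, Nat.mod_mod, add_comm]

end Vale.Agent.P355.H147
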