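import Vale.Agent.P355.H147.Enc

/-! Products of flags as sums of two numbers. `N = r + 2`; the roots are the slots `< r`, the
internal vertex of the left (right) flag is the slot `r` (`r + 1`). -/

namespace Vale.Agent.P355.H147

open Finset Matrix Vale.Agent.P355

variable {m r c : ℕ} {B : Fin m → M6}

/-- colour with code `k` (`0`: none). -/
def oc (c k : ℕ) : Option (Fin c) := if h : 0 < k ∧ k - 1 < c then some ⟨k - 1, h.2⟩ else none

theorem colK_eq (N c key : ℕ) (p : Fin N) : colK N c key p = oc c (wd N key p / 2) := rfl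

theorem oc_zero (c : ℕ) : oc c 0 = none := by simp [oc]

/-- slot of the left internal vertex. -/
def iS (r : ℕ) : Fin (r + 2) := ⟨r, by omega⟩
/-- slot of the right internal vertex. -/
def jS (r : ℕ) : Fin (r + 2) := ⟨r + 1, by omega⟩

/-- the type with root words `w` (twice the colour plus one if labelled). -/
def typ (r c : ℕ) (w : ℕ → ℕ) : Typ (r + 2) c where
  T := fun p => if (p : ℕ) < r then oc c (w p / 2) else none
  lab := fun p => decide ((p : ℕ) < r) && (w p % 2 == 1)
  i0 := iS r
  j0 := jS r

theorem typ_ok (r c : ℕ) (w : ℕ → ℕ) : (typ r c w).Ok := by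
  refine ⟨?_, ?_, ?_, ?_, ?_⟩ <;> simp [typ, iS, jS]

/-- the flag with digits `d` (flow plus 16) and internal colour code `k`. -/
def flg (r c : ℕ) (d : ℕ → ℕ → ℕ) (k : ℕ) : Flg (r + 2) c :=
  (oc c k, fun p q => if p < q then (d p q : ℤ) - 16 else 0)

/-- digits of the right factor. -/
def rd (r : ℕ) (d : ℕ → ℕ → ℕ) (a b : ℕ) : ℕ :=
  if b < r then 32 - d a b else if b = r + 1 ∧ a < r then 32 - d a r else 16

/-- words of the left factor. -/
def lw (r : ℕ) (w : ℕ → ℕ) (k : ℕ) (p : ℕ) : ℕ := if p < r then w p else if p = r then 2 * k else 0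

/-- words of the right factor. -/
def rw' (r : ℕ) (k : ℕ) (p : ℕ) : ℕ := if p = r + 1 then 2 * k else 0

/-- left and right numbers of a flag. -/
def LK (r : ℕ) (w : ℕ → ℕ) (d : ℕ → ℕ → ℕ) (k : ℕ) : ℕ := enc (r + 2) d (lw r w k)
/-- right number of a flag. -/
def RK (r : ℕ) (d : ℕ → ℕ → ℕ) (k : ℕ) : ℕ := enc (r + 2) (rd r d) (rw' r k)

/-- admissible digits. -/
structure GoodD (r : ℕ) (d : ℕ → ℕ → ℕ) (k : ℕ) : Prop where
  lo : ∀ a b, a < b → b < r + 2 → 1 ≤ d a b
  hi : ∀ a b, a < b → b < r + 2 → d a b ≤ 31
  cl : ∀ a, a < r + 1 → d a (r + 1) = 16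
  k8 : k < 8

theorem flg_clean {w : ℕ → ℕ} {d : ℕ → ℕ → ℕ} {k : ℕ} (h : GoodD r d k) :
    (typ r c w).Clean (flg r c d k) := by
  intro q
  constructor
  · show (if jS r < q then _ else _) = _
    rw [if_neg]
    intro h1
    have : (r + 1 : ℕ) < q := h1
    omega
  · show (if q < jS r then _ else _) = _
    split_ifs with h1
    · have h2 : (q : ℕ) < r + 1 := h1
      have h3 : d q (r + 1) = 16 := h.cl q h2
      show ((d q (r + 1) : ℕ) : ℤ) - 16 = 0
      rw [h3]; norm_num
    · rfl

theorem key_prod (hB : IsMUBs B) {w : ℕ → ℕ} {dx dy : ℕ → ℕ → ℕ} {kx ky : ℕ}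
    (hw : ∀ a < r, w a < 16) (hx : GoodD r dx kx) (hy : GoodD r dy ky) :
    (gv B (colK (r + 2) c (LK r w dx kx + RK r dy ky)) (labK (r + 2) (LK r w dx kx + RK r dy ky))
      (flK (r + 2) (LK r w dx kx + RK r dy ky))).re
      = (typ r c w).M B (flg r c dx kx) (flg r c dy ky) := by
  rw [(typ r c w).M_eq (typ_ok r c w) hB _ _ (flg_clean hx) (flg_clean hy)]
  have hK : LK r w dx kx + RK r dy ky
      = enc (r + 2) (fun a b => dx a b + rd r dy a b) (fun a => lw r w kx a + rw' r ky a) := by
    rw [enc_add]; rfl
  have hrd : ∀ a b, a < b → b < r + 2 → rd r dy a b ≤ 31 := by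
    intro a b hab hb
    unfold rd
    split_ifs with h1 h2
    · have := hy.lo a b hab hb; omega
    · have := hy.lo a r h2.2 (by omega); omega
    · norm_num
  have hd65 : ∀ a b, a < b → b < r + 2 → dx a b + rd r dy a b < 65 := by
    intro a b hab hb
    have h1 := hx.hi a b hab hb
    have h2 := hrd a b hab hb
    omega
  have hw16 : ∀ a < r + 2, lw r w kx a + rw' r ky a < 16 := by
    intro a _
    have h1 := hx.k8
    have h2 := hy.k8
    unfold lw rw'
    by_cases h3 : a < r
    · have := hw a h3
      rw [if_pos h3, if_neg (by omega)]; omega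
    · rw [if_neg h3]
      by_cases h4 : a = r
      · rw [if_pos h4, if_neg (by omega)]; omega
      · rw [if_neg h4]
        split_ifs <;> omega
  have hwd : ∀ p : Fin (r + 2), wd (r + 2) (LK r w dx kx + RK r dy ky) p
      = lw r w kx p + rw' r ky p := by
    intro p
    rw [hK]
    exact enc_wd hd65 hw16 p.2
  have hcol : colK (r + 2) c (LK r w dx kx + RK r dy ky)
      = (typ r c w).pcol (flg r c dx kx) (flg r c dy ky) := by
    funext p
    rw [colK_eq, hwd]
    unfold Typ.pcol
    by_cases hj : p = jS r
    · subst hj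
      have h1 : lw r w kx (jS r) + rw' r ky (jS r) = 2 * ky := by
        simp [lw, rw', jS]
      rw [h1, Nat.mul_div_cancel_left _ (by norm_num)]
      simp [typ, flg]
    · by_cases hi : p = iS r
      · subst hi
        have h1 : lw r w kx (iS r) + rw' r ky (iS r) = 2 * kx := by
          simp [lw, rw', iS]
        rw [h1, Nat.mul_div_cancel_left _ (by norm_num)]
        have h2 : iS r ≠ jS r := by simp [iS, jS]
        simp [typ, flg, h2]
      · have hpr : (p : ℕ) < r := by
          have h1 : (p : ℕ) ≠ r := fun h => hi (Fin.ext h)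
          have h2 : (p : ℕ) ≠ r + 1 := fun h => hj (Fin.ext h)
          have := p.2; omega
        have h1 : lw r w kx p + rw' r ky p = w p := by
          unfold lw rw'
          rw [if_pos hpr, if_neg (by omega), add_zero]
        rw [h1]
        have h2 : p ≠ (typ r c w).j0 := hj
        have h3 : p ≠ (typ r c w).i0 := hi
        rw [Function.update_of_ne h2, Function.update_of_ne h3]
        show _ = if (p : ℕ) < r then _ else _
        rw [if_pos hpr]
  have hlab : labK (r + 2) (LK r w dx kx + RK r dy ky) = (typ r c w).lab := by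
    funext p
    unfold labK
    rw [hwd]
    show _ = (decide ((p : ℕ) < r) && (w p % 2 == 1))
    by_cases hpr : (p : ℕ) < r
    · have h1 : lw r w kx p + rw' r ky p = w p := by
        unfold lw rw'
        rw [if_pos hpr, if_neg (by omega), add_zero]
      rw [h1]; simp [hpr]
    · have h1 : (lw r w kx p + rw' r ky p) % 2 = 0 := by
        unfold lw rw'
        rw [if_neg hpr]
        split_ifs <;> omega
      rw [h1]; simp [hpr]
  rw [hcol, hlab]
  refine congrArg Complex.re (gv_congr hB _ _ _ fun p q _ _ _ => ?_)
  -- net flows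
  have hfl : ∀ p q : Fin (r + 2), p < q →
      flK (r + 2) (LK r w dx kx + RK r dy ky) p q = (dx p q : ℤ) + rd r dy p q - 32 := by
    intro p q hpq
    unfold flK
    rw [if_pos hpq, hK, enc_dg hd65 hpq q.2]
    push_cast; ring
  have hfl0 : ∀ p q : Fin (r + 2), ¬ p < q →
      flK (r + 2) (LK r w dx kx + RK r dy ky) p q = 0 := by
    intro p q hpq
    unfold flK
    rw [if_neg hpq]
  have main : ∀ p q : Fin (r + 2), p < q →
      (typ r c w).pfl (flg r c dx kx) (flg r c dy ky) p q
        - (typ r c w).pfl (flg r c dx kx) (flg r c dy ky) q p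
      = (dx p q : ℤ) + rd r dy p q - 32 := by
    intro p q hpq
    have hxx : (flg r c dx kx).2 p q - (flg r c dx kx).2 q p = (dx p q : ℤ) - 16 := by
      show (if p < q then _ else _) - (if q < p then _ else _) = _
      rw [if_pos hpq, if_neg (not_lt.2 hpq.le), sub_zero]
    have hyy : (flg r c dy ky).2 (Equiv.swap (iS r) (jS r) p) (Equiv.swap (iS r) (jS r) q)
        - (flg r c dy ky).2 (Equiv.swap (iS r) (jS r) q) (Equiv.swap (iS r) (jS r) p)
        = 16 - (rd r dy p q : ℤ) := by
      have hy2 : ∀ a b : Fin (r + 2), (flg r c dy ky).2 a b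
          = if a < b then (dy a b : ℤ) - 16 else 0 := fun _ _ => rfl
      have hpq' : (p : ℕ) < q := hpq
      by_cases hq : (q : ℕ) < r
      · have h1 : q ≠ iS r := fun h => by rw [h] at hq; simp [iS] at hq
        have h2 : q ≠ jS r := fun h => by rw [h] at hq; simp [jS] at hq
        have h3 : p ≠ iS r := fun h => by rw [h] at hpq'; simp [iS] at hpq'; omega
        have h4 : p ≠ jS r := fun h => by rw [h] at hpq'; simp [jS] at hpq'; omega
        rw [Equiv.swap_apply_of_ne_of_ne h1 h2, Equiv.swap_apply_of_ne_of_ne h3 h4, hy2, hy2,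
          if_pos hpq, if_neg (not_lt.2 hpq.le)]
        have h5 : rd r dy p q = 32 - dy p q := by unfold rd; rw [if_pos hq]
        have h6 := hy.hi p q hpq' q.2
        rw [h5]; omega
      · by_cases hqi : q = iS r
        · subst hqi
          have hp : (p : ℕ) < r := hpq'
          have h3 : p ≠ iS r := fun h => by rw [h] at hp; simp [iS] at hp
          have h4 : p ≠ jS r := fun h => by rw [h] at hp; simp [jS] at hp
          rw [Equiv.swap_apply_left, Equiv.swap_apply_of_ne_of_ne h3 h4, hy2, hy2]
          have h5 : p < jS r := by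
            show (p : ℕ) < r + 1; omega
          rw [if_pos h5, if_neg (not_lt.2 h5.le)]
          have h6 : rd r dy p (iS r) = 16 := by
            unfold rd; rw [if_neg (by simp [iS]), if_neg (by simp [iS])]
          have h7 : dy p (jS r) = 16 := hy.cl p (by omega)
          rw [h6, h7]; norm_num
        · have hqj : q = jS r := by
            apply Fin.ext
            have h1 : (q : ℕ) ≠ r := fun h => hqi (Fin.ext h)
            have := q.2
            show (q : ℕ) = r + 1
            omega
          subst hqj
          by_cases hpi : p = iS r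
          · subst hpi
            rw [Equiv.swap_apply_left, Equiv.swap_apply_right, hy2, hy2]
            have h5 : iS r < jS r := by
              show (r : ℕ) < r + 1; omega
            rw [if_neg (not_lt.2 h5.le), if_pos h5]
            have h6 : rd r dy (iS r) (jS r) = 16 := by
              unfold rd
              rw [if_neg (by simp [jS]), if_neg (by simp [iS, jS])]
            have h7 : dy (iS r) (jS r) = 16 := hy.cl r (by omega)
            rw [h6, h7]; norm_num
          · have hp : (p : ℕ) < r := by
              have h1 : (p : ℕ) < r + 1 := hpq'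
              have h2 : (p : ℕ) ≠ r := fun h => hpi (Fin.ext h)
              omega
            have h4 : p ≠ jS r := fun h => by rw [h] at hp; simp [jS] at hp
            rw [Equiv.swap_apply_right, Equiv.swap_apply_of_ne_of_ne hpi h4, hy2, hy2]
            have h5 : p < iS r := hp
            rw [if_pos h5, if_neg (not_lt.2 h5.le)]
            have h6 : rd r dy p (jS r) = 32 - dy p (iS r) := by
              unfold rd
              rw [if_neg (by simp [jS]), if_pos ⟨by simp [jS], hp⟩]
              rfl
            have h7 := hy.hi p r hp (by omega)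
            have h8 : dy p (iS r) = dy p r := rfl
            rw [h6, h8]; omega
    unfold Typ.pfl
    have h1 : (typ r c w).i0 = iS r := rfl
    have h2 : (typ r c w).j0 = jS r := rfl
    rw [h1, h2]
    linarith
  rcases lt_trichotomy p q with h | h | h
  · rw [hfl p q h, hfl0 q p (not_lt.2 h.le), main p q h]; ring
  · subst h; ring
  · rw [hfl q p h, hfl0 p q (not_lt.2 h.le)]
    have := main q p h
    linarith

end Vale.Agent.P355.H147
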