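import Vale.Agent.P355.H147.Pair
import Vale.Agent.P355.H129.Psd

/-! The sum of squares of a type. -/

namespace Vale.Agent.P355.H147

open Finset Matrix Vale.Agent.P355
open Vale.Agent.P355.H129 (force force_eq dg Gm Gm_comm NRep psdCk psdCk_nonneg psdCk_bdd)

variable {m r c : ℕ} {B : Fin m → M6}

section abstract

variable {X : Type*}

/-- multiplicity inside a diagonal pair. -/
def mu2 (s s' : ℕ) : ℕ := cond (Nat.blt s' s) 2 (cond (Nat.beq s' s) 1 0)

theorem sum_mu2 (d : ℕ) (f : ℕ → ℕ → ℝ) (h : ∀ i j, f i j = f j i) :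
    ∑ s ∈ range d, ∑ s' ∈ range d, f s s'
      = ∑ s ∈ range d, ∑ s' ∈ range d, (mu2 s s' : ℝ) * f s s' := by
  rw [sum_symm' d f h]
  refine Finset.sum_congr rfl fun s hs => ?_
  have hs' := mem_range.1 hs
  have e : ∑ s' ∈ range d, (mu2 s s' : ℝ) * f s s'
      = ∑ s' ∈ range (s + 1), (mu2 s s' : ℝ) * f s s' := by
    symm
    refine Finset.sum_subset (range_subset_range.2 hs') fun s' _ h2 => ?_
    have h3 : ¬ s' < s + 1 := by simpa using h2
    unfold mu2
    rw [cond_blt, cond_beq, if_neg (by omega), if_neg (by omega), Nat.cast_zero, zero_mul]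
  rw [e, Finset.sum_range_succ, add_comm, Finset.mul_sum]
  congr 1
  · refine Finset.sum_congr rfl fun s' h2 => ?_
    have h3 := mem_range.1 h2
    unfold mu2
    rw [cond_blt, if_pos h3]; norm_num
  · unfold mu2
    rw [cond_blt, cond_beq, if_neg (lt_irrefl s), if_pos rfl]; norm_num

/-- the bilinear functional of the pairs of representatives. -/
noncomputable def Lam (nk n : ℕ) (MK : ℕ → ℕ → ℕ → ℝ) (α : ℕ → ℕ → ℕ → ℝ)
    (α' : ℕ → ℕ → ℝ) : ℝ :=
  ∑ k ∈ range nk, (∑ l ∈ range k, ∑ j ∈ range n, α k l j * MK k l j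
    + ∑ j ∈ range n, α' k j * MK k k j)

theorem Lam_add (nk n : ℕ) (MK : ℕ → ℕ → ℕ → ℝ) (α β : ℕ → ℕ → ℕ → ℝ)
    (α' β' : ℕ → ℕ → ℝ) :
    Lam nk n MK (fun k l j => α k l j + β k l j) (fun k j => α' k j + β' k j)
      = Lam nk n MK α α' + Lam nk n MK β β' := by
  unfold Lam
  rw [← Finset.sum_add_distrib]
  refine Finset.sum_congr rfl fun k _ => ?_
  simp only [add_mul, Finset.sum_add_distrib]
  ring

theorem Lam_zero (nk n : ℕ) (MK : ℕ → ℕ → ℕ → ℝ) :
    Lam nk n MK (fun _ _ _ => 0) (fun _ _ => 0) = 0 := by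
  simp [Lam]

/-- one block. -/
theorem block_pairs2 {n d nk : ℕ} (hd : 0 < d) {act : ℕ → X → X} {ν : ℕ → ℕ → ℕ}
    (hG : GT n act ν)
    {M : X → X → ℝ} (hM : GramF M) (hinv : ∀ i < n, ∀ x y, M (act i x) (act i y) = M x y)
    (A : ℕ → ℕ → ℝ) (x : ℕ → X) (σ : ℕ → ℝ) {Q : ℕ → ℕ → ℝ} (hs : ∀ i j, Q i j = Q j i)
    (hQ : ∀ z : ℕ → ℂ, 0 ≤ ∑ i ∈ range (nk * d), ∑ j ∈ range (nk * d),
      Q i j * (z i * star (z j)).re) :
    0 ≤ Lam nk n (fun k l j => σ k * σ l * M (x k) (act j (x l)))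
      (fun k l j => ∑ s ∈ range d, ∑ s' ∈ range d,
        Q (k * d + s) (l * d + s') * (2 * corr n ν A s s' j))
      (fun k j => ∑ s ∈ range d, ∑ s' ∈ range d,
        Q (k * d + s) (k * d + s') * (mu2 s s' * corr n ν A s s' j)) := by
  -- scaled matrix
  set Q' : ℕ → ℕ → ℝ := fun i j => σ (i / d) * σ (j / d) * Q i j with hQ'
  have hs' : ∀ i j, Q' i j = Q' j i := fun i j => by rw [hQ']; simp only; rw [hs]; ring
  have hpos : ∀ z : ℕ → ℂ, 0 ≤ ∑ i ∈ range (nk * d), ∑ j ∈ range (nk * d),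
      Q' i j * (z i * star (z j)).re := by
    intro z
    have h1 := hQ fun i => (σ (i / d) : ℂ) * z i
    refine h1.trans (le_of_eq (Finset.sum_congr rfl fun i _ => Finset.sum_congr rfl fun j _ => ?_))
    have h3 : star ((σ (j / d) : ℝ) : ℂ) = ((σ (j / d) : ℝ) : ℂ) := Complex.conj_ofReal _
    have h4 : (σ (i / d) : ℂ) * z i * star ((σ (j / d) : ℂ) * z j)
        = ((σ (i / d) * σ (j / d) : ℝ) : ℂ) * (z i * star (z j)) := by
      rw [star_mul', h3]; push_cast; ring
    rw [h4, Complex.re_ofReal_mul]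
    rw [hQ']; ring
  have h := EA_nonneg (n := n) (d := d) (nk := nk) (act := act) hM A x hpos
  have e : ∀ k s, s < d → (k * d + s) / d = k ∧ (k * d + s) % d = s := by
    intro k s hs
    constructor
    · rw [mul_comm, Nat.mul_add_div hd, Nat.div_eq_of_lt hs, add_zero]
    · rw [mul_comm, Nat.mul_add_mod, Nat.mod_eq_of_lt hs]
  set F : ℕ → ℕ → ℝ := fun k l => ∑ s ∈ range d, ∑ s' ∈ range d,
    Q (k * d + s) (l * d + s') * (σ k * σ l * EA n act M A x k s l s') with hF
  have h1 : ∑ i ∈ range (nk * d), ∑ j ∈ range (nk * d),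
      Q' i j * EA n act M A x (i / d) (i % d) (j / d) (j % d)
      = ∑ k ∈ range nk, ∑ l ∈ range nk, F k l := by
    rw [sum_div_mod]
    refine Finset.sum_congr rfl fun k _ => ?_
    have h2 : ∀ s ∈ range d, ∑ j ∈ range (nk * d), Q' (k * d + s) j
        * EA n act M A x ((k * d + s) / d) ((k * d + s) % d) (j / d) (j % d)
        = ∑ l ∈ range nk, ∑ s' ∈ range d, Q (k * d + s) (l * d + s')
          * (σ k * σ l * EA n act M A x k s l s') := by
      intro s hs
      rw [(e k s (mem_range.1 hs)).1, (e k s (mem_range.1 hs)).2, sum_div_mod]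
      refine Finset.sum_congr rfl fun l _ => Finset.sum_congr rfl fun s' hs' => ?_
      rw [(e l s' (mem_range.1 hs')).1, (e l s' (mem_range.1 hs')).2]
      rw [hQ']
      simp only
      rw [(e k s (mem_range.1 hs)).1, (e l s' (mem_range.1 hs')).1]; ring
    rw [Finset.sum_congr rfl h2, Finset.sum_comm]
  have hsym : ∀ k l, F k l = F l k := by
    intro k l
    rw [hF]
    simp only
    rw [Finset.sum_comm]
    refine Finset.sum_congr rfl fun s' _ => Finset.sum_congr rfl fun s _ => ?_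
    rw [hs, EA_symm hM, mul_comm (σ k)]
  rw [h1, sum_symm' nk F hsym] at h
  refine h.trans (le_of_eq (Finset.sum_congr rfl fun k _ => ?_))
  have h3 : ∀ l, ∀ μ : ℕ → ℕ → ℝ, ∑ s ∈ range d, ∑ s' ∈ range d,
      μ s s' * (Q (k * d + s) (l * d + s') * (σ k * σ l * EA n act M A x k s l s'))
      = ∑ j ∈ range n, (∑ s ∈ range d, ∑ s' ∈ range d,
      Q (k * d + s) (l * d + s') * (μ s s' * corr n ν A s s' j))
        * (σ k * σ l * M (x k) (act j (x l))) := by
    intro l μ
    simp only [EA_eq hG hinv, Finset.mul_sum, Finset.sum_mul]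
    have h4 : ∀ s ∈ range d, ∑ s' ∈ range d, ∑ j ∈ range n,
        μ s s' * (Q (k * d + s) (l * d + s') * (σ k * σ l
          * (corr n ν A s s' j * M (x k) (act j (x l)))))
        = ∑ j ∈ range n, ∑ s' ∈ range d,
        μ s s' * (Q (k * d + s) (l * d + s') * (σ k * σ l
          * (corr n ν A s s' j * M (x k) (act j (x l))))) := fun s _ => Finset.sum_comm
    rw [Finset.sum_congr rfl h4, Finset.sum_comm]
    refine Finset.sum_congr rfl fun j _ => Finset.sum_congr rfl fun s _ =>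
      Finset.sum_congr rfl fun s' _ => ?_
    ring
  rw [add_comm]
  congr 1
  · rw [Finset.mul_sum]
    refine Finset.sum_congr rfl fun l _ => ?_
    rw [← h3 l fun _ _ => 2, hF]
    simp only [Finset.mul_sum]
  · rw [← h3 k fun s s' => (mu2 s s' : ℝ)]
    rw [hF]
    simp only
    rw [sum_mu2 d _ fun s s' => by rw [hs, EA_symm hM]]

end abstract

/-! ### Blocks -/

/-- packed data of a block. -/
structure BD where
  /-- number of vectors per representative -/
  d : ℕ
  /-- rows of the matrix -/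
  Us : List ℕ
  /-- positive parts of the coefficient functions, 8 bits -/
  Ap : List ℕ
  /-- negative parts -/
  An : List ℕ
  /-- tables -/
  Tp : List (List ℕ)
  Tn : List (List ℕ)
  Sp : List (List ℕ)
  Sn : List (List ℕ)

/-- coefficient functions. -/
noncomputable def BD.A (b : BD) (s i : ℕ) : ℝ :=
  (fld 8 (b.Ap.getD s 0) i : ℝ) - fld 8 (b.An.getD s 0) i

/-- positive part of the correlation. -/
def posX (n : ℕ) (ν : ℕ → ℕ → ℕ) (ap an ap' an' j : ℕ) : ℕ :=
  sumA (fun i => force (ν i j) fun u => Nat.add (Nat.mul (fld 8 ap i) (fld 8 ap' u))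
    (Nat.mul (fld 8 an i) (fld 8 an' u))) n 0

/-- check of the tables of one pair of vectors. -/
def coCk (n : ℕ) (ν : ℕ → ℕ → ℕ) (β μ ap an ap' an' P N : ℕ) : Bool :=
  allN n fun j => Nat.beq (Nat.add (fld β P j) (Nat.mul μ (posX n ν ap an an' ap' j)))
    (Nat.add (fld β N j) (Nat.mul μ (posX n ν ap an ap' an' j)))

theorem posX_eq (n : ℕ) (ν : ℕ → ℕ → ℕ) (ap an ap' an' j : ℕ) : posX n ν ap an ap' an' j
    = ∑ i ∈ range n, (fld 8 ap i * fld 8 ap' (ν i j)
      + fld 8 an i * fld 8 an' (ν i j)) := by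
  unfold posX
  rw [sumA_eq, zero_add]
  exact Finset.sum_congr rfl fun i _ => by rw [force_eq]; rfl

theorem coCk_spec {n : ℕ} {ν : ℕ → ℕ → ℕ} {β μ P N : ℕ} {b : BD} {s s' : ℕ}
    (h : coCk n ν β μ (b.Ap.getD s 0) (b.An.getD s 0) (b.Ap.getD s' 0) (b.An.getD s' 0) P N
      = true) {j : ℕ} (hj : j < n) :
    (fld β P j : ℝ) - fld β N j = μ * corr n ν b.A s s' j := by
  have h1 := allN_spec h j hj
  rw [Nat.beq_eq] at h1
  have h2 : (fld β P j : ℝ) + μ * (posX n ν (b.Ap.getD s 0) (b.An.getD s 0) (b.An.getD s' 0)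
      (b.Ap.getD s' 0) j : ℝ) = fld β N j + μ * (posX n ν (b.Ap.getD s 0) (b.An.getD s 0)
      (b.Ap.getD s' 0) (b.An.getD s' 0) j : ℝ) := by exact_mod_cast h1
  have h3 : corr n ν b.A s s' j = (posX n ν (b.Ap.getD s 0) (b.An.getD s 0)
      (b.Ap.getD s' 0) (b.An.getD s' 0) j : ℝ) - posX n ν (b.Ap.getD s 0) (b.An.getD s 0)
      (b.An.getD s' 0) (b.Ap.getD s' 0) j := by
    rw [posX_eq, posX_eq]
    unfold corr BD.A
    push_cast
    rw [← Finset.sum_sub_distrib]
    exact Finset.sum_congr rfl fun i _ => by ring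
  rw [h3]; linarith

/-- check of one table. -/
def tblCk (n : ℕ) (ν : ℕ → ℕ → ℕ) (β bt : ℕ) (μ : ℕ → ℕ → ℕ) (b : BD) (P N : List (List ℕ)) : Bool :=
  and (Nat.beq P.length b.d) (and (Nat.beq N.length b.d) (allN b.d fun s =>
    and (Nat.beq (P.getD s []).length b.d) (and (Nat.beq (N.getD s []).length b.d)
      (allN b.d fun s' => force ((P.getD s []).getD s' 0) fun p =>
        force ((N.getD s []).getD s' 0) fun q => and (vCk β n bt p) (and (vCk β n bt q)
          (coCk n ν β (μ s s') (b.Ap.getD s 0) (b.An.getD s 0) (b.Ap.getD s' 0) (b.An.getD s' 0)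
            p q))))))

/-- check of a block. -/
def BD.ck (n : ℕ) (ν : ℕ → ℕ → ℕ) (β bt : ℕ) (b : BD) : Bool :=
  and (Nat.blt 0 b.d) (and (tblCk n ν β bt (fun _ _ => 2) b b.Tp b.Tn)
    (tblCk n ν β bt mu2 b b.Sp b.Sn))

/-- entry of a table. -/
def tb (T : List (List ℕ)) (s s' : ℕ) : ℕ := (T.getD s []).getD s' 0

structure TblOk (n : ℕ) (ν : ℕ → ℕ → ℕ) (β bt : ℕ) (μ : ℕ → ℕ → ℕ) (b : BD) (P N : List (List ℕ)) : Prop where
  lP : P.length = b.d
  lN : N.length = b.d
  lP' : ∀ s < b.d, (P.getD s []).length = b.d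
  lN' : ∀ s < b.d, (N.getD s []).length = b.d
  vP : ∀ s < b.d, ∀ s' < b.d, vCk β n bt (tb P s s') = true
  vN : ∀ s < b.d, ∀ s' < b.d, vCk β n bt (tb N s s') = true
  co : ∀ s < b.d, ∀ s' < b.d, ∀ j < n,
    (fld β (tb P s s') j : ℝ) - fld β (tb N s s') j = μ s s' * corr n ν b.A s s' j

theorem tblCk_spec {n : ℕ} {ν : ℕ → ℕ → ℕ} {β bt : ℕ} {μ : ℕ → ℕ → ℕ} {b : BD} {P N : List (List ℕ)}
    (h : tblCk n ν β bt μ b P N = true) : TblOk n ν β bt μ b P N := by
  unfold tblCk at h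
  simp only [Bool.and_eq_true, force_eq] at h
  obtain ⟨h1, h2, h3⟩ := h
  have h4 : ∀ s < b.d, (P.getD s []).length = b.d ∧ (N.getD s []).length = b.d ∧ ∀ s' < b.d,
      vCk β n bt (tb P s s') = true ∧ vCk β n bt (tb N s s') = true ∧
      coCk n ν β (μ s s') (b.Ap.getD s 0) (b.An.getD s 0) (b.Ap.getD s' 0) (b.An.getD s' 0)
        (tb P s s') (tb N s s') = true := by
    intro s hs
    have h5 := allN_spec h3 s hs
    simp only [Bool.and_eq_true] at h5
    refine ⟨Nat.eq_of_beq_eq_true h5.1, Nat.eq_of_beq_eq_true h5.2.1, fun s' hs' => ?_⟩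
    have h6 := allN_spec h5.2.2 s' hs'
    simp only [Bool.and_eq_true] at h6
    exact h6
  exact ⟨Nat.eq_of_beq_eq_true h1, Nat.eq_of_beq_eq_true h2, fun s hs => (h4 s hs).1,
    fun s hs => (h4 s hs).2.1, fun s hs s' hs' => ((h4 s hs).2.2 s' hs').1,
    fun s hs s' hs' => ((h4 s hs).2.2 s' hs').2.1,
    fun s hs s' hs' j hj => coCk_spec ((h4 s hs).2.2 s' hs').2.2 hj⟩

/-- flattened tables. -/
def mkTS (f : BD → List (List ℕ)) (bs : List BD) : List (ℕ × List ℕ) :=
  bs.flatMap fun b => (f b).map fun Ds => (b.d, Ds)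

/-- rows of a representative. -/
def rowsK (k : ℕ) (bs : List BD) : List ℕ :=
  bs.flatMap fun b => (List.range b.d).map fun s => b.Us.getD (k * b.d + s) 0

theorem zN_append (w β l : ℕ) (cc : ℕ → ℕ) (g : ℕ) :
    ∀ (T1 T2 : List (ℕ × List ℕ)) (R1 R2 : List ℕ), T1.length = R1.length →
    zN w β l cc (T1 ++ T2) (R1 ++ R2) g
      = zN w β l (fun _ => 0) T1 R1 g + zN w β l cc T2 R2 g
  | [], T2, R1, R2, h => by
    have : R1 = [] := List.eq_nil_of_length_eq_zero (by simpa using h.symm)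
    subst this
    simp [zN]
  | t :: T1, T2, [], R2, h => by simp at h
  | t :: T1, T2, R :: R1, R2, h => by
    have ih := zN_append w β l cc g T1 T2 R1 R2 (by simpa using h)
    show _ + zN w β l cc (T1 ++ T2) (R1 ++ R2) g = _
    rw [ih]
    show _ = (_ + zN w β l (fun _ => 0) T1 R1 g) + _
    ring

theorem zN_map (w β l : ℕ) (g d : ℕ) :
    ∀ (T : List (List ℕ)) (R : List ℕ), T.length = R.length →
    zN w β l (fun _ => 0) (T.map fun Ds => (d, Ds)) R g
      = ∑ s ∈ range R.length, ∑ s' ∈ range (T.getD s []).length,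
        dg (2 ^ w) (R.getD s 0) (d * l + s') * dg (2 ^ β) (tb T s s') g
  | [], R, h => by
    have : R = [] := List.eq_nil_of_length_eq_zero (by simpa using h.symm)
    subst this
    simp [zN]
  | t :: T, [], h => by simp at h
  | t :: T, R :: R1, h => by
    have ih := zN_map w β l g d T R1 (by simpa using h)
    have e : zN w β l (fun _ => 0) ((t :: T).map fun Ds => (d, Ds)) (R :: R1) g
        = (∑ s' ∈ range t.length, dg (2 ^ w) R (d * l + s') * dg (2 ^ β) (t.getD s' 0) g)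
          + zN w β l (fun _ => 0) (T.map fun Ds => (d, Ds)) R1 g := rfl
    rw [e, ih, List.length_cons, Finset.sum_range_succ', add_comm]
    rfl

/-- contribution of a block. -/
def bC (w β : ℕ) (f : BD → List (List ℕ)) (k l g : ℕ) (b : BD) : ℕ :=
  ∑ s ∈ range b.d, ∑ s' ∈ range b.d,
    dg (2 ^ w) (b.Us.getD (k * b.d + s) 0) (l * b.d + s') * dg (2 ^ β) (tb (f b) s s') g

theorem zN_blocks (w β k l : ℕ) (cc : ℕ → ℕ) (g : ℕ) (f : BD → List (List ℕ)) :
    ∀ (bs : List BD), (∀ b ∈ bs, (f b).length = b.d ∧ ∀ s < b.d, ((f b).getD s []).length = b.d) →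
    zN w β l cc (mkTS f bs) (rowsK k bs) g = (bs.map (bC w β f k l g)).sum + cc g
  | [], _ => by simp [mkTS, rowsK, zN]
  | b :: bs, h => by
    have ih := zN_blocks w β k l cc g f bs fun b' hb' => h b' (by simp [hb'])
    obtain ⟨h1, h2⟩ := h b (by simp)
    have e1 : mkTS f (b :: bs) = ((f b).map fun Ds => (b.d, Ds)) ++ mkTS f bs := rfl
    have e2 : rowsK k (b :: bs) = ((List.range b.d).map fun s => b.Us.getD (k * b.d + s) 0)
      ++ rowsK k bs := rfl
    rw [e1, e2, zN_append _ _ _ _ _ _ _ _ _ (by simp [h1]), ih, zN_map _ _ _ _ _ _ _ (by simp [h1])]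
    rw [List.map_cons, List.sum_cons, add_assoc]
    congr 1
    unfold bC
    rw [List.length_map, List.length_range]
    refine Finset.sum_congr rfl fun s hs => ?_
    rw [h2 s (mem_range.1 hs)]
    refine Finset.sum_congr rfl fun s' _ => ?_
    have e3 : ((List.range b.d).map fun s => b.Us.getD (k * b.d + s) 0).getD s 0
        = b.Us.getD (k * b.d + s) 0 := by
      rw [List.getD_eq_getElem _ _ (by simpa using mem_range.1 hs)]
      simp
    rw [e3, mul_comm b.d l]

/-- packed sum of all tables. -/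
def cstX (oU : ℕ) (TS : List (ℕ × List ℕ)) : ℕ :=
  Nat.mul oU (List.rec (motive := fun _ => ℕ) 0 (fun t _ ih => Nat.add (H129.sumL t.2) ih) TS)

end Vale.Agent.P355.H147
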