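import Vale.Agent.P355.H693W.T2N

/-! The word of the triangle with the other orientation. -/

namespace Vale.Agent.P355.H147

open Finset Matrix Vale.Agent.P355
open Vale.Agent.P355.H998.E
open Vale.Agent.P355.H693 (w2c net T2 T2_emb gTri wTri fTri iTri net_fTri gv_tri pwp)
open Vale.Agent.P355.H129 (force force_eq NRep tP tM tV resL1)

set_option linter.unusedSectionVars false

variable {m c : ℕ} {B : Fin m → M6}

/-- the word of the reversed triangle. -/
def triCkR (C : ℕ) : Bool :=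
  and (Nat.beq (parC C) 0) (and (allN 8 fun p => Nat.beq (qd (wp C) p) (wTri p))
    (allN 3 fun q => allN q fun p => Nat.beq (Nat.add (dg C p q) (gTri p q)) 128))

theorem tri_wordR (hB : IsMUBs B) (hc : 3 ≤ c) (hcm : c ≤ m) {C : ℕ} (h : triCkR C = true) :
    cvB B c C = (Fintype.card (Fin 3 ↪ Fin m) : ℝ)⁻¹ * (T2 B).re := by
  unfold triCkR at h
  simp only [Bool.and_eq_true, Nat.beq_eq] at h
  obtain ⟨h0, h1, h2⟩ := h
  have hw : ∀ p : Fin 8, qd (wp C) p = wTri p := by
    intro p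
    have := allN_spec h1 p p.2
    rwa [Nat.beq_eq] at this
  have hcolw : ∀ p : Fin 8, colB 8 c C p = w2c c (wTri p) := by
    intro p; unfold colB; rw [hw]
  have hcol : ∀ i : Fin 3, colB 8 c C (iTri (by norm_num : 3 ≤ 8) i)
      = some (Fin.castLE hc i) := by
    intro i
    rw [hcolw]
    fin_cases i
    · exact H693.w2c_word hc 0 (by norm_num) 2 (by norm_num)
    · exact H693.w2c_word hc 1 (by norm_num) 4 (by norm_num)
    · exact H693.w2c_word hc 2 (by norm_num) 6 (by norm_num)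
  have hoth : ∀ p : Fin 8, p ∉ Set.range (iTri (by norm_num : 3 ≤ 8)) → colB 8 c C p = none := by
    intro p hp
    rw [hcolw, H693.wTri_ge (H693.not_range_iTri _ hp)]
    exact H693.w2c_none (by norm_num)
  have hlab : ∀ i : Fin 3, labB 8 C (iTri (by norm_num : 3 ≤ 8) i) = false := by
    intro i
    unfold labB
    rw [hw]
    exact H693.wTri_lab i
  have hfl : gv B (colB 8 c C) (labB 8 C) (flB 8 C)
      = gv B (colB 8 c C) (labB 8 C) (fun p q => - fTri (by norm_num : 3 ≤ 8) p q) := by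
    refine gv_congr hB _ _ _ fun p q hp hq hpq => ?_
    have hp3 : (p : ℕ) < 3 := by
      by_contra h3
      apply hp
      rw [hcolw, H693.wTri_ge (by omega)]
      exact H693.w2c_none (by norm_num)
    have hq3 : (q : ℕ) < 3 := by
      by_contra h3
      apply hq
      rw [hcolw, H693.wTri_ge (by omega)]
      exact H693.w2c_none (by norm_num)
    have key : ∀ a b : Fin 8, a < b → (b : ℕ) < 3 →
        flB 8 C a b - flB 8 C b a = - fTri (by norm_num : 3 ≤ 8) a b
          - - fTri (by norm_num : 3 ≤ 8) b a := by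
      intro a b hab hb
      have e1 : flB 8 C a b - flB 8 C b a = (dg C a b : ℤ) - 32 := by
        unfold flB
        rw [if_pos hab, if_neg (not_lt.2 hab.le), sub_zero]
      have e2 : fTri (by norm_num : 3 ≤ 8) a b - fTri (by norm_num : 3 ≤ 8) b a
          = (gTri a b : ℤ) - 96 := net_fTri (by norm_num : 3 ≤ 8) hab hb
      have e3 := allN_spec (allN_spec h2 b hb) a hab
      rw [Nat.beq_eq] at e3
      have e3 : dg C a b + gTri a b = 128 := e3
      have e4 : (dg C a b : ℤ) + gTri a b = 128 := by exact_mod_cast e3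
      rw [e1]
      linarith
    rcases lt_trichotomy p q with h3 | h3 | h3
    · exact key p q h3 hq3
    · exact absurd (by rw [h3]) hpq
    · have := key q p h3 hp3
      linarith
  unfold cvB
  rw [h0, pwp_zero, one_mul]
  unfold vB
  rw [hfl, gv_neg_re hB, gv_tri hB hc hcm (by norm_num : 3 ≤ 8) _ hcol hoth _ hlab, ← T2_emb]
  have h2 : ((Fintype.card (Fin 3 ↪ Fin m) : ℂ)⁻¹)
      = (((Fintype.card (Fin 3 ↪ Fin m) : ℝ)⁻¹ : ℝ) : ℂ) := by push_cast; rfl
  rw [h2, Complex.re_ofReal_mul]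
  congr 1

/-- **A lower bound of the squares of the triple products from one type**, negative constant,
reversed triangle. -/
theorem t2_lowerNR (hB : IsMUBs B) (hc : 3 ≤ c) (hcm : c ≤ m) {X : Type*} {nk : ℕ}
    {act : ℕ → X → X} {ν : ℕ → ℕ → ℕ} {M : X → X → ℝ} {x : ℕ → X} {κ : ℝ} {cls : ℕ → ℕ}
    {t : TyE} (hs : SOk t.n nk act ν M x κ t.R (fun i => cvB B c (cls i)) t.BP t.EL)
    (ht : t.Ok ν nk) {P Q : ℕ} (hP : Ch t true 0 nk 0 P) (hQ : Ch t false 0 nk 0 Q)
    {d v c0 e0 c1 e1 E : ℕ} (h0 : empCk (cls e0) = true) (h1 : triCkR (cls e1) = true)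
    (he : endCkN t.Ws nk t.m P Q d v c0 e0 c1 e1 E = true) :
    0 ≤ -(c0 : ℝ) + c1 * ((Fintype.card (Fin 3 ↪ Fin m) : ℝ)⁻¹ * (T2 B).re) + E * (5 / 2) := by
  unfold endCkN at he
  rw [Bool.and_eq_true, force_eq] at he
  obtain ⟨e2, e3⟩ := he
  obtain ⟨p, q, hpq, h3, h4⟩ := ty_result hs ht hP hQ e2
  have h5 : ∀ i, |(fun i => cvB B c (cls i)) i| ≤ 5 / 2 := fun i => abs_cvB_le hB (cls i)
  have s1 : ∀ X : ℕ, Nat.shiftRight X 64 = X / 2 ^ 64 := fun X => by
    show X >>> 64 = _
    rw [Nat.shiftRight_eq_div_pow]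
  rw [s1, s1] at e3
  have h6 := final_ineq h5 hpq h3 h4 [(c1, e1)] [(c0, e0)] e3
  have h7 : tV (fun i => cvB B c (cls i)) [(c1, e1)]
      = c1 * ((Fintype.card (Fin 3 ↪ Fin m) : ℝ)⁻¹ * (T2 B).re) := by
    unfold tV
    simp only [List.map_cons, List.map_nil, List.sum_cons, List.sum_nil]
    rw [tri_wordR hB hc hcm h1]
    ring
  have h8 : tV (fun i => cvB B c (cls i)) [(c0, e0)] = c0 := by
    unfold tV
    simp only [List.map_cons, List.map_nil, List.sum_cons, List.sum_nil]
    rw [emp_word hcm h0]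
    ring
  rw [h7, h8] at h6
  linarith

end Vale.Agent.P355.H147
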