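import Vale.Agent.P355.H147.TypeSos

/-! Evaluation of the sum of squares of a type in chunks, and the final inequality. -/

namespace Vale.Agent.P355.H147

open Finset Matrix Vale.Agent.P355
open Vale.Agent.P355.H129 (force force_eq dg Gm Gm_comm NRep psdCk psdCk_nonneg psdCk_bdd tP tM tV
  resL1 resL1_spec)

/-! ### Blocks -/

theorem BOk.nil (n : ℕ) (ν : ℕ → ℕ → ℕ) (nk β bt oU w bu : ℕ) :
    BOk n ν nk β bt oU w bu [] :=
  ⟨by simp, by simp, by simp, by simp⟩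

theorem BOk.cons {n : ℕ} {ν : ℕ → ℕ → ℕ} {nk β bt oU w bu : ℕ} {bs : List BD}
    (h : BOk n ν nk β bt oU w bu bs) {b : BD} (hc : b.ck n ν β bt = true) {bl v c o δ : ℕ}
    {Cs : List ℕ} (hp : psdCk w bu bl v (Nat.mul nk b.d) c o oU δ b.Us Cs = true) :
    BOk n ν nk β bt oU w bu (b :: bs) := by
  have e : Nat.mul nk b.d = nk * b.d := rfl
  rw [e] at hp
  refine ⟨fun b' hb => ?_, fun b' hb => ?_, fun b' hb => ?_, fun b' hb => ?_⟩ <;>
    rcases List.mem_cons.1 hb with rfl | hb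
  · exact hc
  · exact h.blk b' hb
  · exact (psdCk_bdd hp).1
  · exact h.len b' hb
  · exact (psdCk_bdd hp).2
  · exact h.bdd b' hb
  · exact psdCk_nonneg hp
  · exact h.psd b' hb

/-! ### Parameters -/

/-- number of table entries. -/
def qD (bs : List BD) : ℕ := List.rec (motive := fun _ => ℕ) 0
  (fun b _ ih => Nat.add (Nat.mul b.d b.d) ih) bs

theorem nT_const (d : ℕ) : ∀ (l : List (List ℕ)), (∀ t ∈ l, t.length = d) →
    nT (l.map fun Ds => (d, Ds)) = l.length * d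
  | [], _ => by simp [nT]
  | t :: l, h => by
    have ih := nT_const d l fun t' ht' => h t' (by simp [ht'])
    unfold nT at ih ⊢
    rw [List.map_cons, List.map_cons, List.sum_cons, ih, List.length_cons]
    have := h t (by simp)
    simp only
    rw [this]; ring

theorem nT_append (l l' : List (ℕ × List ℕ)) : nT (l ++ l') = nT l + nT l' := by
  unfold nT; rw [List.map_append, List.sum_append]

theorem nT_mkTS (f : BD → List (List ℕ)) : ∀ (bs : List BD),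
    (∀ b ∈ bs, (f b).length = b.d ∧ ∀ s < b.d, ((f b).getD s []).length = b.d) →
    nT (mkTS f bs) = qD bs
  | [], _ => by simp [mkTS, nT, qD]
  | b :: bs, h => by
    have ih := nT_mkTS f bs fun b' hb' => h b' (by simp [hb'])
    obtain ⟨h1, h2⟩ := h b (by simp)
    have e1 : mkTS f (b :: bs) = ((f b).map fun Ds => (b.d, Ds)) ++ mkTS f bs := rfl
    have e2 : qD (b :: bs) = b.d * b.d + qD bs := rfl
    rw [e1, nT_append, ih, e2, nT_const, h1]
    intro t ht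
    obtain ⟨s, hs, rfl⟩ := List.getElem_of_mem ht
    have h3 := h2 s (by rw [← h1]; exact hs)
    have h4 : (f b).getD s [] = (f b)[s] := by simp [List.getD_eq_getElem?_getD, hs]
    rw [← h4]; exact h3

/-- bound of a coefficient. -/
def m0 (bt bu oU : ℕ) (bs : List BD) : ℕ :=
  Nat.add (Nat.mul (qD bs) (Nat.mul (Nat.pow 2 bu) (Nat.pow 2 bt)))
    (Nat.mul oU (Nat.mul (qD bs) (Nat.pow 2 bt)))

/-- check of the parameters. -/
def parCk (β bt bu oU : ℕ) (bs : List BD) : Bool :=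
  and (Nat.blt 0 β) (Nat.blt (m0 bt bu oU bs) (Nat.pow 2 β))

theorem mem_mkTS {f : BD → List (List ℕ)} {bs : List BD} {t : ℕ × List ℕ} (h : t ∈ mkTS f bs) :
    ∃ b ∈ bs, t.2 ∈ f b := by
  unfold mkTS at h
  rw [List.mem_flatMap] at h
  obtain ⟨b, hb, h2⟩ := h
  rw [List.mem_map] at h2
  obtain ⟨Ds, hD, rfl⟩ := h2
  exact ⟨b, hb, hD⟩

theorem tbl_VR {n : ℕ} {ν : ℕ → ℕ → ℕ} {β bt : ℕ} {μ : ℕ → ℕ → ℕ} (hβ : 0 < β)
    {f f' : BD → List (List ℕ)} {bs : List BD} (h : ∀ b ∈ bs, TblOk n ν β bt μ b (f b) (f' b)) :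
    (∀ t ∈ mkTS f bs, ∀ D ∈ t.2, VR β n D (2 ^ bt) fun g => H129.dg (2 ^ β) D g) ∧
    (∀ t ∈ mkTS f' bs, ∀ D ∈ t.2, VR β n D (2 ^ bt) fun g => H129.dg (2 ^ β) D g) := by
  have key : ∀ {f : BD → List (List ℕ)}, (∀ b ∈ bs, (f b).length = b.d ∧
      (∀ s < b.d, ((f b).getD s []).length = b.d) ∧
      ∀ s < b.d, ∀ s' < b.d, vCk β n bt (tb (f b) s s') = true) →
      ∀ t ∈ mkTS f bs, ∀ D ∈ t.2, VR β n D (2 ^ bt) fun g => H129.dg (2 ^ β) D g := by
    intro f hf t ht D hD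
    obtain ⟨b, hb, h2⟩ := mem_mkTS ht
    obtain ⟨h3, h4, h5⟩ := hf b hb
    obtain ⟨s, hs, e1⟩ := List.getElem_of_mem h2
    obtain ⟨s', hs', e2⟩ := List.getElem_of_mem hD
    have e3 : (f b).getD s [] = t.2 := by
      rw [← e1]; simp [List.getD_eq_getElem?_getD, hs]
    have hs1 : s < b.d := by rw [← h3]; exact hs
    have hs2 : s' < b.d := by rw [← h4 s hs1, e3]; exact hs'
    have e4 : tb (f b) s s' = D := by
      unfold tb
      rw [e3, ← e2]; simp [List.getD_eq_getElem?_getD, hs']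
    have h6 := h5 s hs1 s' hs2
    rw [e4] at h6
    exact vCk_spec hβ h6
  exact ⟨key fun b hb => ⟨(h b hb).lP, (h b hb).lP', (h b hb).vP⟩,
    key fun b hb => ⟨(h b hb).lN, (h b hb).lN', (h b hb).vN⟩⟩

theorem rowsK_bdd {n : ℕ} {ν : ℕ → ℕ → ℕ} {nk β bt oU w bu : ℕ} {bs : List BD}
    (h : BOk n ν nk β bt oU w bu bs) {k : ℕ} (hk : k < nk) :
    ∀ R ∈ rowsK k bs, ∀ j, dg (2 ^ w) R j < 2 ^ bu := by
  intro R hR
  unfold rowsK at hR
  rw [List.mem_flatMap] at hR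
  obtain ⟨b, hb, h2⟩ := hR
  rw [List.mem_map] at h2
  obtain ⟨s, hs, rfl⟩ := h2
  refine h.bdd b hb _ ?_
  have hs' := List.mem_range.1 hs
  calc k * b.d + s < k * b.d + b.d := by omega
    _ = (k + 1) * b.d := by ring
    _ ≤ nk * b.d := Nat.mul_le_mul_right _ hk

/-- the two rows. -/
theorem rowX_ok {R : Rec} {n : ℕ} {ν : ℕ → ℕ → ℕ} {nk β bt oU w bu BP F : ℕ} {bs : List BD}
    (h : BOk n ν nk β bt oU w bu bs) (hp : parCk β bt bu oU bs = true) (hF : ∀ e, R.fm e ≤ F)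
    {EL : List ℕ} {Ws : ℕ} {val : ℕ → ℝ} {k : ℕ} (hk : k < nk) (acc : ℕ) :
    AR Ws val acc (rowX R w β Ws oU n BP (mkTS BD.Tp bs) (mkTS BD.Sp bs) (mkTS BD.Tn bs)
        (mkTS BD.Sn bs) bs EL k acc) (k + 1) ((k + 1) * (n * (6 * F * m0 bt bu oU bs)))
      (rowV R w β oU n BP val (mkTS BD.Tp bs) (mkTS BD.Sp bs) (mkTS BD.Tn bs)
        (mkTS BD.Sn bs) bs EL k) ∧
    AR Ws val acc (rowX R w β Ws oU n BP (mkTS BD.Tn bs) (mkTS BD.Sn bs) (mkTS BD.Tp bs)
        (mkTS BD.Sp bs) bs EL k acc) (k + 1) ((k + 1) * (n * (6 * F * m0 bt bu oU bs)))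
      (rowV R w β oU n BP val (mkTS BD.Tn bs) (mkTS BD.Sn bs) (mkTS BD.Tp bs)
        (mkTS BD.Sp bs) bs EL k) := by
  unfold parCk at hp
  simp only [Bool.and_eq_true, Nat.blt_eq] at hp
  obtain ⟨hβ, hM⟩ := hp
  have hM : m0 bt bu oU bs < 2 ^ β := hM
  have hb := fun b hb => BD.ck_spec (h.blk b hb)
  have t1 := tbl_VR hβ fun b hb' => (hb b hb').2.1
  have t2 := tbl_VR hβ fun b hb' => (hb b hb').2.2
  have n1 := nT_mkTS BD.Tp bs fun b hb' => ((hb b hb').2.1.symm_shape).1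
  have n2 := nT_mkTS BD.Tn bs fun b hb' => ((hb b hb').2.1.symm_shape).2
  have n3 := nT_mkTS BD.Sp bs fun b hb' => ((hb b hb').2.2.symm_shape).1
  have n4 := nT_mkTS BD.Sn bs fun b hb' => ((hb b hb').2.2.symm_shape).2
  have hR := rowsK_bdd h hk
  exact ⟨rowX_spec t1.1 t2.1 t1.2 t2.2 hR n1.le n3.le n2.le n4.le le_rfl hM hF acc,
    rowX_spec t1.2 t2.2 t1.1 t2.1 hR n2.le n4.le n1.le n3.le le_rfl hM hF acc⟩

/-! ### Chunks -/

/-- all data of the evaluation of a type. -/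
structure TyE where
  R : Rec
  n : ℕ
  w : ℕ
  β : ℕ
  bt : ℕ
  bu : ℕ
  oU : ℕ
  Ws : ℕ
  BP : ℕ
  F : ℕ
  bs : List BD
  EL : List ℕ

/-- the row `k` of the sign `s`. -/
def TyE.rowX (t : TyE) (s : Bool) (k acc : ℕ) : ℕ :=
  cond s
    (H147.rowX t.R t.w t.β t.Ws t.oU t.n t.BP (mkTS BD.Tp t.bs) (mkTS BD.Sp t.bs)
      (mkTS BD.Tn t.bs) (mkTS BD.Sn t.bs) t.bs t.EL k acc)
    (H147.rowX t.R t.w t.β t.Ws t.oU t.n t.BP (mkTS BD.Tn t.bs) (mkTS BD.Sn t.bs)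
      (mkTS BD.Tp t.bs) (mkTS BD.Sp t.bs) t.bs t.EL k acc)

/-- its value. -/
noncomputable def TyE.rowV (t : TyE) (val : ℕ → ℝ) (s : Bool) (k : ℕ) : ℝ :=
  cond s
    (H147.rowV t.R t.w t.β t.oU t.n t.BP val (mkTS BD.Tp t.bs) (mkTS BD.Sp t.bs)
      (mkTS BD.Tn t.bs) (mkTS BD.Sn t.bs) t.bs t.EL k)
    (H147.rowV t.R t.w t.β t.oU t.n t.BP val (mkTS BD.Tn t.bs) (mkTS BD.Sn t.bs)
      (mkTS BD.Tp t.bs) (mkTS BD.Sp t.bs) t.bs t.EL k)

/-- bound per entry. -/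
def TyE.m (t : TyE) : ℕ := t.n * (6 * t.F * m0 t.bt t.bu t.oU t.bs)

/-- the data are consistent. -/
structure TyE.Ok (t : TyE) (ν : ℕ → ℕ → ℕ) (nk : ℕ) : Prop where
  b : BOk t.n ν nk t.β t.bt t.oU t.w t.bu t.bs
  p : parCk t.β t.bt t.bu t.oU t.bs = true
  F : ∀ e, t.R.fm e ≤ t.F

/-- the rows `a ≤ k < b` take the accumulator from `X` to `X'`. -/
def Ch (t : TyE) (s : Bool) (a b X X' : ℕ) : Prop := ∀ val : ℕ → ℝ,
  AR t.Ws val X X' (∑ k ∈ Ico a b, (k + 1)) ((∑ k ∈ Ico a b, (k + 1)) * t.m)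
    (∑ k ∈ Ico a b, t.rowV val s k)

/-- `num` rows starting with `k`. -/
def TyE.run (t : TyE) (s : Bool) (num : ℕ) : ℕ → ℕ → ℕ :=
  Nat.rec (motive := fun _ => ℕ → ℕ → ℕ) (fun _ acc => acc)
    (fun _ ih k acc => force (t.rowX s k acc) fun a => force (Nat.succ k) fun k' => ih k' a) num

theorem Ch.trans {t : TyE} {s : Bool} {a b c X X' X'' : ℕ} (h : Ch t s a b X X')
    (h' : Ch t s b c X' X'') (hab : a ≤ b) (hbc : b ≤ c) : Ch t s a c X X'' := by
  intro val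
  have h1 := (h val).trans (h' val)
  rw [Finset.sum_Ico_consecutive _ hab hbc, Finset.sum_Ico_consecutive _ hab hbc, ← add_mul,
    Finset.sum_Ico_consecutive _ hab hbc] at h1
  exact h1

theorem Ch.run {t : TyE} {ν : ℕ → ℕ → ℕ} {nk : ℕ} (ht : t.Ok ν nk) (s : Bool) :
    ∀ (num a X : ℕ), a + num ≤ nk → Ch t s a (a + num) X (t.run s num a X)
  | 0, a, X, _ => by
    intro val
    have e : t.run s 0 a X = X := rfl
    rw [e, add_zero, Finset.Ico_self]
    simpa using AR.refl X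
  | num + 1, a, X, h => by
    have e : t.run s (num + 1) a X = t.run s num (a + 1) (t.rowX s a X) := by
      have e1 : t.run s (num + 1) a X
          = force (t.rowX s a X) fun x => force (a + 1) fun k' => t.run s num k' x := rfl
      rw [e1, force_eq, force_eq]
    rw [e]
    have h1 := Ch.run ht s num (a + 1) (t.rowX s a X) (by omega)
    have h2 : Ch t s a (a + 1) X (t.rowX s a X) := by
      intro val
      have hr := rowX_ok (EL := t.EL) (Ws := t.Ws) (val := val) (BP := t.BP) ht.b ht.p ht.F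
        (show a < nk by omega) X
      have e2 : Ico a (a + 1) = {a} := by
        ext x; rw [Finset.mem_Ico, Finset.mem_singleton]; omega
      rw [e2, Finset.sum_singleton, Finset.sum_singleton]
      unfold TyE.rowX TyE.rowV TyE.m
      cases s
      · exact hr.2
      · exact hr.1
    have e3 : a + (num + 1) = a + 1 + num := by ring
    rw [e3]
    exact h2.trans h1 (by omega) (by omega)

/-- a checked chunk. -/
theorem Ch.ck {t : TyE} {ν : ℕ → ℕ → ℕ} {nk : ℕ} (ht : t.Ok ν nk) (s : Bool) (num a b X X' : ℕ)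
    (h : and (Nat.beq (Nat.add a num) b) (and (Nat.ble b nk) (Nat.beq (t.run s num a X) X'))
      = true) : Ch t s a b X X' := by
  simp only [Bool.and_eq_true, Nat.beq_eq] at h
  obtain ⟨h1, h2, h3⟩ := h
  have h1 : a + num = b := h1
  have h2 : b ≤ nk := Nat.le_of_ble_eq_true h2
  rw [← h3, ← h1]
  exact Ch.run ht s num a X (by omega)

/-- the packed number of a complete run. -/
theorem Ch.fin {t : TyE} {s : Bool} {nk X : ℕ} (h : Ch t s 0 nk 0 X)
    (hc : Nat.blt (Nat.mul nk nk) 18446744073709551616 = true) (val : ℕ → ℝ) :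
    NRep t.Ws val (X / 2 ^ 64) (nk * nk * t.m) (∑ k ∈ range nk, t.rowV val s k) := by
  rw [Nat.blt_eq] at hc
  have hc : nk * nk < 2 ^ 64 := hc
  have h0 : ∑ k ∈ Ico 0 nk, (k + 1) ≤ nk * nk := by
    calc ∑ k ∈ Ico 0 nk, (k + 1) ≤ ∑ _k ∈ Ico 0 nk, nk :=
          Finset.sum_le_sum fun k hk => (Finset.mem_Ico.1 hk).2
      _ = nk * nk := by simp
  have h1 := (h val).final (lt_of_le_of_lt h0 hc)
  rw [← Finset.range_eq_Ico] at h1
  rw [← Finset.range_eq_Ico] at h0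
  exact h1.mono (Nat.mul_le_mul_right _ h0)

/-- **The result of a type.** -/
theorem ty_result {X : Type*} {nk : ℕ} {act : ℕ → X → X} {ν : ℕ → ℕ → ℕ} {M : X → X → ℝ}
    {x : ℕ → X} {κ : ℝ} {val : ℕ → ℝ} {t : TyE}
    (h : SOk t.n nk act ν M x κ t.R val t.BP t.EL) (ht : t.Ok ν nk) {P Q : ℕ}
    (hP : Ch t true 0 nk 0 P) (hQ : Ch t false 0 nk 0 Q)
    (hc : Nat.blt (Nat.mul nk nk) 18446744073709551616 = true) :
    ∃ p q : ℝ, q ≤ p ∧ NRep t.Ws val (P / 2 ^ 64) (nk * nk * t.m) p ∧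
      NRep t.Ws val (Q / 2 ^ 64) (nk * nk * t.m) q := by
  refine ⟨_, _, ?_, hP.fin hc val, hQ.fin hc val⟩
  have h1 := sok_sos h ht.b
  rw [← sub_nonneg, ← Finset.sum_sub_distrib]
  exact h1

/-- **The final inequality**: `tV lp - tV lq` differs from the sum of squares by at most `E` (in
the sense of `ℓ¹`). -/
theorem final_ineq {Ws : ℕ} {val : ℕ → ℝ} {β : ℝ} (hβ : ∀ i, |val i| ≤ β) {P Q MP MQ : ℕ}
    {p q : ℝ} (hpq : q ≤ p) (hP : NRep Ws val P MP p) (hQ : NRep Ws val Q MQ q)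
    {d v E : ℕ} (lp lq : List (ℕ × ℕ))
    (h : resL1 d Ws v (Nat.add P (tP Ws lq)) (Nat.add Q (tP Ws lp)) (Nat.add MP (tM lq))
      (Nat.add MQ (tM lp)) E = true) :
    0 ≤ tV val lp - tV val lq + E * β := by
  have h1 := resL1_spec hβ (hP.add (NRep.terms lq)) (hQ.add (NRep.terms lp)) h
  rw [abs_le] at h1
  linarith [h1.2]

end Vale.Agent.P355.H147
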