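import Vale.Agent.P355.H998.E.Lg
import Vale.Agent.P355.H693.Fin5
import Vale.Agent.P355.H147.TyRun

/-! The words of the triangle and of the empty graph. -/

namespace Vale.Agent.P355.H147

open Finset Matrix Vale.Agent.P355
open Vale.Agent.P355.H998.E
open Vale.Agent.P355.H693 (w2c net T2 T2_emb gTri wTri fTri iTri net_fTri gv_tri pwp)
open Vale.Agent.P355.H129 (force force_eq NRep tP tM tV resL1)

variable {m c : ℕ} {B : Fin m → M6}

/-- the word of the triangle. -/
def triCk (C : ℕ) : Bool :=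
  and (Nat.beq (parC C) 0) (and (allN 8 fun p => Nat.beq (qd (wp C) p) (wTri p))
    (allN 3 fun q => allN q fun p => Nat.beq (Nat.add (dg C p q) 64) (gTri p q)))

theorem pwp_zero : pwp 0 = 1 := by unfold pwp; simp

theorem tri_word (hB : IsMUBs B) (hc : 3 ≤ c) (hcm : c ≤ m) {C : ℕ} (h : triCk C = true) :
    cvB B c C = (Fintype.card (Fin 3 ↪ Fin m) : ℝ)⁻¹ * (T2 B).re := by
  unfold triCk at h
  simp only [Bool.and_eq_true, Nat.beq_eq] at h
  obtain ⟨h0, h1, h2⟩ := h
  have hw : ∀ p : Fin 8, qd (wp C) p = wTri p := by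
    intro p
    have := allN_spec h1 p p.2
    rwa [Nat.beq_eq] at this
  have hcolw : ∀ p : Fin 8, colB 8 c C p = w2c c (wTri p) := by
    intro p; unfold colB; rw [hw]
  have hcol : ∀ i : Fin 3, colB 8 c C (iTri (by norm_num : 3 ≤ 8) i)
      = some (Fin.castLE hc i) := by
    intro i
    rw [hcolw]
    fin_cases i
    · exact H693.w2c_word hc 0 (by norm_num) 2 (by norm_num)
    · exact H693.w2c_word hc 1 (by norm_num) 4 (by norm_num)
    · exact H693.w2c_word hc 2 (by norm_num) 6 (by norm_num)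
  have hoth : ∀ p : Fin 8, p ∉ Set.range (iTri (by norm_num : 3 ≤ 8)) → colB 8 c C p = none := by
    intro p hp
    rw [hcolw, H693.wTri_ge (H693.not_range_iTri _ hp)]
    exact H693.w2c_none (by norm_num)
  have hlab : ∀ i : Fin 3, labB 8 C (iTri (by norm_num : 3 ≤ 8) i) = false := by
    intro i
    unfold labB
    rw [hw]
    exact H693.wTri_lab i
  have hfl : gv B (colB 8 c C) (labB 8 C) (flB 8 C)
      = gv B (colB 8 c C) (labB 8 C) (fTri (by norm_num : 3 ≤ 8)) := by
    refine gv_congr hB _ _ _ fun p q hp hq hpq => ?_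
    have hp3 : (p : ℕ) < 3 := by
      by_contra h3
      apply hp
      rw [hcolw, H693.wTri_ge (by omega)]
      exact H693.w2c_none (by norm_num)
    have hq3 : (q : ℕ) < 3 := by
      by_contra h3
      apply hq
      rw [hcolw, H693.wTri_ge (by omega)]
      exact H693.w2c_none (by norm_num)
    have key : ∀ a b : Fin 8, a < b → (b : ℕ) < 3 →
        flB 8 C a b - flB 8 C b a = fTri (by norm_num : 3 ≤ 8) a b
          - fTri (by norm_num : 3 ≤ 8) b a := by
      intro a b hab hb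
      have e1 : flB 8 C a b - flB 8 C b a = (dg C a b : ℤ) - 32 := by
        unfold flB
        rw [if_pos hab, if_neg (not_lt.2 hab.le), sub_zero]
      have e2 : fTri (by norm_num : 3 ≤ 8) a b - fTri (by norm_num : 3 ≤ 8) b a
          = (gTri a b : ℤ) - 96 := net_fTri (by norm_num : 3 ≤ 8) hab hb
      have e3 := allN_spec (allN_spec h2 b hb) a hab
      rw [Nat.beq_eq] at e3
      have e3 : dg C a b + 64 = gTri a b := e3
      rw [e1, e2, ← e3]; push_cast; ring
    rcases lt_trichotomy p q with h3 | h3 | h3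
    · exact key p q h3 hq3
    · exact absurd (by rw [h3]) hpq
    · have := key q p h3 hp3
      linarith
  unfold cvB
  rw [h0, pwp_zero, one_mul]
  unfold vB
  rw [hfl, gv_tri hB hc hcm (by norm_num : 3 ≤ 8) _ hcol hoth _ hlab, ← T2_emb]
  have h2 : ((Fintype.card (Fin 3 ↪ Fin m) : ℂ)⁻¹)
      = (((Fintype.card (Fin 3 ↪ Fin m) : ℝ)⁻¹ : ℝ) : ℂ) := by push_cast; rfl
  rw [h2, Complex.re_ofReal_mul]
  congr 1

/-- the empty word. -/
def empCk (C : ℕ) : Bool :=
  and (Nat.beq (parC C) 0) (allN 8 fun p => Nat.beq (qd (wp C) p) 0)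

theorem emp_word (hcm : c ≤ m) {C : ℕ} (h : empCk C = true) :
    cvB B c C = 1 := by
  unfold empCk at h
  simp only [Bool.and_eq_true, Nat.beq_eq] at h
  obtain ⟨h0, h1⟩ := h
  have hne : Nonempty (Fin c ↪ Fin m) := ⟨Fin.castLEEmb hcm⟩
  have hc0 : (Fintype.card (Fin c ↪ Fin m) : ℂ) ≠ 0 := by
    exact_mod_cast Fintype.card_ne_zero
  have hcol : ∀ p : Fin 8, colB 8 c C p = none := by
    intro p
    have := allN_spec h1 p p.2
    rw [Nat.beq_eq] at this
    unfold colB
    rw [this]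
    exact H693.w2c_none (by norm_num)
  unfold cvB
  rw [h0, pwp_zero, one_mul]
  unfold vB
  have e : gv B (colB 8 c C) (labB 8 C) (flB 8 C) = 1 := by
    unfold gv av
    have h2 : ∀ (e : Fin c ↪ Fin m) (v : Fin 8 → Fin 6),
        fg B e (colB 8 c C) (labB 8 C) (flB 8 C) v = 1 := by
      intro e v
      unfold fg
      rw [if_pos]
      · unfold mon
        refine Finset.prod_eq_one fun p _ => Finset.prod_eq_one fun q _ => ?_
        have : pt e (colB 8 c C) v p = none := by unfold pt; rw [hcol]; rfl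
        rw [this]; simp
      · intro p q _ _ _ hp _
        exact absurd (hcol p) hp
    simp only [h2, Finset.sum_const, Finset.card_univ, nsmul_eq_mul, Fintype.card_fun,
      Fintype.card_fin]
    have h6 : (6 : ℂ) ^ 8 ≠ 0 := by norm_num
    push_cast
    field_simp
    norm_num
  rw [e]; rfl

/-- numerical check of the end: `P`, `Q` the complete accumulators, `c0`, `c1` the coefficients of
the classes `e0` (empty graph) and `e1` (triangle), `E` the `ℓ¹` norm of the rest. -/
def endCk (Ws nk tm P Q d v c0 e0 c1 e1 E : ℕ) : Bool :=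
  and (Nat.blt (Nat.mul nk nk) 18446744073709551616)
    (force (Nat.mul (Nat.mul nk nk) tm) fun M =>
      resL1 d Ws v (Nat.add (Nat.shiftRight P 64) (tP Ws []))
        (Nat.add (Nat.shiftRight Q 64) (tP Ws [(c0, e0), (c1, e1)]))
        (Nat.add M (tM [])) (Nat.add M (tM [(c0, e0), (c1, e1)])) E)

/-- **A lower bound of the squares of the triple products from one type.** -/
theorem t2_lower (hB : IsMUBs B) (hc : 3 ≤ c) (hcm : c ≤ m) {X : Type*} {nk : ℕ}
    {act : ℕ → X → X} {ν : ℕ → ℕ → ℕ} {M : X → X → ℝ} {x : ℕ → X} {κ : ℝ} {cls : ℕ → ℕ}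
    {t : TyE} (hs : SOk t.n nk act ν M x κ t.R (fun i => cvB B c (cls i)) t.BP t.EL)
    (ht : t.Ok ν nk) {P Q : ℕ} (hP : Ch t true 0 nk 0 P) (hQ : Ch t false 0 nk 0 Q)
    {d v c0 e0 c1 e1 E : ℕ} (h0 : empCk (cls e0) = true) (h1 : triCk (cls e1) = true)
    (he : endCk t.Ws nk t.m P Q d v c0 e0 c1 e1 E = true) :
    0 ≤ (c0 : ℝ) + c1 * ((Fintype.card (Fin 3 ↪ Fin m) : ℝ)⁻¹ * (T2 B).re) + E * (5 / 2) := by
  unfold endCk at he
  rw [Bool.and_eq_true, force_eq] at he
  obtain ⟨e2, e3⟩ := he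
  obtain ⟨p, q, hpq, h3, h4⟩ := ty_result hs ht hP hQ e2
  have h5 : ∀ i, |(fun i => cvB B c (cls i)) i| ≤ 5 / 2 := fun i => abs_cvB_le hB (cls i)
  have s1 : ∀ X : ℕ, Nat.shiftRight X 64 = X / 2 ^ 64 := fun X => by
    show X >>> 64 = _
    rw [Nat.shiftRight_eq_div_pow]
  rw [s1, s1] at e3
  have h6 := final_ineq h5 hpq h3 h4 [(c0, e0), (c1, e1)] [] e3
  have h7 : tV (fun i => cvB B c (cls i)) [(c0, e0), (c1, e1)]
      = (c0 : ℝ) + c1 * ((Fintype.card (Fin 3 ↪ Fin m) : ℝ)⁻¹ * (T2 B).re) := by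
    unfold tV
    simp only [List.map_cons, List.map_nil, List.sum_cons, List.sum_nil]
    rw [emp_word hcm h0, tri_word hB hc hcm h1]
    ring
  have h8 : tV (fun i => cvB B c (cls i)) [] = 0 := by unfold tV; simp
  rw [h7, h8, sub_zero] at h6
  exact h6

end Vale.Agent.P355.H147
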