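import Vale.Agent.P355.H147.Prod
import Vale.Agent.P355.H147.BlockA

/-! Types given by packed data: the symmetry group and its action on flags. -/

namespace Vale.Agent.P355.H147

open Finset Matrix Vale.Agent.P355
open Vale.Agent.P355.H129 (force force_eq)

variable {m r c : ℕ} {B : Fin m → M6}

/-! ### Congruence -/

theorem Typ.phi_congr {N : ℕ} (t : Typ N c) (hB : IsMUBs B) (e : Fin c → Fin m)
    (v : Fin N → Fin 6) (x x' : Flg N c) (h1 : x.1 = x'.1)
    (h2 : ∀ p q, x.2 p q - x.2 q p = x'.2 p q - x'.2 q p) :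
    t.phi B e v x = t.phi B e v x' := by
  unfold Typ.phi
  rw [h1]
  split_ifs
  · congr 1
    exact Finset.sum_congr rfl fun k _ => mon_congr hB e _ _ _ _ fun p q _ _ _ => h2 p q
  · rfl

theorem Typ.M_congr {N : ℕ} (t : Typ N c) (hB : IsMUBs B) (x x' y y' : Flg N c)
    (h1 : x.1 = x'.1) (h2 : ∀ p q, x.2 p q - x.2 q p = x'.2 p q - x'.2 q p)
    (h3 : y.1 = y'.1) (h4 : ∀ p q, y.2 p q - y.2 q p = y'.2 p q - y'.2 q p) :
    t.M B x y = t.M B x' y' := by
  unfold Typ.M
  refine congrArg Complex.re (av_congr fun e v => ?_)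
  rw [t.phi_congr hB e v x x' h1 h2, t.phi_congr hB e v y y' h3 h4]

/-! ### Loops -/

/-- all numbers below `n`. -/
def allN (n : ℕ) (p : ℕ → Bool) : Bool :=
  Nat.rec (motive := fun _ => Bool) true (fun i ih => and (p i) ih) n

theorem allN_spec {n : ℕ} {p : ℕ → Bool} (h : allN n p = true) : ∀ i < n, p i = true := by
  induction n with
  | zero => intro i hi; omega
  | succ n ih =>
    have h1 : (p n && allN n p) = true := h
    rw [Bool.and_eq_true] at h1
    intro i hi
    rcases Nat.lt_succ_iff_lt_or_eq.1 hi with h2 | h2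
    · exact ih h1.2 i h2
    · rw [h2]; exact h1.1

/-! ### Permutations -/

/-- `s` and `t` are inverse permutations below `N`. -/
def permCk (N : ℕ) (s t : ℕ → ℕ) : Bool :=
  allN N fun a => force (s a) fun x => force (t a) fun y =>
    and (Nat.blt x N) (and (Nat.blt y N) (and (Nat.beq (t x) a) (Nat.beq (s y) a)))

theorem permCk_spec {N : ℕ} {s t : ℕ → ℕ} (h : permCk N s t = true) :
    ∀ a < N, s a < N ∧ t a < N ∧ t (s a) = a ∧ s (t a) = a := by
  intro a ha
  have h1 := allN_spec h a ha
  simp only [force_eq, Bool.and_eq_true, Nat.blt_eq, Nat.beq_eq] at h1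
  exact h1

/-- permutation from tables. -/
def mkPerm (N : ℕ) (s t : ℕ → ℕ) : Equiv.Perm (Fin N) :=
  if h : permCk N s t = true then
    { toFun := fun a => ⟨s a, (permCk_spec h a a.2).1⟩
      invFun := fun a => ⟨t a, (permCk_spec h a a.2).2.1⟩
      left_inv := fun a => Fin.ext (permCk_spec h a a.2).2.2.1
      right_inv := fun a => Fin.ext (permCk_spec h a a.2).2.2.2 }
  else 1

theorem mkPerm_val {N : ℕ} {s t : ℕ → ℕ} (h : permCk N s t = true) (a : Fin N) :
    (mkPerm N s t a : ℕ) = s a := by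
  unfold mkPerm; rw [dif_pos h]; rfl

theorem mkPerm_symm_val {N : ℕ} {s t : ℕ → ℕ} (h : permCk N s t = true) (a : Fin N) :
    ((mkPerm N s t).symm a : ℕ) = t a := by
  unfold mkPerm; rw [dif_pos h]; rfl

/-! ### Group elements -/

/-- slot permutation. -/
def gS (g a : ℕ) : ℕ := Nat.mod (Nat.shiftRight g (Nat.mul 4 a)) 16
/-- its inverse. -/
def gSI (g a : ℕ) : ℕ := Nat.mod (Nat.shiftRight g (Nat.add 40 (Nat.mul 4 a))) 16
/-- colour permutation. -/
def gT (g k : ℕ) : ℕ := Nat.mod (Nat.shiftRight g (Nat.add 80 (Nat.mul 4 k))) 16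
/-- its inverse. -/
def gTI (g k : ℕ) : ℕ := Nat.mod (Nat.shiftRight g (Nat.add 120 (Nat.mul 4 k))) 16
/-- conjugation. -/
def gN (g : ℕ) : Bool := Nat.beq (Nat.mod (Nat.shiftRight g 160) 2) 1

/-- the symmetry. -/
def symOf (r c g : ℕ) : Sym (r + 2) c :=
  ⟨mkPerm (r + 2) (gS g) (gSI g), mkPerm c (gT g) (gTI g), gN g⟩

/-- root words. -/
def rW (W p : ℕ) : ℕ := Nat.mod (Nat.shiftRight W (Nat.mul 4 p)) 16

/-- code of a moved colour. -/
def tC (f : ℕ → ℕ) (k : ℕ) : ℕ := Nat.rec (motive := fun _ => ℕ) 0 (fun j _ => Nat.succ (f j)) k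

theorem tC_zero (f : ℕ → ℕ) : tC f 0 = 0 := rfl
theorem tC_succ (f : ℕ → ℕ) (j : ℕ) : tC f (j + 1) = f j + 1 := rfl

/-- check of one group element. -/
def symCk (r c W g : ℕ) : Bool :=
  and (permCk (r + 2) (gS g) (gSI g)) (and (permCk c (gT g) (gTI g))
    (and (Nat.beq (gS g r) r) (and (Nat.beq (gS g (r + 1)) (r + 1))
      (allN r fun p => force (rW W p) fun x => force (rW W (gS g p)) fun y =>
        and (Nat.ble (Nat.div x 2) c) (and (Nat.beq (Nat.mod x 2) (Nat.mod y 2))
          (Nat.beq (Nat.div y 2) (tC (gT g) (Nat.div x 2))))))))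

theorem oc_succ {c k : ℕ} (h : k < c) : oc c (k + 1) = some ⟨k, h⟩ := by
  unfold oc; rw [dif_pos ⟨Nat.succ_pos k, by simpa using h⟩]; rfl

theorem oc_map {c k : ℕ} (f : Fin c → Fin c) (F : ℕ → ℕ) (h : ∀ a : Fin c, (f a : ℕ) = F a)
    (hk : k ≤ c) : (oc c k).map f = oc c (tC F k) := by
  cases k with
  | zero => simp [oc_zero, tC_zero]
  | succ k =>
    have hk' : k < c := hk
    have h1 : F k < c := by rw [← h ⟨k, hk'⟩]; exact (f _).2
    rw [oc_succ hk', tC_succ, oc_succ h1, Option.map_some]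
    congr 1
    exact Fin.ext (h _)

theorem symCk_spec {W g : ℕ} (h : symCk r c W g = true) :
    permCk (r + 2) (gS g) (gSI g) = true ∧ permCk c (gT g) (gTI g) = true ∧ gS g r = r ∧
      gS g (r + 1) = r + 1 ∧ (symOf r c g).Ok (typ r c (rW W)) := by
  unfold symCk at h
  simp only [Bool.and_eq_true, Nat.beq_eq] at h
  obtain ⟨h1, h2, h3, h4, h5⟩ := h
  refine ⟨h1, h2, h3, h4, ?_⟩
  have hlt : ∀ p : Fin (r + 2), (p : ℕ) < r → gS g p < r := by
    intro p hp
    have h6 := permCk_spec h1 p p.2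
    have hr := permCk_spec h1 r (by omega)
    have hr1 := permCk_spec h1 (r + 1) (by omega)
    rw [h3] at hr
    rw [h4] at hr1
    have h7 : gS g p ≠ r := fun h => by
      rw [h] at h6; omega
    have h8 : gS g p ≠ r + 1 := fun h => by
      rw [h] at h6; omega
    omega
  have hge : ∀ p : Fin (r + 2), ¬ (p : ℕ) < r → ¬ gS g p < r := by
    intro p hp
    have : (p : ℕ) = r ∨ (p : ℕ) = r + 1 := by have := p.2; omega
    rcases this with h | h
    · rw [h, h3]; omega
    · rw [h, h4]; omega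
  have hv : ∀ p : Fin (r + 2), (((symOf r c g).σ p : Fin (r + 2)) : ℕ) = gS g p :=
    fun p => mkPerm_val h1 p
  refine ⟨fun p => ?_, fun p => ?_, ?_⟩
  · unfold typ
    simp only
    rw [hv]
    by_cases hp : (p : ℕ) < r
    · rw [if_pos hp, if_pos (hlt p hp)]
      have h9 := allN_spec h5 p hp
      simp only [force_eq, Bool.and_eq_true, Nat.ble_eq, Nat.beq_eq] at h9
      obtain ⟨h10, h11, h12⟩ := h9
      have h14 := oc_map (symOf r c g).τ (gT g) (fun a => mkPerm_val h2 a) h10
      have h15 : rW W (gS g p) / 2 = tC (gT g) (rW W p / 2) := h12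
      rw [h15]; exact h14.symm
    · rw [if_neg hp, if_neg (hge p hp)]; rfl
  · unfold typ
    simp only
    rw [hv]
    by_cases hp : (p : ℕ) < r
    · have h9 := allN_spec h5 p hp
      simp only [force_eq, Bool.and_eq_true, Nat.ble_eq, Nat.beq_eq] at h9
      obtain ⟨h10, h11, h12⟩ := h9
      have h13 : rW W (gS g p) % 2 = rW W p % 2 := h11.symm
      rw [h13]
      simp [hp, hlt p hp]
    · simp [hp, hge p hp]
  · exact Fin.ext (by rw [hv]; exact h3)

/-! ### Action on digits -/

/-- digits of the translate. -/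
def dA (g : ℕ) (d : ℕ → ℕ → ℕ) (a b : ℕ) : ℕ :=
  force (gS g a) fun p => force (gS g b) fun q =>
    force (cond (Nat.blt p q) (d p q) (Nat.sub 32 (d q p))) fun x =>
      cond (gN g) (Nat.sub 32 x) x

theorem dA_eq (g : ℕ) (d : ℕ → ℕ → ℕ) (a b : ℕ) :
    dA g d a b = if gN g = true then 32 - (if gS g a < gS g b then d (gS g a) (gS g b)
      else 32 - d (gS g b) (gS g a)) else (if gS g a < gS g b then d (gS g a) (gS g b)
      else 32 - d (gS g b) (gS g a)) := by
  unfold dA
  simp only [force_eq]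
  by_cases h : gS g a < gS g b
  · have h1 : Nat.blt (gS g a) (gS g b) = true := by rw [Nat.blt_eq]; exact h
    rw [h1, if_pos h]
    cases gN g <;> rfl
  · have h1 : Nat.blt (gS g a) (gS g b) = false := by
      rw [Bool.eq_false_iff]; intro h2; rw [Nat.blt_eq] at h2; exact h h2
    rw [h1, if_neg h]
    cases gN g <;> rfl

theorem goodD_act {W g : ℕ} (hg : symCk r c W g = true) {d : ℕ → ℕ → ℕ} {k : ℕ}
    (h : GoodD r d k) (hk : k ≤ c) (hc : c < 8) : GoodD r (dA g d) (tC (gTI g) k) := by
  obtain ⟨h1, h2, h3, h4, _⟩ := symCk_spec hg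
  have hx : ∀ a b, a < b → b < r + 2 → 1 ≤ (if gS g a < gS g b then d (gS g a) (gS g b)
      else 32 - d (gS g b) (gS g a)) ∧ (if gS g a < gS g b then d (gS g a) (gS g b)
      else 32 - d (gS g b) (gS g a)) ≤ 31 := by
    intro a b hab hb
    have ha := permCk_spec h1 a (by omega)
    have hb' := permCk_spec h1 b hb
    have hne : gS g a ≠ gS g b := fun h => by
      rw [h] at ha; omega
    split_ifs with h5
    · exact ⟨h.lo _ _ h5 hb'.1, h.hi _ _ h5 hb'.1⟩
    · have h6 := h.lo (gS g b) (gS g a) (by omega) ha.1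
      have h7 := h.hi (gS g b) (gS g a) (by omega) ha.1
      omega
  refine ⟨fun a b hab hb => ?_, fun a b hab hb => ?_, fun a ha => ?_, ?_⟩
  · rw [dA_eq]; have := hx a b hab hb; split_ifs at this ⊢ <;> omega
  · rw [dA_eq]; have := hx a b hab hb; split_ifs at this ⊢ <;> omega
  · rw [dA_eq, h4]
    have h5 := permCk_spec h1 a (by omega)
    have h6 := permCk_spec h1 (r + 1) (by omega)
    rw [h4] at h6
    have h7 : gS g a ≠ r + 1 := fun h => by rw [h] at h5; omega
    have h8 : gS g a < r + 1 := by omega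
    rw [if_pos h8, h.cl _ h8]
    split_ifs <;> rfl
  · cases k with
    | zero => rw [tC_zero]; norm_num
    | succ k =>
      have := (permCk_spec h2 k (by omega)).2.1
      rw [tC_succ]; omega

theorem act_flg {W g : ℕ} (hg : symCk r c W g = true) {d : ℕ → ℕ → ℕ} {k : ℕ}
    (h : GoodD r d k) (hk : k ≤ c) :
    ((symOf r c g).act (flg r c d k)).1 = (flg r c (dA g d) (tC (gTI g) k)).1 ∧
    ∀ p q, ((symOf r c g).act (flg r c d k)).2 p q - ((symOf r c g).act (flg r c d k)).2 q p
      = (flg r c (dA g d) (tC (gTI g) k)).2 p q - (flg r c (dA g d) (tC (gTI g) k)).2 q p := by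
  obtain ⟨h1, h2, h3, h4, _⟩ := symCk_spec hg
  constructor
  · exact oc_map (symOf r c g).τ.symm (gTI g) (fun a => mkPerm_symm_val h2 a) hk
  · have hv : ∀ p : Fin (r + 2), (((symOf r c g).σ p : Fin (r + 2)) : ℕ) = gS g p :=
      fun p => mkPerm_val h1 p
    -- the case `p < q`
    have main : ∀ p q : Fin (r + 2), p < q →
        ((symOf r c g).act (flg r c d k)).2 p q - ((symOf r c g).act (flg r c d k)).2 q p
        = (dA g d p q : ℤ) - 16 := by
      intro p q hpq
      have hne : (gS g p : ℕ) ≠ gS g q := fun h' => by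
        have ha := permCk_spec h1 p p.2
        have hb := permCk_spec h1 q q.2
        rw [h'] at ha
        have : (p : ℕ) < q := hpq
        omega
      have hact : ∀ a b, ((symOf r c g).act (flg r c d k)).2 a b
          = sg (gN g) * (if gS g a < gS g b then (d (gS g a) (gS g b) : ℤ) - 16 else 0) := by
        intro a b
        show sg (gN g) * (if (symOf r c g).σ a < (symOf r c g).σ b then
          (d ((symOf r c g).σ a) ((symOf r c g).σ b) : ℤ) - 16 else 0) = _
        have h5 : ((symOf r c g).σ a < (symOf r c g).σ b) ↔ gS g a < gS g b := by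
          rw [Fin.lt_def, hv, hv]
        rw [if_congr h5 rfl rfl, hv, hv]
      rw [hact, hact, dA_eq]
      have hpl := (permCk_spec h1 p p.2).1
      have hql := (permCk_spec h1 q q.2).1
      unfold sg
      by_cases h5 : gS g p < gS g q
      · have h6 := h.hi _ _ h5 hql
        have h8 : ¬ gS g q < gS g p := by omega
        simp only [if_pos h5, if_neg h8]
        split_ifs
        · push_cast [Nat.cast_sub (show d (gS g p) (gS g q) ≤ 32 by omega)]; ring
        · ring
      · have h7 : gS g q < gS g p := by omega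
        have h6 := h.hi _ _ h7 hpl
        simp only [if_pos h7, if_neg h5]
        split_ifs
        · push_cast [Nat.cast_sub (show d (gS g q) (gS g p) ≤ 32 by omega),
            Nat.cast_sub (show 32 - d (gS g q) (gS g p) ≤ 32 by omega)]; ring
        · push_cast [Nat.cast_sub (show d (gS g q) (gS g p) ≤ 32 by omega)]; ring
    have hf : ∀ p q : Fin (r + 2), p < q →
        (flg r c (dA g d) (tC (gTI g) k)).2 p q - (flg r c (dA g d) (tC (gTI g) k)).2 q p
        = (dA g d p q : ℤ) - 16 := by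
      intro p q hpq
      show (if p < q then _ else _) - (if q < p then _ else _) = _
      rw [if_pos hpq, if_neg (not_lt.2 hpq.le), sub_zero]
    intro p q
    rcases lt_trichotomy p q with h5 | h5 | h5
    · rw [main p q h5, hf p q h5]
    · subst h5; ring
    · have e1 := main q p h5
      have e2 := hf q p h5
      linarith

end Vale.Agent.P355.H147
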